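import Vale.Agent.P237.Petty.Cor.Grid.N15.LowCert

/-!
# P237: a cell in dimension 15, subdivisions
-/

namespace Vale.Agent.P237.Petty.Cor.Grid.N15.Low

def covers0 : cell.Covers table row0.1 :=
  ⟨(.cut .d 0 (.cut .v 16777216 (.cut .v 8388608 (.cut .v 4194304 (.cut .v 2097152 (.void 6 ⟨0, 0, 100000, 0, 0, 0, 0, 0, 0, ⟨0, 0⟩, 0⟩ 0 0) (.pos 7 .mm ⟨0, 0, 0, 0, 4271489, 0, 0, 0, 0, ⟨0, 0⟩, 0⟩ 0 0)) (.pos 5 .mm ⟨0, 0, 0, 0, 0, 67423, 0, 0, 0, ⟨0, 0⟩, 0⟩ 0 0)) (.cut .d (-8388608) (.cut .v 12582912 (.pos 8 .mm ⟨0, 0, 0, 0, 0, 0, 0, 0, 0, ⟨0, 0⟩, 0⟩ 0 0) (.pos 9 .mm ⟨0, 0, 0, 0, 0, 0, 0, 0, 0, ⟨0, 0⟩, 0⟩ 0 0)) (.cut .v 12582912 (.cut .d (-4194304) (.pos 8 .mm ⟨0,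 0, 0, 0, 0, 0, 0, 0, 0, ⟨0, 0⟩, 0⟩ 0 0) (.pos 8 .mm ⟨0, 0, 0, 0, 1685588, 0, 0, 0, 0, ⟨0, 0⟩, 0⟩ 0 0)) (.cut .d (-4194304) (.cut .v 14680064 (.pos 12 .mm ⟨0, 0, 0, 0, 0, 11160, 0, 0, 0, ⟨0, 0⟩, 0⟩ 0 0) (.pos 13 .mm ⟨0, 0, 0, 0, 0, 3250, 0, 0, 0, ⟨0, 0⟩, 0⟩ 0 0)) (.cut .d (-2097152) (.cut .v 14680064 (.pos 12 .mm ⟨0, 0, 0, 0, 0, 42991, 0, 0, 0, ⟨0, 0⟩, 0⟩ 0 0) (.pos 13 .mm ⟨0, 0, 0, 0, 0, 38183, 0, 0, 0, ⟨0, 0⟩, 0⟩ 0 0)) (.cut .v 14680064 (.pos 12 .mm ⟨0, 0, 0, 0, 2201551, 668585, 0, 0, 0, ⟨0, 0⟩, 0⟩ 0 0) (.cut .d (-1048576) (.cut .v 15728640 (.pos 14 .mm ⟨0, 0, 0, 0, 0, 67744, 0, 0, 0, ⟨0, 0⟩, 0⟩ 0 0) (.pos 15 .mm ⟨0, 0, 0, 0, 0, 78384, 0, 0, 0, ⟨0, 0⟩, 0⟩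 0 0)) (.cut .v 15728640 (.pos 14 .mm ⟨0, 0, 0, 0, 0, 0, 0, 0, 0, ⟨0, 0⟩, 0⟩ 0 0) (.cut .d (-524288) (.cut .v 16252928 (.pos 16 .mm ⟨0, 0, 0, 0, 0, 349661, 0, 0, 0, ⟨0, 0⟩, 0⟩ 0 0) (.pos 17 .mm ⟨0, 0, 0, 0, 0, 0, 0, 0, 0, ⟨0, 0⟩, 0⟩ 0 0)) (.cut .v 16252928 (.pos 16 .mm ⟨0, 0, 0, 0, 0, 0, 0, 0, 0, ⟨0, 0⟩, 0⟩ 0 0) (.cut .d (-262144) (.pos 17 .mm ⟨0, 0, 0, 0, 0, 0, 0, 0, 0, ⟨0, 0⟩, 0⟩ 0 0) (.pos 17 .mm ⟨0, 0, 0, 0, 0, 0, 0, 0, 0, ⟨0, 0⟩, 0⟩ 0 0)))))))))))) (.cut .v 25165824 (.cut .v 20971520 (.cut .v 18874368 (.cut .v 17825792 (.cut .v 17301504 (.pos 29 .mp ⟨0, 0, 0, 0, 0, 69994, 0, 0, 0, ⟨0, 0⟩, 0⟩ 0 0) (.pos 30 .mp ⟨1696132, 0, 0, 0, 0, 0, 0, 0, 0, ⟨0, 0⟩, 0⟩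 0 0)) (.pos 28 .mp ⟨2064301, 0, 0, 0, 0, 0, 0, 0, 0, ⟨0, 0⟩, 0⟩ 0 0)) (.void 26 ⟨100000, 0, 0, 0, 0, 0, 0, 0, 0, ⟨0, 0⟩, 0⟩ 0 0)) (.void 24 ⟨0, 0, 0, 0, 0, 0, 100000, 0, 0, ⟨0, 0⟩, 0⟩ 0 0)) (.void 22 ⟨0, 0, 0, 0, 0, 0, 100000, 0, 0, ⟨0, 0⟩, 0⟩ 0 0))) (.cut .v 16777216 (.cut .v 8388608 (.cut .v 4194304 (.cut .v 2097152 (.void 6 ⟨0, 0, 100000, 0, 0, 0, 0, 0, 0, ⟨0, 0⟩, 0⟩ 0 0) (.pos 7 .pm ⟨0, 0, 0, 0, 1780354, 0, 0, 0, 0, ⟨0, 0⟩, 0⟩ 0 0)) (.pos 5 .pm ⟨0, 0, 0, 0, 1687944, 0, 0, 0, 0, ⟨0, 0⟩, 0⟩ 0 0)) (.cut .s 851968 (.pos 3 .pm ⟨0, 0, 0, 0, 0, 0, 0, 224063, 0, ⟨(-1), 16643498⟩, 0⟩ 0 15) (.pos 3 .pm ⟨0, 0, 0, 0, 0, 0, 0, 403614, 69313, ⟨37998, 15928289⟩, 14107901⟩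 13 30))) (.cut .v 25165824 (.cut .v 20971520 (.cut .v 18874368 (.cut .d 1035290 (.cut .v 17825792 (.cut .d 517645 (.cut .v 17301504 (.cut .l 850045 (.cut .l 548055 (.cut .d 258822 (.cut .v 17039360 (.pos 31 .pp ⟨0, 0, 0, 0, 0, 0, 0, 0, 0, ⟨0, 0⟩, 0⟩ 0 0) (.pos 32 .pp ⟨926938, 0, 0, 0, 0, 0, 0, 0, 0, ⟨0, 0⟩, 0⟩ 0 0)) (.cut .v 17039360 (.pos 31 .pp ⟨319976, 0, 0, 0, 0, 0, 0, 192953, 0, ⟨(-1), 16350226⟩, 0⟩ 0 27) (.cut .s 851968 (.pos 32 .pp ⟨1910624, 0, 0, 0, 0, 0, 0, 0, 0, ⟨0, 0⟩, 0⟩ 0 0) (.pos 32 .pp ⟨1114652, 0, 0, 0, 0, 0, 0, 416072, 0, ⟨31961, 16047177⟩, 0⟩ 13 27)))) (.pos 29 .pp ⟨0, 0, 0, 0, 0, 0, 0, 0, 0, ⟨0, 0⟩, 0⟩ 0 0)) (.pos 29 .pp ⟨0, 0, 0, 0, 0, 0,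 0, 0, 0, ⟨0, 0⟩, 0⟩ 0 0)) (.pos 30 .pp ⟨1528943, 0, 0, 0, 0, 0, 0, 0, 0, ⟨0, 0⟩, 0⟩ 0 0)) (.cut .v 17301504 (.pos 29 .pp ⟨1242091, 0, 0, 0, 0, 0, 0, 253883, 0, ⟨(-1), 16318710⟩, 0⟩ 0 28) (.cut .d 776467 (.pos 30 .pp ⟨1577677, 0, 0, 0, 0, 0, 0, 0, 0, ⟨0, 0⟩, 0⟩ 0 0) (.pos 30 .pp ⟨1660453, 0, 0, 0, 0, 0, 0, 0, 0, ⟨0, 0⟩, 0⟩ 0 0)))) (.pos 28 .pp ⟨1934774, 0, 0, 0, 0, 0, 0, 0, 0, ⟨0, 0⟩, 0⟩ 0 0)) (.cut .v 17825792 (.pos 27 .pp ⟨1683363, 0, 0, 0, 0, 0, 0, 0, 0, ⟨0, 0⟩, 0⟩ 0 0) (.cut .l 850045 (.void 28 ⟨81361, 0, 0, 0, 0, 0, 0, 18639, 0, ⟨(-1), 16252552⟩, 0⟩ 0 30) (.cut .d 1552935 (.cut .v 18350080 (.pos 37 .pp ⟨1944758, 0, 0, 0, 0, 0, 0, 0, 0, ⟨0, 0⟩, 0⟩ 0 0) (.pos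 38 .pp ⟨2847224, 0, 0, 0, 0, 0, 0, 0, 0, ⟨0, 0⟩, 0⟩ 0 0)) (.cut .v 18350080 (.pos 37 .pp ⟨2342103, 0, 0, 0, 0, 0, 0, 0, 0, ⟨0, 0⟩, 0⟩ 0 0) (.cut .s 851968 (.pos 38 .pp ⟨5515211, 0, 0, 0, 0, 0, 0, 813709, 0, ⟨(-1), 16643498⟩, 0⟩ 0 15) (.pos 38 .pp ⟨3383249, 0, 0, 0, 0, 0, 0, 1537665, 0, ⟨41842, 15895488⟩, 0⟩ 14 30))))))) (.void 26 ⟨81791, 0, 0, 0, 0, 0, 0, 18209, 0, ⟨(-1), 16252552⟩, 0⟩ 0 30)) (.void 24 ⟨0, 0, 0, 0, 0, 0, 100000, 0, 0, ⟨0, 0⟩, 0⟩ 0 0)) (.void 22 ⟨0, 0, 0, 0, 0, 0, 100000, 0, 0, ⟨0, 0⟩, 0⟩ 0 0)))),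
    by decide +kernel⟩

def covers1 : cell.Covers table row1.1 :=
  ⟨(.cut .d 0 (.cut .v 16777216 (.cut .v 8388608 (.void 2 ⟨0, 0, 0, 0, 50000, 50000, 0, 0, 0, ⟨0, 0⟩, 0⟩ 0 0) (.cut .d (-8388608) (.void 3 ⟨0, 0, 0, 0, 0, 100000, 0, 0, 0, ⟨0, 0⟩, 0⟩ 0 0) (.cut .d (-4194304) (.void 3 ⟨0, 0, 0, 0, 0, 100000, 0, 0, 0, ⟨0, 0⟩, 0⟩ 0 0) (.cut .v 12582912 (.pos 8 .mm ⟨0, 0, 0, 0, 12550086, 10086208, 0, 0, 0, ⟨0, 0⟩, 0⟩ 0 0) (.cut .d (-2097152) (.cut .v 14680064 (.pos 12 .mm ⟨0, 0, 0, 0, 0, 666796, 0, 0, 0, ⟨0, 0⟩, 0⟩ 0 0) (.pos 13 .mm ⟨0, 0, 0, 0, 0, 733475, 0, 0, 0, ⟨0, 0⟩, 0⟩ 0 0)) (.cut .v 14680064 (.pos 12 .mm ⟨0, 0, 0, 0, 0, 156917, 0, 0, 0, ⟨0, 0⟩, 0⟩ 0 0) (.cut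 .d (-1048576) (.cut .v 15728640 (.pos 14 .mm ⟨0, 0, 0, 0, 0, 687386, 0, 0, 0, ⟨0, 0⟩, 0⟩ 0 0) (.pos 15 .mm ⟨0, 0, 0, 0, 0, 719494, 0, 0, 0, ⟨0, 0⟩, 0⟩ 0 0)) (.cut .v 15728640 (.cut .d (-524288) (.pos 14 .mm ⟨0, 0, 0, 0, 0, 213968, 0, 0, 0, ⟨0, 0⟩, 0⟩ 0 0) (.pos 14 .mm ⟨0, 0, 0, 0, 0, 168126, 0, 0, 0, ⟨0, 0⟩, 0⟩ 0 0)) (.cut .d (-524288) (.cut .v 16252928 (.pos 16 .mm ⟨0, 0, 0, 0, 0, 196762, 0, 0, 0, ⟨0, 0⟩, 0⟩ 0 0) (.pos 17 .mm ⟨0, 0, 0, 0, 0, 166423, 0, 0, 0, ⟨0, 0⟩, 0⟩ 0 0)) (.cut .v 16252928 (.cut .d (-262144) (.pos 16 .mm ⟨0, 0, 0, 0, 0, 171862, 0, 0, 0, ⟨0, 0⟩, 0⟩ 0 0) (.pos 16 .mm ⟨0, 0, 0, 0, 0, 0, 0, 0, 0, ⟨0, 0⟩, 0⟩ 0 0)) (.cut .d (-262144) (.pos 17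 .mm ⟨0, 0, 0, 0, 0, 0, 0, 0, 0, ⟨0, 0⟩, 0⟩ 0 0) (.cut .v 16515072 (.pos 18 .mm ⟨0, 0, 0, 0, 0, 0, 0, 0, 0, ⟨0, 0⟩, 0⟩ 0 0) (.pos 19 .mm ⟨0, 0, 0, 0, 0, 0, 0, 0, 0, ⟨0, 0⟩, 0⟩ 0 0))))))))))))) (.cut .v 25165824 (.cut .v 20971520 (.cut .v 18874368 (.cut .s 2359296 (.pos 25 .mp ⟨503631, 0, 0, 0, 0, 0, 0, 0, 0, ⟨0, 0⟩, 0⟩ 0 0) (.pos 25 .mp ⟨0, 0, 0, 0, 0, 0, 0, 0, 0, ⟨0, 0⟩, 0⟩ 0 0)) (.void 26 ⟨100000, 0, 0, 0, 0, 0, 0, 0, 0, ⟨0, 0⟩, 0⟩ 0 0)) (.void 24 ⟨100000, 0, 0, 0, 0, 0, 0, 0, 0, ⟨0, 0⟩, 0⟩ 0 0)) (.void 22 ⟨0, 0, 0, 0, 0, 0, 100000, 0, 0, ⟨0, 0⟩, 0⟩ 0 0))) (.cut .v 16777216 (.cut .v 8388608 (.void 2 ⟨0, 0, 0, 0, 100000, 0, 0, 0, 0, ⟨0, 0⟩, 0⟩ 0 0) (.cut .v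 12582912 (.void 8 ⟨0, 0, 0, 0, 100000, 0, 0, 0, 0, ⟨0, 0⟩, 0⟩ 0 0) (.cut .d 1658366 (.cut .v 14680064 (.pos 12 .pm ⟨0, 0, 0, 0, 0, 0, 0, 0, 194289, ⟨0, 0⟩, 15100357⟩ 0 0) (.cut .d 829183 (.cut .v 15728640 (.pos 14 .pm ⟨0, 0, 0, 0, 0, 0, 0, 0, 0, ⟨0, 0⟩, 0⟩ 0 0) (.cut .d 414591 (.cut .v 16252928 (.pos 16 .pm ⟨0, 0, 0, 0, 0, 0, 0, 0, 0, ⟨0, 0⟩, 0⟩ 0 0) (.cut .s 2359296 (.pos 17 .pm ⟨0, 0, 0, 0, 0, 0, 0, 0, 0, ⟨0, 0⟩, 0⟩ 0 0) (.cut .d 207295 (.cut .s 2686976 (.pos 17 .pm ⟨0, 0, 0, 0, 0, 0, 0, 0, 0, ⟨0, 0⟩, 0⟩ 0 0) (.cut .v 16515072 (.pos 18 .pm ⟨0, 0, 0, 0, 0, 0, 0, 0, 0, ⟨0, 0⟩, 0⟩ 0 0) (.cut .d 103647 (.pos 19 .pm ⟨0, 0, 0, 0, 0, 0, 0, 0, 0, ⟨0, 0⟩, 0⟩ 0 0)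 (.pos 19 .pm ⟨0, 0, 0, 0, 0, 0, 0, 0, 0, ⟨0, 0⟩, 0⟩ 0 0)))) (.pos 17 .pm ⟨0, 0, 0, 0, 0, 0, 0, 0, 0, ⟨0, 0⟩, 0⟩ 0 0)))) (.pos 15 .pm ⟨0, 0, 0, 0, 0, 0, 0, 204694, 0, ⟨204956, 14362646⟩, 0⟩ 26 49))) (.pos 13 .pm ⟨0, 0, 0, 0, 0, 0, 0, 204694, 0, ⟨228805, 14180800⟩, 0⟩ 27 51))) (.void 9 ⟨0, 0, 0, 0, 0, 0, 0, 0, 100000, ⟨0, 0⟩, 15612959⟩ 0 0)))) (.cut .v 25165824 (.cut .v 20971520 (.cut .d 1658366 (.cut .v 18874368 (.cut .d 829183 (.cut .v 17825792 (.cut .d 414591 (.cut .v 17301504 (.cut .l 850045 (.cut .d 207295 (.cut .v 17039360 (.pos 31 .pp ⟨0, 0, 0, 0, 0, 0, 0, 0, 0, ⟨0, 0⟩, 0⟩ 0 0) (.pos 32 .pp ⟨0, 0, 0, 0, 0, 0, 0, 0, 0, ⟨0, 0⟩, 0⟩ 0 0)) (.cut .v 17039360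 (.pos 31 .pp ⟨0, 0, 0, 0, 0, 0, 0, 0, 0, ⟨0, 0⟩, 0⟩ 0 0) (.pos 32 .pp ⟨355303, 0, 0, 0, 0, 0, 0, 0, 0, ⟨0, 0⟩, 0⟩ 0 0))) (.pos 29 .pp ⟨0, 0, 0, 0, 0, 0, 0, 0, 0, ⟨0, 0⟩, 0⟩ 0 0)) (.pos 30 .pp ⟨547550, 0, 0, 0, 0, 0, 0, 0, 0, ⟨0, 0⟩, 0⟩ 0 0)) (.cut .v 17301504 (.cut .s 2359296 (.pos 29 .pp ⟨0, 0, 0, 0, 0, 0, 0, 958897, 0, ⟨139205, 15010048⟩, 0⟩ 26 38) (.pos 29 .pp ⟨0, 0, 0, 0, 0, 0, 0, 208958, 0, ⟨316123, 13781858⟩, 0⟩ 36 49)) (.cut .s 2359296 (.cut .s 2031616 (.pos 30 .pp ⟨1060932, 0, 0, 0, 0, 0, 0, 176361, 0, ⟨112532, 15272667⟩, 0⟩ 26 33) (.pos 30 .pp ⟨186019, 0, 0, 0, 0, 0, 0, 825383, 0, ⟨177536, 14751817⟩, 0⟩ 31 38)) (.pos 30 .pp ⟨0, 0, 0, 0, 0, 0, 0, 287095,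 0, ⟨316123, 13781858⟩, 0⟩ 36 49)))) (.pos 28 .pp ⟨879653, 0, 0, 0, 0, 0, 0, 0, 0, ⟨0, 0⟩, 0⟩ 0 0)) (.cut .v 17825792 (.cut .d 1243774 (.cut .s 2359296 (.pos 27 .pp ⟨0, 0, 0, 0, 0, 0, 0, 1171778, 0, ⟨152454, 14904725⟩, 0⟩ 27 39) (.cut .s 2686976 (.pos 27 .pp ⟨0, 0, 0, 0, 0, 0, 0, 578143, 0, ⟨290228, 13981248⟩, 0⟩ 37 45) (.pos 27 .pp ⟨0, 0, 0, 0, 0, 0, 0, 240122, 0, ⟨414027, 13261933⟩, 0⟩ 43 50))) (.pos 27 .pp ⟨0, 0, 0, 0, 0, 0, 0, 856549, 0, ⟨228805, 14180800⟩, 0⟩ 27 51)) (.cut .d 1243774 (.cut .s 2359296 (.pos 28 .pp ⟨1324683, 0, 0, 0, 0, 0, 0, 0, 0, ⟨0, 0⟩, 0⟩ 0 0) (.pos 28 .pp ⟨0, 0, 0, 0, 0, 0, 0, 602375, 0, ⟨337737, 13652539⟩, 0⟩ 37 50)) (.cut .s 2359296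 (.cut .s 2031616 (.pos 28 .pp ⟨884672, 0, 0, 0, 0, 0, 0, 909149, 0, ⟨129567, 15121728⟩, 0⟩ 27 35) (.pos 28 .pp ⟨310714, 0, 0, 0, 0, 0, 0, 1073228, 0, ⟨208836, 14525586⟩, 0⟩ 33 40)) (.pos 28 .pp ⟨0, 0, 0, 0, 0, 0, 0, 696040, 0, ⟨360192, 13521289⟩, 0⟩ 38 51))))) (.pos 26 .pp ⟨2170015, 0, 0, 0, 0, 0, 0, 0, 0, ⟨0, 0⟩, 0⟩ 0 0)) (.cut .d 2487549 (.cut .l 850045 (.void 23 ⟨0, 0, 0, 0, 0, 0, 7869, 80897, 11234, ⟨254244, 13994178⟩, 17739746⟩ 28 53) (.cut .v 18874368 (.cut .d 2072957 (.cut .v 17825792 (.pos 27 .pp ⟨0, 0, 0, 0, 0, 0, 0, 217487, 0, ⟨247066, 14059808⟩, 0⟩ 28 52) (.cut .s 2359296 (.cut .s 2031616 (.pos 28 .pp ⟨101263, 0, 0, 0, 0, 0, 0, 4883305, 0, ⟨136326,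 15072292⟩, 0⟩ 28 35) (.pos 28 .pp ⟨0, 0, 0, 0, 0, 0, 0, 3296579, 0, ⟨225671, 14408850⟩, 0⟩ 34 41)) (.pos 28 .pp ⟨0, 0, 0, 0, 0, 0, 0, 1526408, 0, ⟨383489, 13388189⟩, 0⟩ 39 52))) (.pos 25 .pp ⟨1444817, 0, 0, 0, 0, 0, 0, 1469986, 0, ⟨266150, 13936672⟩, 0⟩ 29 53)) (.cut .s 2359296 (.pos 26 .pp ⟨4260486, 0, 0, 0, 0, 0, 0, 4916145, 0, ⟨179118, 14681051⟩, 0⟩ 28 42) (.cut .d 2072957 (.pos 26 .pp ⟨1603448, 0, 0, 0, 0, 0, 0, 3771827, 0, ⟨383489, 13388189⟩, 0⟩ 39 52) (.void 26 ⟨0, 0, 0, 0, 0, 0, 0, 100000, 0, ⟨407634, 13253277⟩, 0⟩ 40 53))))) (.void 23 ⟨0, 0, 0, 0, 0, 0, 0, 100000, 0, ⟨288948, 13735424⟩, 0⟩ 29 56))) (.void 24 ⟨0, 0, 0, 0, 0, 0, 100000, 0, 0, ⟨0, 0⟩,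 0⟩ 0 0)) (.void 22 ⟨0, 0, 0, 0, 0, 0, 100000, 0, 0, ⟨0, 0⟩, 0⟩ 0 0)))),
    by decide +kernel⟩

def covers2 : cell.Covers table row2.1 :=
  ⟨(.cut .d 0 (.cut .v 16777216 (.cut .v 8388608 (.void 2 ⟨0, 0, 0, 0, 50000, 50000, 0, 0, 0, ⟨0, 0⟩, 0⟩ 0 0) (.cut .v 12582912 (.pos 8 .mm ⟨0, 0, 0, 0, 0, 14916396, 0, 0, 0, ⟨0, 0⟩, 0⟩ 0 0) (.cut .d (-8388608) (.void 9 ⟨0, 0, 0, 0, 0, 100000, 0, 0, 0, ⟨0, 0⟩, 0⟩ 0 0) (.cut .d (-4194304) (.void 9 ⟨0, 0, 0, 0, 0, 100000, 0, 0, 0, ⟨0, 0⟩, 0⟩ 0 0) (.cut .d (-2097152) (.void 9 ⟨0, 0, 0, 0, 0, 100000, 0, 0, 0, ⟨0, 0⟩, 0⟩ 0 0) (.cut .v 14680064 (.pos 12 .mm ⟨0, 0, 0, 0, 0, 138297, 0, 0, 0, ⟨0, 0⟩, 0⟩ 0 0) (.cut .d (-1048576) (.cut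 .v 15728640 (.pos 14 .mm ⟨0, 0, 0, 0, 0, 168962, 0, 0, 0, ⟨0, 0⟩, 0⟩ 0 0) (.pos 15 .mm ⟨0, 0, 0, 0, 0, 172802, 0, 0, 0, ⟨0, 0⟩, 0⟩ 0 0)) (.cut .v 15728640 (.cut .d (-524288) (.pos 14 .mm ⟨0, 0, 0, 0, 0, 172802, 0, 0, 0, ⟨0, 0⟩, 0⟩ 0 0) (.pos 14 .mm ⟨0, 0, 0, 0, 0, 148175, 0, 0, 0, ⟨0, 0⟩, 0⟩ 0 0)) (.cut .d (-524288) (.cut .v 16252928 (.pos 16 .mm ⟨0, 0, 0, 0, 0, 176642, 0, 0, 0, ⟨0, 0⟩, 0⟩ 0 0) (.pos 17 .mm ⟨0, 0, 0, 0, 0, 178563, 0, 0, 0, ⟨0, 0⟩, 0⟩ 0 0)) (.cut .v 16252928 (.cut .d (-262144) (.pos 16 .mm ⟨0, 0, 0, 0, 0, 176642, 0, 0, 0, ⟨0, 0⟩, 0⟩ 0 0) (.pos 16 .mm ⟨0, 0, 0, 0, 0, 0, 0, 0, 0, ⟨0, 0⟩, 0⟩ 0 0)) (.cut .d (-262144) (.pos 17 .mm ⟨0, 0, 0, 0, 0,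 0, 0, 0, 0, ⟨0, 0⟩, 0⟩ 0 0) (.cut .v 16515072 (.pos 18 .mm ⟨0, 0, 0, 0, 0, 0, 0, 0, 0, ⟨0, 0⟩, 0⟩ 0 0) (.pos 19 .mm ⟨0, 0, 0, 0, 0, 0, 0, 0, 0, ⟨0, 0⟩, 0⟩ 0 0))))))))))))) (.cut .v 25165824 (.cut .v 20971520 (.cut .v 18874368 (.pos 25 .mp ⟨0, 0, 0, 0, 0, 0, 0, 0, 0, ⟨0, 0⟩, 0⟩ 0 0) (.void 26 ⟨100000, 0, 0, 0, 0, 0, 0, 0, 0, ⟨0, 0⟩, 0⟩ 0 0)) (.void 24 ⟨100000, 0, 0, 0, 0, 0, 0, 0, 0, ⟨0, 0⟩, 0⟩ 0 0)) (.void 22 ⟨0, 0, 0, 0, 0, 0, 100000, 0, 0, ⟨0, 0⟩, 0⟩ 0 0))) (.cut .v 16777216 (.cut .v 8388608 (.void 2 ⟨0, 0, 0, 0, 100000, 0, 0, 0, 0, ⟨0, 0⟩, 0⟩ 0 0) (.cut .v 12582912 (.void 8 ⟨0, 0, 0, 0, 0, 0, 0, 0, 100000, ⟨0, 0⟩, 13128881⟩ 0 0) (.cut .d 2223229 (.cut .v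 14680064 (.pos 12 .pm ⟨0, 0, 0, 0, 0, 0, 0, 0, 0, ⟨0, 0⟩, 0⟩ 0 0) (.cut .d 1111614 (.cut .v 15728640 (.pos 14 .pm ⟨0, 0, 0, 0, 0, 0, 0, 0, 0, ⟨0, 0⟩, 0⟩ 0 0) (.cut .d 555807 (.cut .v 16252928 (.pos 16 .pm ⟨0, 0, 0, 0, 0, 0, 0, 0, 0, ⟨0, 0⟩, 0⟩ 0 0) (.cut .d 277903 (.cut .v 16515072 (.pos 18 .pm ⟨0, 0, 0, 0, 0, 0, 0, 0, 0, ⟨0, 0⟩, 0⟩ 0 0) (.cut .d 138951 (.pos 19 .pm ⟨0, 0, 0, 0, 0, 0, 0, 0, 0, ⟨0, 0⟩, 0⟩ 0 0) (.pos 19 .pm ⟨0, 0, 0, 0, 0, 0, 0, 0, 0, ⟨0, 0⟩, 0⟩ 0 0))) (.pos 17 .pm ⟨0, 0, 0, 0, 0, 0, 0, 0, 0, ⟨0, 0⟩, 0⟩ 0 0))) (.pos 15 .pm ⟨0, 0, 0, 0, 0, 0, 0, 192145, 0, ⟨627813, 12114909⟩, 0⟩ 47 62))) (.pos 13 .pm ⟨0, 0, 0, 0, 0, 0, 0, 213282, 0, ⟨721144, 11665829⟩,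 0⟩ 49 66))) (.void 9 ⟨0, 0, 0, 0, 0, 0, 0, 0, 100000, ⟨0, 0⟩, 15612959⟩ 0 0)))) (.cut .v 25165824 (.cut .v 20971520 (.cut .d 2223229 (.cut .v 18874368 (.cut .d 1111614 (.cut .v 17825792 (.cut .d 555807 (.cut .v 17301504 (.cut .d 277903 (.pos 29 .pp ⟨0, 0, 0, 0, 0, 0, 0, 0, 0, ⟨0, 0⟩, 0⟩ 0 0) (.cut .v 17039360 (.pos 31 .pp ⟨0, 0, 0, 0, 0, 0, 0, 0, 0, ⟨0, 0⟩, 0⟩ 0 0) (.pos 32 .pp ⟨0, 0, 0, 0, 0, 0, 0, 165644, 0, ⟨583608, 12335908⟩, 0⟩ 46 60))) (.pos 30 .pp ⟨0, 0, 0, 0, 0, 0, 0, 209618, 0, ⟨583608, 12335908⟩, 0⟩ 46 60)) (.cut .v 17301504 (.pos 29 .pp ⟨0, 0, 0, 0, 0, 0, 0, 153804, 0, ⟨627813, 12114909⟩, 0⟩ 47 62) (.pos 30 .pp ⟨0, 0, 0, 0, 0, 0, 0, 204307, 0, ⟨627813,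 12114909⟩, 0⟩ 47 62))) (.pos 28 .pp ⟨188962, 0, 0, 0, 0, 0, 0, 75009, 0, ⟨610398, 12186816⟩, 0⟩ 46 62)) (.cut .v 17825792 (.pos 27 .pp ⟨0, 0, 0, 0, 0, 0, 0, 158561, 0, ⟨721144, 11665829⟩, 0⟩ 49 66) (.cut .d 1667421 (.pos 28 .pp ⟨0, 0, 0, 0, 0, 0, 0, 227923, 0, ⟨691968, 11818257⟩, 0⟩ 49 64) (.pos 28 .pp ⟨0, 0, 0, 0, 0, 0, 0, 903217, 0, ⟨740211, 11591872⟩, 0⟩ 50 66)))) (.cut .d 1111614 (.pos 26 .pp ⟨303586, 0, 0, 0, 0, 0, 0, 0, 0, ⟨0, 0⟩, 0⟩ 0 0) (.cut .d 1667421 (.pos 26 .pp ⟨0, 0, 0, 0, 0, 0, 0, 236689, 0, ⟨691968, 11818257⟩, 0⟩ 49 64) (.pos 26 .pp ⟨0, 0, 0, 0, 0, 0, 0, 3748418, 0, ⟨740211, 11591872⟩, 0⟩ 50 66)))) (.cut .s 3407872 (.void 23 ⟨0, 0, 0, 0, 0,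 0, 0, 100000, 0, ⟨778654, 11442761⟩, 0⟩ 52 66) (.void 23 ⟨0, 0, 0, 0, 0, 0, 0, 100000, 0, ⟨1037624, 10362544⟩, 0⟩ 58 74))) (.void 24 ⟨56695, 0, 0, 0, 0, 0, 0, 43305, 0, ⟨774853, 11271588⟩, 0⟩ 46 74)) (.void 22 ⟨0, 0, 0, 0, 0, 0, 100000, 0, 0, ⟨0, 0⟩, 0⟩ 0 0)))),
    by decide +kernel⟩

def covers3 : cell.Covers table row3.1 :=
  ⟨(.cut .d 0 (.cut .v 16777216 (.cut .v 8388608 (.void 2 ⟨0, 0, 0, 0, 50000, 50000, 0, 0, 0, ⟨0, 0⟩, 0⟩ 0 0) (.cut .v 12582912 (.pos 8 .mm ⟨0, 0, 0, 0, 0, 10317833, 0, 0, 0, ⟨0, 0⟩, 0⟩ 0 0) (.cut .d (-8388608) (.void 9 ⟨0, 0, 0, 0, 0, 100000, 0, 0, 0, ⟨0, 0⟩, 0⟩ 0 0) (.cut .d (-4194304) (.void 9 ⟨0, 0, 0, 0, 0, 100000, 0, 0, 0, ⟨0, 0⟩,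 0⟩ 0 0) (.cut .v 14680064 (.pos 12 .mm ⟨0, 0, 0, 0, 0, 5288526, 0, 0, 0, ⟨0, 0⟩, 0⟩ 0 0) (.cut .d (-2097152) (.void 13 ⟨0, 0, 0, 0, 0, 100000, 0, 0, 0, ⟨0, 0⟩, 0⟩ 0 0) (.cut .d (-1048576) (.cut .v 15728640 (.pos 14 .mm ⟨0, 0, 0, 0, 0, 234097, 0, 0, 0, ⟨0, 0⟩, 0⟩ 0 0) (.pos 15 .mm ⟨0, 0, 0, 0, 0, 239417, 0, 0, 0, ⟨0, 0⟩, 0⟩ 0 0)) (.cut .v 15728640 (.pos 14 .mm ⟨0, 0, 0, 0, 0, 152242, 0, 0, 0, ⟨0, 0⟩, 0⟩ 0 0) (.cut .d (-524288) (.pos 15 .mm ⟨0, 0, 0, 0, 0, 217304, 0, 0, 0, ⟨0, 0⟩, 0⟩ 0 0) (.cut .v 16252928 (.pos 16 .mm ⟨0, 0, 0, 0, 0, 146945, 0, 0, 0, ⟨0, 0⟩, 0⟩ 0 0) (.cut .v 16515072 (.pos 18 .mm ⟨0, 0, 0, 0, 0, 0, 0, 0, 0, ⟨0, 0⟩, 0⟩ 0 0) (.pos 19 .mm ⟨0, 0,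 0, 0, 0, 0, 0, 0, 0, ⟨0, 0⟩, 0⟩ 0 0)))))))))))) (.cut .v 25165824 (.cut .v 20971520 (.pos 23 .mp ⟨0, 0, 0, 0, 0, 0, 0, 0, 0, ⟨0, 0⟩, 0⟩ 0 0) (.void 24 ⟨100000, 0, 0, 0, 0, 0, 0, 0, 0, ⟨0, 0⟩, 0⟩ 0 0)) (.void 22 ⟨100000, 0, 0, 0, 0, 0, 0, 0, 0, ⟨0, 0⟩, 0⟩ 0 0))) (.cut .v 16777216 (.cut .v 8388608 (.void 2 ⟨0, 0, 0, 0, 100000, 0, 0, 0, 0, ⟨0, 0⟩, 0⟩ 0 0) (.cut .v 12582912 (.pos 8 .pm ⟨0, 0, 0, 0, 0, 0, 0, 0, 170135, ⟨0, 0⟩, 13128881⟩ 0 0) (.cut .d 2879359 (.cut .d 1439679 (.cut .v 14680064 (.pos 12 .pm ⟨0, 0, 0, 0, 0, 0, 0, 0, 0, ⟨0, 0⟩, 0⟩ 0 0) (.cut .d 719839 (.cut .v 15728640 (.pos 14 .pm ⟨0, 0, 0, 0, 0, 0, 0, 0, 0, ⟨0, 0⟩, 0⟩ 0 0) (.cut .v 16252928 (.pos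 16 .pm ⟨0, 0, 0, 0, 0, 0, 0, 0, 0, ⟨0, 0⟩, 0⟩ 0 0) (.cut .d 359919 (.cut .d 179959 (.cut .v 16515072 (.cut .s 4161536 (.pos 18 .pm ⟨0, 0, 0, 0, 0, 0, 0, 0, 0, ⟨0, 0⟩, 0⟩ 0 0) (.pos 18 .pm ⟨0, 0, 0, 0, 0, 0, 0, 0, 0, ⟨0, 0⟩, 0⟩ 0 0)) (.cut .s 4161536 (.pos 19 .pm ⟨0, 0, 0, 0, 0, 0, 0, 0, 0, ⟨0, 0⟩, 0⟩ 0 0) (.pos 19 .pm ⟨0, 0, 0, 0, 0, 0, 0, 0, 0, ⟨0, 0⟩, 0⟩ 0 0))) (.cut .v 16515072 (.cut .s 4161536 (.pos 18 .pm ⟨0, 0, 0, 0, 0, 0, 0, 0, 0, ⟨0, 0⟩, 0⟩ 0 0) (.pos 18 .pm ⟨0, 0, 0, 0, 0, 0, 0, 0, 0, ⟨0, 0⟩, 0⟩ 0 0)) (.cut .s 4161536 (.cut .d 269939 (.pos 19 .pm ⟨0, 0, 0, 0, 0, 0, 0, 0, 0, ⟨0, 0⟩, 0⟩ 0 0) (.pos 19 .pm ⟨0, 0, 0, 0, 0, 0, 0, 0, 0, ⟨0, 0⟩, 0⟩ 0 0)) (.pos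 19 .pm ⟨0, 0, 0, 0, 0, 0, 0, 0, 0, ⟨0, 0⟩, 0⟩ 0 0)))) (.cut .s 4161536 (.pos 17 .pm ⟨0, 0, 0, 0, 0, 0, 0, 0, 0, ⟨0, 0⟩, 0⟩ 0 0) (.pos 17 .pm ⟨0, 0, 0, 0, 0, 0, 0, 0, 0, ⟨0, 0⟩, 0⟩ 0 0))))) (.pos 13 .pm ⟨0, 0, 0, 0, 0, 0, 0, 112623, 0, ⟨1100901, 10128793⟩, 0⟩ 60 75))) (.pos 9 .pm ⟨0, 0, 0, 0, 0, 0, 0, 112623, 0, ⟨1260551, 9502315⟩, 0⟩ 62 81)) (.void 9 ⟨0, 0, 0, 0, 0, 0, 0, 0, 100000, ⟨0, 0⟩, 15612959⟩ 0 0)))) (.cut .v 25165824 (.cut .d 2879359 (.cut .v 20971520 (.cut .v 18874368 (.cut .d 1439679 (.cut .v 17825792 (.cut .d 719839 (.cut .d 359919 (.pos 27 .pp ⟨0, 0, 0, 0, 0, 0, 0, 0, 0, ⟨0, 0⟩, 0⟩ 0 0) (.cut .v 17301504 (.cut .v 17039360 (.cut .s 4161536 (.pos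 31 .pp ⟨0, 0, 0, 0, 0, 0, 0, 161988, 0, ⟨933839, 10832576⟩, 0⟩ 59 67) (.pos 31 .pp ⟨0, 0, 0, 0, 0, 0, 0, 159099, 0, ⟨1133533, 10052000⟩, 0⟩ 64 72)) (.pos 32 .pp ⟨0, 0, 0, 0, 0, 0, 0, 114383, 0, ⟨1023900, 10441806⟩, 0⟩ 59 72)) (.pos 30 .pp ⟨0, 0, 0, 0, 0, 0, 0, 116143, 0, ⟨1023900, 10441806⟩, 0⟩ 59 72))) (.cut .v 17301504 (.pos 29 .pp ⟨0, 0, 0, 0, 0, 0, 0, 113797, 0, ⟨1100901, 10128793⟩, 0⟩ 60 75) (.pos 30 .pp ⟨0, 0, 0, 0, 0, 0, 0, 117316, 0, ⟨1100901, 10128793⟩, 0⟩ 60 75))) (.cut .d 719839 (.pos 28 .pp ⟨0, 0, 0, 0, 0, 0, 0, 198690, 0, ⟨1002126, 10519222⟩, 0⟩ 58 72) (.pos 28 .pp ⟨0, 0, 0, 0, 0, 0, 0, 158116, 0, ⟨1100901, 10128793⟩, 0⟩ 60 75))) (.cut .v 17825792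 (.pos 27 .pp ⟨0, 0, 0, 0, 0, 0, 0, 117316, 0, ⟨1260551, 9502315⟩, 0⟩ 62 81) (.pos 28 .pp ⟨0, 0, 0, 0, 0, 0, 0, 239905, 0, ⟨1260551, 9502315⟩, 0⟩ 62 81))) (.cut .d 1439679 (.pos 26 .pp ⟨0, 0, 0, 0, 0, 0, 0, 239905, 0, ⟨1055381, 10284167⟩, 0⟩ 58 75) (.cut .d 2159519 (.pos 26 .pp ⟨0, 0, 0, 0, 0, 0, 0, 704719, 0, ⟨1203657, 9737232⟩, 0⟩ 62 78) (.pos 26 .pp ⟨0, 0, 0, 0, 0, 0, 0, 4047123, 0, ⟨1334937, 9267216⟩, 0⟩ 65 81)))) (.pos 24 .pp ⟨636896, 0, 0, 0, 0, 0, 0, 8639940, 0, ⟨1161832, 9814316⟩, 0⟩ 58 81)) (.void 21 ⟨0, 0, 0, 0, 0, 0, 0, 100000, 0, ⟨1626018, 8187835⟩, 0⟩ 67 93)) (.void 22 ⟨0, 0, 0, 0, 0, 0, 100000, 0, 0, ⟨0, 0⟩, 0⟩ 0 0)))),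
    by decide +kernel⟩

def covers4 : cell.Covers table row4.1 :=
  ⟨(.cut .d 0 (.cut .v 16777216 (.cut .v 8388608 (.void 2 ⟨0, 0, 0, 0, 50000, 50000, 0, 0, 0, ⟨0, 0⟩, 0⟩ 0 0) (.cut .v 12582912 (.pos 8 .mm ⟨0, 0, 0, 0, 0, 7630645, 0, 0, 0, ⟨0, 0⟩, 0⟩ 0 0) (.cut .v 14680064 (.pos 12 .mm ⟨0, 0, 0, 0, 0, 5375614, 0, 0, 0, ⟨0, 0⟩, 0⟩ 0 0) (.cut .d (-8388608) (.void 13 ⟨0, 0, 0, 0, 0, 100000, 0, 0, 0, ⟨0, 0⟩, 0⟩ 0 0) (.cut .d (-4194304) (.void 13 ⟨0, 0, 0, 0, 0, 100000, 0, 0, 0, ⟨0, 0⟩, 0⟩ 0 0) (.cut .d (-2097152) (.void 13 ⟨0, 0, 0, 0, 0, 100000, 0, 0, 0, ⟨0, 0⟩, 0⟩ 0 0) (.cut .d (-1048576) (.void 13 ⟨0, 0, 0, 0, 0, 100000, 0, 0, 0, ⟨0, 0⟩, 0⟩ 0 0) (.cut .v 15728640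 (.cut .d (-524288) (.pos 14 .mm ⟨0, 0, 0, 0, 0, 579346, 0, 0, 0, ⟨0, 0⟩, 0⟩ 0 0) (.pos 14 .mm ⟨0, 0, 0, 0, 0, 389763, 0, 0, 0, ⟨0, 0⟩, 0⟩ 0 0)) (.cut .d (-524288) (.cut .v 16252928 (.pos 16 .mm ⟨0, 0, 0, 0, 0, 588858, 0, 0, 0, ⟨0, 0⟩, 0⟩ 0 0) (.pos 17 .mm ⟨0, 0, 0, 0, 0, 595259, 0, 0, 0, ⟨0, 0⟩, 0⟩ 0 0)) (.cut .v 16252928 (.cut .l 850045 (.cut .d (-262144) (.pos 16 .mm ⟨0, 0, 0, 0, 0, 524613, 0, 0, 0, ⟨0, 0⟩, 0⟩ 0 0) (.cut .s 4882432 (.pos 16 .mm ⟨0, 0, 0, 0, 0, 257412, 0, 0, 0, ⟨0, 0⟩, 0⟩ 0 0) (.cut .s 5062656 (.pos 16 .mm ⟨0, 0, 0, 0, 0, 354582, 0, 0, 0, ⟨0, 0⟩, 0⟩ 0 0) (.pos 16 .mm ⟨0, 0, 0, 0, 0, 464397, 0, 0, 0, ⟨0, 0⟩, 0⟩ 0 0)))) (.pos 16 .mm ⟨0, 0, 0,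 0, 0, 0, 0, 0, 0, ⟨0, 0⟩, 0⟩ 0 0)) (.cut .d (-262144) (.pos 17 .mm ⟨0, 0, 0, 0, 0, 395780, 0, 0, 0, ⟨0, 0⟩, 0⟩ 0 0) (.cut .s 4882432 (.pos 17 .mm ⟨0, 0, 0, 0, 0, 0, 0, 0, 0, ⟨0, 0⟩, 0⟩ 0 0) (.cut .d (-131072) (.pos 17 .mm ⟨0, 0, 0, 0, 0, 369534, 0, 0, 0, ⟨0, 0⟩, 0⟩ 0 0) (.pos 17 .mm ⟨0, 0, 0, 0, 0, 28976, 0, 0, 0, ⟨0, 0⟩, 0⟩ 0 0)))))))))))))) (.cut .v 25165824 (.cut .v 20971520 (.pos 23 .mp ⟨0, 0, 0, 0, 0, 0, 0, 0, 0, ⟨0, 0⟩, 0⟩ 0 0) (.void 24 ⟨100000, 0, 0, 0, 0, 0, 0, 0, 0, ⟨0, 0⟩, 0⟩ 0 0)) (.void 22 ⟨100000, 0, 0, 0, 0, 0, 0, 0, 0, ⟨0, 0⟩, 0⟩ 0 0))) (.cut .v 16777216 (.cut .v 8388608 (.void 2 ⟨0, 0, 0, 0, 100000, 0, 0, 0, 0, ⟨0, 0⟩, 0⟩ 0 0) (.cut .d 3797533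 (.cut .v 12582912 (.pos 8 .pm ⟨0, 0, 0, 0, 0, 0, 0, 0, 0, ⟨0, 0⟩, 0⟩ 0 0) (.cut .d 1898766 (.cut .v 14680064 (.pos 12 .pm ⟨0, 0, 0, 0, 0, 0, 0, 0, 0, ⟨0, 0⟩, 0⟩ 0 0) (.cut .d 949383 (.cut .v 15728640 (.pos 14 .pm ⟨0, 0, 0, 0, 0, 0, 0, 0, 0, ⟨0, 0⟩, 0⟩ 0 0) (.cut .d 474691 (.cut .v 16252928 (.pos 16 .pm ⟨0, 0, 0, 0, 0, 0, 0, 0, 0, ⟨0, 0⟩, 0⟩ 0 0) (.cut .d 237345 (.cut .s 4882432 (.cut .v 16515072 (.pos 18 .pm ⟨0, 0, 0, 0, 0, 0, 0, 0, 0, ⟨0, 0⟩, 0⟩ 0 0) (.pos 19 .pm ⟨0, 0, 0, 0, 0, 0, 0, 0, 0, ⟨0, 0⟩, 0⟩ 0 0)) (.pos 17 .pm ⟨0, 0, 0, 0, 0, 0, 0, 0, 0, ⟨0, 0⟩, 0⟩ 0 0)) (.pos 17 .pm ⟨0, 0, 0, 0, 0, 0, 0, 0, 0, ⟨0, 0⟩, 0⟩ 0 0))) (.pos 15 .pm ⟨0, 0, 0, 0, 0, 0, 0,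 0, 0, ⟨0, 0⟩, 0⟩ 0 0))) (.pos 13 .pm ⟨0, 0, 0, 0, 0, 0, 0, 128561, 0, ⟨1703382, 8025870⟩, 0⟩ 72 90))) (.pos 9 .pm ⟨0, 0, 0, 0, 0, 0, 0, 128561, 0, ⟨2009063, 7053200⟩, 0⟩ 76 99))) (.void 3 ⟨0, 0, 0, 0, 0, 0, 0, 100000, 0, ⟨2629741, 5268286⟩, 0⟩ 84 117))) (.cut .v 25165824 (.cut .d 3797533 (.cut .v 20971520 (.cut .d 1898766 (.cut .v 18874368 (.cut .d 949383 (.cut .v 17825792 (.cut .d 474691 (.pos 27 .pp ⟨0, 0, 0, 0, 0, 0, 0, 0, 0, ⟨0, 0⟩, 0⟩ 0 0) (.cut .d 712037 (.pos 27 .pp ⟨0, 0, 0, 0, 0, 0, 0, 184125, 0, ⟨1522864, 8641627⟩, 0⟩ 70 84) (.pos 27 .pp ⟨0, 0, 0, 0, 0, 0, 0, 186111, 0, ⟨1569972, 8486107⟩, 0⟩ 71 85))) (.pos 28 .pp ⟨0, 0, 0, 0, 0, 0, 0, 207704, 0,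 ⟨1518014, 8642592⟩, 0⟩ 69 85)) (.cut .v 17825792 (.pos 27 .pp ⟨0, 0, 0, 0, 0, 0, 0, 183146, 0, ⟨1703382, 8025870⟩, 0⟩ 72 90) (.pos 28 .pp ⟨0, 0, 0, 0, 0, 0, 0, 207704, 0, ⟨1703382, 8025870⟩, 0⟩ 72 90))) (.pos 26 .pp ⟨0, 0, 0, 0, 0, 0, 0, 219922, 0, ⟨1621345, 8259218⟩, 0⟩ 69 90)) (.cut .v 18874368 (.pos 25 .pp ⟨0, 0, 0, 0, 0, 0, 0, 211777, 0, ⟨2009063, 7053200⟩, 0⟩ 76 99) (.pos 26 .pp ⟨0, 0, 0, 0, 0, 0, 0, 3737531, 0, ⟨2009063, 7053200⟩, 0⟩ 76 99))) (.pos 24 .pp ⟨0, 0, 0, 0, 0, 0, 0, 3732101, 0, ⟨1802291, 7587882⟩, 0⟩ 69 99)) (.void 21 ⟨0, 0, 0, 0, 0, 0, 0, 100000, 0, ⟨2629741, 5268286⟩, 0⟩ 84 117)) (.void 22 ⟨0, 0, 0, 0, 0, 0, 100000, 0, 0, ⟨0, 0⟩, 0⟩ 0 0)))),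
    by decide +kernel⟩

def covers5 : cell.Covers table row5.1 :=
  ⟨(.cut .d 0 (.cut .v 16777216 (.cut .d (-8388608) (.void 1 ⟨0, 0, 0, 0, 0, 100000, 0, 0, 0, ⟨0, 0⟩, 0⟩ 0 0) (.cut .d (-4194304) (.void 1 ⟨0, 0, 0, 0, 0, 100000, 0, 0, 0, ⟨0, 0⟩, 0⟩ 0 0) (.cut .d (-2097152) (.void 1 ⟨0, 0, 0, 0, 0, 100000, 0, 0, 0, ⟨0, 0⟩, 0⟩ 0 0) (.cut .d (-1048576) (.void 1 ⟨0, 0, 0, 0, 0, 100000, 0, 0, 0, ⟨0, 0⟩, 0⟩ 0 0) (.cut .v 8388608 (.cut .v 4194304 (.void 4 ⟨0, 0, 50000, 0, 50000, 0, 0, 0, 0, ⟨0, 0⟩, 0⟩ 0 0) (.void 5 ⟨0, 0, 0, 0, 0, 54321, 0, 0, 45679, ⟨0, 0⟩, 9975792⟩ 0 0)) (.cut .v 12582912 (.pos 8 .mm ⟨0, 0, 0, 0, 0, 4161131, 0, 0, 0, ⟨0, 0⟩, 0⟩ 0 0) (.cut .v 14680064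 (.pos 12 .mm ⟨0, 0, 0, 0, 0, 2622058, 0, 0, 0, ⟨0, 0⟩, 0⟩ 0 0) (.cut .v 15728640 (.cut .v 15204352 (.pos 41 .mm ⟨0, 0, 0, 0, 0, 2524098, 0, 0, 0, ⟨0, 0⟩, 0⟩ 0 0) (.cut .s 5636096 (.cut .d (-524288) (.pos 42 .mm ⟨0, 0, 0, 0, 0, 1425307, 0, 0, 0, ⟨0, 0⟩, 0⟩ 0 0) (.pos 42 .mm ⟨0, 0, 0, 0, 0, 1084484, 0, 0, 0, ⟨0, 0⟩, 0⟩ 0 0)) (.cut .s 5832704 (.pos 42 .mm ⟨0, 0, 0, 0, 0, 2275116, 0, 0, 0, ⟨0, 0⟩, 0⟩ 0 0) (.pos 42 .mm ⟨0, 0, 0, 0, 0, 3217904, 0, 0, 0, ⟨0, 0⟩, 0⟩ 0 0)))) (.cut .s 5636096 (.cut .d (-524288) (.cut .v 16252928 (.cut .s 5439488 (.pos 16 .mm ⟨0, 0, 0, 0, 0, 947737, 0, 0, 0, ⟨0, 0⟩, 0⟩ 0 0) (.pos 16 .mm ⟨0, 0, 0, 0, 0, 1635685, 0, 0, 0, ⟨0, 0⟩, 0⟩ 0 0))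 (.pos 17 .mm ⟨0, 0, 0, 0, 0, 1521199, 0, 0, 0, ⟨0, 0⟩, 0⟩ 0 0)) (.cut .v 16252928 (.cut .s 5439488 (.cut .d (-262144) (.cut .v 15990784 (.pos 43 .mm ⟨0, 0, 0, 0, 0, 803210, 0, 0, 0, ⟨0, 0⟩, 0⟩ 0 0) (.cut .s 5341184 (.pos 44 .mm ⟨0, 0, 0, 0, 0, 659421, 0, 0, 0, ⟨0, 0⟩, 0⟩ 0 0) (.pos 44 .mm ⟨0, 0, 0, 0, 0, 919789, 0, 0, 0, ⟨0, 0⟩, 0⟩ 0 0))) (.cut .d (-131072) (.cut .v 15990784 (.pos 43 .mm ⟨0, 0, 0, 0, 0, 709254, 0, 0, 0, ⟨0, 0⟩, 0⟩ 0 0) (.cut .s 5341184 (.pos 44 .mm ⟨0, 0, 0, 0, 0, 632129, 0, 0, 0, ⟨0, 0⟩, 0⟩ 0 0) (.pos 44 .mm ⟨0, 0, 0, 0, 0, 889757, 0, 0, 0, ⟨0, 0⟩, 0⟩ 0 0))) (.pos 16 .mm ⟨0, 0, 0, 0, 0, 629314, 0, 0, 0, ⟨0, 0⟩, 0⟩ 0 0))) (.cut .l 850045 (.cut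 .v 15990784 (.pos 43 .mm ⟨0, 0, 0, 0, 0, 1414419, 0, 0, 0, ⟨0, 0⟩, 0⟩ 0 0) (.cut .d (-262144) (.pos 44 .mm ⟨0, 0, 0, 0, 0, 1533308, 0, 0, 0, ⟨0, 0⟩, 0⟩ 0 0) (.cut .s 5537792 (.pos 44 .mm ⟨0, 0, 0, 0, 0, 1171277, 0, 0, 0, ⟨0, 0⟩, 0⟩ 0 0) (.pos 44 .mm ⟨0, 0, 0, 0, 0, 1495451, 0, 0, 0, ⟨0, 0⟩, 0⟩ 0 0)))) (.cut .s 5537792 (.pos 16 .mm ⟨0, 0, 0, 0, 0, 698583, 0, 0, 0, ⟨0, 0⟩, 0⟩ 0 0) (.pos 16 .mm ⟨0, 0, 0, 0, 0, 1066187, 0, 0, 0, ⟨0, 0⟩, 0⟩ 0 0)))) (.cut .l 850045 (.cut .d (-262144) (.cut .s 5439488 (.pos 17 .mm ⟨0, 0, 0, 0, 0, 900443, 0, 0, 0, ⟨0, 0⟩, 0⟩ 0 0) (.pos 17 .mm ⟨0, 0, 0, 0, 0, 1557242, 0, 0, 0, ⟨0, 0⟩, 0⟩ 0 0)) (.cut .l 548055 (.cut .s 5439488 (.cut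 .v 16515072 (.cut .d (-131072) (.pos 18 .mm ⟨0, 0, 0, 0, 0, 829921, 0, 0, 0, ⟨0, 0⟩, 0⟩ 0 0) (.pos 18 .mm ⟨0, 0, 0, 0, 0, 678090, 0, 0, 0, ⟨0, 0⟩, 0⟩ 0 0)) (.pos 19 .mm ⟨0, 0, 0, 0, 0, 654873, 0, 0, 0, ⟨0, 0⟩, 0⟩ 0 0)) (.cut .v 16515072 (.cut .d (-131072) (.cut .s 5537792 (.pos 18 .mm ⟨0, 0, 0, 0, 0, 1244724, 0, 0, 0, ⟨0, 0⟩, 0⟩ 0 0) (.pos 18 .mm ⟨0, 0, 0, 0, 0, 1577238, 0, 0, 0, ⟨0, 0⟩, 0⟩ 0 0)) (.cut .s 5537792 (.pos 18 .mm ⟨0, 0, 0, 0, 0, 1122643, 0, 0, 0, ⟨0, 0⟩, 0⟩ 0 0) (.pos 18 .mm ⟨0, 0, 0, 0, 0, 1436251, 0, 0, 0, ⟨0, 0⟩, 0⟩ 0 0))) (.pos 19 .mm ⟨0, 0, 0, 0, 0, 1196089, 0, 0, 0, ⟨0, 0⟩, 0⟩ 0 0))) (.pos 17 .mm ⟨0, 0, 0, 0, 0, 584216, 0, 0, 0, ⟨0, 0⟩, 0⟩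 0 0))) (.cut .s 5439488 (.pos 17 .mm ⟨0, 0, 0, 0, 0, 32586, 0, 0, 0, ⟨0, 0⟩, 0⟩ 0 0) (.pos 17 .mm ⟨0, 0, 0, 0, 0, 753705, 0, 0, 0, ⟨0, 0⟩, 0⟩ 0 0))))) (.cut .d (-524288) (.cut .v 16252928 (.pos 16 .mm ⟨0, 0, 0, 0, 0, 3258527, 0, 0, 0, ⟨0, 0⟩, 0⟩ 0 0) (.pos 17 .mm ⟨0, 0, 0, 0, 0, 3416144, 0, 0, 0, ⟨0, 0⟩, 0⟩ 0 0)) (.cut .s 5832704 (.cut .v 16252928 (.cut .l 850045 (.cut .d (-262144) (.pos 16 .mm ⟨0, 0, 0, 0, 0, 2333482, 0, 0, 0, ⟨0, 0⟩, 0⟩ 0 0) (.cut .s 5734400 (.pos 16 .mm ⟨0, 0, 0, 0, 0, 1860809, 0, 0, 0, ⟨0, 0⟩, 0⟩ 0 0) (.pos 16 .mm ⟨0, 0, 0, 0, 0, 2278667, 0, 0, 0, ⟨0, 0⟩, 0⟩ 0 0))) (.cut .s 5734400 (.pos 16 .mm ⟨0, 0, 0, 0, 0, 1475063, 0, 0, 0, ⟨0, 0⟩,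 0⟩ 0 0) (.pos 16 .mm ⟨0, 0, 0, 0, 0, 1906937, 0, 0, 0, ⟨0, 0⟩, 0⟩ 0 0))) (.cut .l 850045 (.cut .d (-262144) (.pos 17 .mm ⟨0, 0, 0, 0, 0, 2444374, 0, 0, 0, ⟨0, 0⟩, 0⟩ 0 0) (.cut .v 16515072 (.cut .l 548055 (.cut .s 5734400 (.cut .d (-131072) (.pos 18 .mm ⟨0, 0, 0, 0, 0, 1956203, 0, 0, 0, ⟨0, 0⟩, 0⟩ 0 0) (.cut .s 5685248 (.pos 18 .mm ⟨0, 0, 0, 0, 0, 1686920, 0, 0, 0, ⟨0, 0⟩, 0⟩ 0 0) (.pos 18 .mm ⟨0, 0, 0, 0, 0, 1880594, 0, 0, 0, ⟨0, 0⟩, 0⟩ 0 0))) (.cut .d (-131072) (.pos 18 .mm ⟨0, 0, 0, 0, 0, 2374894, 0, 0, 0, ⟨0, 0⟩, 0⟩ 0 0) (.pos 18 .mm ⟨0, 0, 0, 0, 0, 2136537, 0, 0, 0, ⟨0, 0⟩, 0⟩ 0 0))) (.pos 18 .mm ⟨0, 0, 0, 0, 0, 1685573, 0, 0, 0, ⟨0, 0⟩, 0⟩ 0 0)) (.cut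 .s 5734400 (.pos 19 .mm ⟨0, 0, 0, 0, 0, 1754330, 0, 0, 0, ⟨0, 0⟩, 0⟩ 0 0) (.pos 19 .mm ⟨0, 0, 0, 0, 0, 2161098, 0, 0, 0, ⟨0, 0⟩, 0⟩ 0 0)))) (.pos 17 .mm ⟨0, 0, 0, 0, 0, 1637216, 0, 0, 0, ⟨0, 0⟩, 0⟩ 0 0))) (.cut .v 16252928 (.cut .v 15990784 (.pos 43 .mm ⟨0, 0, 0, 0, 0, 2986468, 0, 0, 0, ⟨0, 0⟩, 0⟩ 0 0) (.cut .l 850045 (.cut .s 5931008 (.cut .s 5881856 (.pos 44 .mm ⟨0, 0, 0, 0, 0, 2769131, 0, 0, 0, ⟨0, 0⟩, 0⟩ 0 0) (.pos 44 .mm ⟨0, 0, 0, 0, 0, 3000173, 0, 0, 0, ⟨0, 0⟩, 0⟩ 0 0)) (.pos 44 .mm ⟨0, 0, 0, 0, 0, 3314267, 0, 0, 0, ⟨0, 0⟩, 0⟩ 0 0)) (.pos 44 .mm ⟨0, 0, 0, 0, 0, 2674100, 0, 0, 0, ⟨0, 0⟩, 0⟩ 0 0))) (.cut .l 850045 (.cut .d (-262144) (.pos 17 .mm ⟨0, 0,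 0, 0, 0, 3441131, 0, 0, 0, ⟨0, 0⟩, 0⟩ 0 0) (.cut .s 5931008 (.cut .v 16515072 (.cut .d (-131072) (.pos 18 .mm ⟨0, 0, 0, 0, 0, 2777583, 0, 0, 0, ⟨0, 0⟩, 0⟩ 0 0) (.pos 18 .mm ⟨0, 0, 0, 0, 0, 2567188, 0, 0, 0, ⟨0, 0⟩, 0⟩ 0 0)) (.pos 19 .mm ⟨0, 0, 0, 0, 0, 2606375, 0, 0, 0, ⟨0, 0⟩, 0⟩ 0 0)) (.cut .v 16515072 (.cut .s 5980160 (.pos 18 .mm ⟨0, 0, 0, 0, 0, 3060829, 0, 0, 0, ⟨0, 0⟩, 0⟩ 0 0) (.pos 18 .mm ⟨0, 0, 0, 0, 0, 3308363, 0, 0, 0, ⟨0, 0⟩, 0⟩ 0 0)) (.pos 19 .mm ⟨0, 0, 0, 0, 0, 3088311, 0, 0, 0, ⟨0, 0⟩, 0⟩ 0 0)))) (.pos 17 .mm ⟨0, 0, 0, 0, 0, 2568469, 0, 0, 0, ⟨0, 0⟩, 0⟩ 0 0)))))))))))))) (.cut .v 25165824 (.cut .v 20971520 (.cut .d (-8388608) (.void 23 ⟨0, 0,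 0, 0, 0, 100000, 0, 0, 0, ⟨0, 0⟩, 0⟩ 0 0) (.cut .d (-4194304) (.void 23 ⟨0, 0, 0, 0, 0, 100000, 0, 0, 0, ⟨0, 0⟩, 0⟩ 0 0) (.cut .d (-2097152) (.void 23 ⟨0, 0, 0, 0, 0, 100000, 0, 0, 0, ⟨0, 0⟩, 0⟩ 0 0) (.cut .s 5636096 (.pos 23 .mp ⟨0, 0, 0, 0, 0, 986200, 0, 0, 0, ⟨0, 0⟩, 0⟩ 0 0) (.cut .s 5832704 (.pos 23 .mp ⟨0, 0, 0, 0, 0, 2012010, 0, 0, 0, ⟨0, 0⟩, 0⟩ 0 0) (.cut .s 5931008 (.pos 23 .mp ⟨381167, 0, 0, 0, 0, 2322483, 0, 0, 0, ⟨0, 0⟩, 0⟩ 0 0) (.pos 23 .mp ⟨599095, 0, 0, 0, 0, 2695807, 0, 0, 0, ⟨0, 0⟩, 0⟩ 0 0))))))) (.void 24 ⟨100000, 0, 0, 0, 0, 0, 0, 0, 0, ⟨0, 0⟩, 0⟩ 0 0)) (.void 22 ⟨100000, 0, 0, 0, 0, 0, 0, 0, 0, ⟨0, 0⟩, 0⟩ 0 0))) (.cut .v 16777216 (.cut .v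 8388608 (.void 2 ⟨0, 0, 0, 0, 100000, 0, 0, 0, 0, ⟨0, 0⟩, 0⟩ 0 0) (.cut .v 12582912 (.pos 8 .pm ⟨0, 0, 0, 0, 0, 0, 0, 0, 0, ⟨0, 0⟩, 0⟩ 0 0) (.cut .v 14680064 (.pos 12 .pm ⟨0, 0, 0, 0, 0, 0, 0, 0, 0, ⟨0, 0⟩, 0⟩ 0 0) (.cut .v 15728640 (.pos 14 .pm ⟨0, 0, 0, 0, 0, 0, 0, 0, 0, ⟨0, 0⟩, 0⟩ 0 0) (.cut .s 5636096 (.cut .d 5287340 (.cut .v 16252928 (.pos 16 .pm ⟨0, 0, 0, 0, 0, 0, 0, 0, 0, ⟨0, 0⟩, 0⟩ 0 0) (.pos 17 .pm ⟨0, 0, 0, 0, 0, 0, 0, 165541, 0, ⟨2442545, 5737532⟩, 0⟩ 80 114)) (.void 15 ⟨0, 0, 0, 0, 0, 0, 0, 0, 100000, ⟨0, 0⟩, 16508694⟩ 0 0)) (.pos 15 .pm ⟨0, 0, 0, 0, 0, 0, 0, 0, 0, ⟨0, 0⟩, 0⟩ 0 0)))))) (.cut .d 5287340 (.cut .v 25165824 (.cut .v 20971520 (.cut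 .d 2643670 (.cut .v 18874368 (.cut .d 1321835 (.cut .d 660917 (.pos 25 .pp ⟨0, 0, 0, 0, 0, 0, 0, 0, 0, ⟨0, 0⟩, 0⟩ 0 0) (.pos 25 .pp ⟨0, 0, 0, 0, 0, 0, 0, 340828, 0, ⟨2234457, 6458970⟩, 0⟩ 83 100)) (.pos 25 .pp ⟨0, 0, 0, 0, 0, 0, 0, 340828, 0, ⟨2479861, 5764169⟩, 0⟩ 86 107)) (.pos 26 .pp ⟨0, 0, 0, 0, 0, 0, 0, 368095, 0, ⟨2298990, 6196906⟩, 0⟩ 80 107)) (.pos 23 .pp ⟨0, 0, 0, 0, 0, 0, 0, 354462, 0, ⟨2960086, 4496154⟩, 0⟩ 92 121)) (.cut .d 2643670 (.pos 24 .pp ⟨0, 0, 0, 0, 0, 0, 0, 408994, 0, ⟨2298990, 6196906⟩, 0⟩ 80 107) (.pos 24 .pp ⟨0, 0, 0, 0, 0, 0, 0, 13436947, 0, ⟨2960086, 4496154⟩, 0⟩ 92 121))) (.pos 22 .pp ⟨0, 0, 0, 0, 0, 0, 14182600, 16862728, 0, ⟨2577576,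 5305431⟩, 0⟩ 80 121)) (.void 20 ⟨0, 0, 0, 0, 0, 0, 0, 100000, 0, ⟨3853406, 2439463⟩, 0⟩ 105 150)))),
    by decide +kernel⟩

def covers6 : cell.Covers table row6.1 :=
  ⟨(.cut .d 0 (.cut .v 16777216 (.cut .d (-8388608) (.void 1 ⟨0, 0, 0, 0, 0, 100000, 0, 0, 0, ⟨0, 0⟩, 0⟩ 0 0) (.cut .d (-4194304) (.void 1 ⟨0, 0, 0, 0, 0, 100000, 0, 0, 0, ⟨0, 0⟩, 0⟩ 0 0) (.cut .d (-2097152) (.void 1 ⟨0, 0, 0, 0, 0, 100000, 0, 0, 0, ⟨0, 0⟩, 0⟩ 0 0) (.cut .d (-1048576) (.void 1 ⟨0, 0, 0, 0, 0, 100000, 0, 0, 0, ⟨0, 0⟩, 0⟩ 0 0) (.cut .d (-524288) (.void 1 ⟨0, 0, 0, 0, 0, 100000, 0, 0, 0, ⟨0, 0⟩, 0⟩ 0 0) (.cut .v 8388608 (.cut .v 4194304 (.void 4 ⟨0, 0, 100000, 0, 0, 0, 0, 0, 0, ⟨0,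 0⟩, 0⟩ 0 0) (.pos 5 .mm ⟨0, 0, 0, 0, 0, 8040064, 0, 0, 0, ⟨0, 0⟩, 0⟩ 0 0)) (.cut .v 12582912 (.pos 8 .mm ⟨0, 0, 0, 0, 0, 5730065, 0, 0, 0, ⟨0, 0⟩, 0⟩ 0 0) (.cut .v 14680064 (.pos 12 .mm ⟨0, 0, 0, 0, 0, 5556371, 0, 0, 0, ⟨0, 0⟩, 0⟩ 0 0) (.cut .s 6422528 (.cut .v 15728640 (.pos 14 .mm ⟨0, 0, 0, 0, 0, 4617380, 0, 0, 0, ⟨0, 0⟩, 0⟩ 0 0) (.cut .s 6225920 (.cut .v 16252928 (.cut .s 6127616 (.pos 16 .mm ⟨0, 0, 0, 0, 0, 3778585, 0, 0, 0, ⟨0, 0⟩, 0⟩ 0 0) (.pos 16 .mm ⟨0, 0, 0, 0, 0, 4336147, 0, 0, 0, ⟨0, 0⟩, 0⟩ 0 0)) (.cut .s 6127616 (.cut .d (-262144) (.pos 17 .mm ⟨0, 0, 0, 0, 0, 3924492, 0, 0, 0, ⟨0, 0⟩, 0⟩ 0 0) (.cut .v 16515072 (.pos 18 .mm ⟨0, 0, 0, 0, 0, 3663516,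 0, 0, 0, ⟨0, 0⟩, 0⟩ 0 0) (.pos 19 .mm ⟨0, 0, 0, 0, 0, 3613531, 0, 0, 0, ⟨0, 0⟩, 0⟩ 0 0))) (.cut .d (-262144) (.pos 17 .mm ⟨0, 0, 0, 0, 0, 4513420, 0, 0, 0, ⟨0, 0⟩, 0⟩ 0 0) (.cut .s 6176768 (.pos 17 .mm ⟨0, 0, 0, 0, 0, 4068388, 0, 0, 0, ⟨0, 0⟩, 0⟩ 0 0) (.pos 17 .mm ⟨0, 0, 0, 0, 0, 4372376, 0, 0, 0, ⟨0, 0⟩, 0⟩ 0 0))))) (.cut .s 6324224 (.cut .v 16252928 (.pos 16 .mm ⟨0, 0, 0, 0, 0, 4986422, 0, 0, 0, ⟨0, 0⟩, 0⟩ 0 0) (.cut .s 6275072 (.pos 17 .mm ⟨0, 0, 0, 0, 0, 4815808, 0, 0, 0, ⟨0, 0⟩, 0⟩ 0 0) (.pos 17 .mm ⟨0, 0, 0, 0, 0, 5171103, 0, 0, 0, ⟨0, 0⟩, 0⟩ 0 0))) (.cut .v 16252928 (.pos 16 .mm ⟨0, 0, 0, 0, 0, 5722556, 0, 0, 0, ⟨0, 0⟩, 0⟩ 0 0) (.cut .s 6373376 (.pos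 17 .mm ⟨0, 0, 0, 0, 0, 5557081, 0, 0, 0, ⟨0, 0⟩, 0⟩ 0 0) (.pos 17 .mm ⟨0, 0, 0, 0, 0, 5960806, 0, 0, 0, ⟨0, 0⟩, 0⟩ 0 0)))))) (.cut .v 15728640 (.pos 14 .mm ⟨0, 0, 0, 0, 0, 7607670, 0, 0, 0, ⟨0, 0⟩, 0⟩ 0 0) (.cut .s 6619136 (.cut .s 6520832 (.cut .v 16252928 (.pos 16 .mm ⟨0, 0, 0, 0, 0, 6529185, 0, 0, 0, ⟨0, 0⟩, 0⟩ 0 0) (.cut .s 6471680 (.pos 17 .mm ⟨0, 0, 0, 0, 0, 6377466, 0, 0, 0, ⟨0, 0⟩, 0⟩ 0 0) (.pos 17 .mm ⟨0, 0, 0, 0, 0, 6795081, 0, 0, 0, ⟨0, 0⟩, 0⟩ 0 0))) (.cut .s 6569984 (.cut .s 6545408 (.pos 15 .mm ⟨0, 0, 0, 0, 0, 7133104, 0, 0, 0, ⟨0, 0⟩, 0⟩ 0 0) (.pos 15 .mm ⟨0, 0, 0, 0, 0, 7352056, 0, 0, 0, ⟨0, 0⟩, 0⟩ 0 0)) (.pos 15 .mm ⟨0, 0, 0, 0, 0, 7669960,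 0, 0, 0, ⟨0, 0⟩, 0⟩ 0 0))) (.cut .s 6717440 (.cut .v 16252928 (.pos 16 .mm ⟨0, 0, 0, 0, 0, 8350975, 0, 0, 0, ⟨0, 0⟩, 0⟩ 0 0) (.cut .s 6668288 (.pos 17 .mm ⟨0, 0, 0, 0, 0, 8209595, 0, 0, 0, ⟨0, 0⟩, 0⟩ 0 0) (.cut .s 6692864 (.pos 17 .mm ⟨0, 0, 0, 0, 0, 8570554, 0, 0, 0, ⟨0, 0⟩, 0⟩ 0 0) (.pos 17 .mm ⟨0, 0, 0, 0, 0, 8832824, 0, 0, 0, ⟨0, 0⟩, 0⟩ 0 0)))) (.cut .v 16252928 (.pos 16 .mm ⟨0, 0, 0, 0, 0, 9364597, 0, 0, 0, ⟨0, 0⟩, 0⟩ 0 0) (.cut .s 6766592 (.cut .s 6742016 (.pos 17 .mm ⟨0, 0, 0, 0, 0, 9110799, 0, 0, 0, ⟨0, 0⟩, 0⟩ 0 0) (.pos 17 .mm ⟨0, 0, 0, 0, 0, 9392650, 0, 0, 0, ⟨0, 0⟩, 0⟩ 0 0)) (.cut .s 6791168 (.pos 17 .mm ⟨0, 0, 0, 0, 0, 9678336, 0, 0, 0, ⟨0, 0⟩,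 0⟩ 0 0) (.pos 17 .mm ⟨0, 0, 0, 0, 0, 9966280, 0, 0, 0, ⟨0, 0⟩, 0⟩ 0 0)))))))))))))))) (.cut .v 25165824 (.cut .d (-8388608) (.void 21 ⟨0, 0, 0, 0, 0, 100000, 0, 0, 0, ⟨0, 0⟩, 0⟩ 0 0) (.cut .v 20971520 (.cut .d (-4194304) (.void 23 ⟨0, 0, 0, 0, 0, 100000, 0, 0, 0, ⟨0, 0⟩, 0⟩ 0 0) (.cut .d (-2097152) (.void 23 ⟨0, 0, 0, 0, 0, 100000, 0, 0, 0, ⟨0, 0⟩, 0⟩ 0 0) (.cut .d (-1048576) (.void 23 ⟨0, 0, 0, 0, 0, 100000, 0, 0, 0, ⟨0, 0⟩, 0⟩ 0 0) (.cut .d (-524288) (.void 23 ⟨0, 0, 0, 0, 0, 100000, 0, 0, 0, ⟨0, 0⟩, 0⟩ 0 0) (.cut .v 18874368 (.cut .v 17825792 (.cut .s 6422528 (.cut .v 17301504 (.cut .s 6225920 (.cut .s 6127616 (.pos 29 .mp ⟨0, 0, 0, 0, 0, 3616266, 0, 0,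 0, ⟨0, 0⟩, 0⟩ 0 0) (.pos 29 .mp ⟨0, 0, 0, 0, 0, 4274276, 0, 0, 0, ⟨0, 0⟩, 0⟩ 0 0)) (.cut .s 6324224 (.pos 29 .mp ⟨0, 0, 0, 0, 0, 4998495, 0, 0, 0, ⟨0, 0⟩, 0⟩ 0 0) (.pos 29 .mp ⟨0, 0, 0, 0, 0, 5737218, 0, 0, 0, ⟨0, 0⟩, 0⟩ 0 0))) (.pos 30 .mp ⟨5777745, 0, 0, 0, 0, 0, 0, 0, 0, ⟨0, 0⟩, 0⟩ 0 0)) (.cut .v 17301504 (.cut .s 6619136 (.cut .s 6520832 (.cut .s 6471680 (.pos 29 .mp ⟨0, 0, 0, 0, 0, 6348905, 0, 0, 0, ⟨0, 0⟩, 0⟩ 0 0) (.pos 29 .mp ⟨0, 0, 0, 0, 0, 6800586, 0, 0, 0, ⟨0, 0⟩, 0⟩ 0 0)) (.cut .s 6569984 (.pos 29 .mp ⟨0, 0, 0, 0, 0, 7269017, 0, 0, 0, ⟨0, 0⟩, 0⟩ 0 0) (.pos 29 .mp ⟨0, 0, 0, 0, 0, 7747588, 0, 0, 0, ⟨0, 0⟩, 0⟩ 0 0))) (.cut .s 6717440 (.cut .s 6668288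 (.pos 29 .mp ⟨0, 0, 0, 0, 0, 8251369, 0, 0, 0, ⟨0, 0⟩, 0⟩ 0 0) (.cut .s 6692864 (.pos 29 .mp ⟨386282, 0, 0, 0, 0, 8273608, 0, 0, 0, ⟨0, 0⟩, 0⟩ 0 0) (.pos 29 .mp ⟨377448, 0, 0, 0, 0, 8547568, 0, 0, 0, ⟨0, 0⟩, 0⟩ 0 0))) (.cut .s 6766592 (.cut .s 6742016 (.pos 29 .mp ⟨341947, 0, 0, 0, 0, 8859403, 0, 0, 0, ⟨0, 0⟩, 0⟩ 0 0) (.cut .s 6754304 (.pos 29 .mp ⟨623821, 0, 0, 0, 0, 8790105, 0, 0, 0, ⟨0, 0⟩, 0⟩ 0 0) (.pos 29 .mp ⟨611211, 0, 0, 0, 0, 8944254, 0, 0, 0, ⟨0, 0⟩, 0⟩ 0 0))) (.cut .d (-262144) (.pos 29 .mp ⟨0, 0, 0, 0, 0, 10173547, 0, 0, 0, ⟨0, 0⟩, 0⟩ 0 0) (.cut .v 17039360 (.cut .s 6791168 (.pos 31 .mp ⟨225908, 0, 0, 0, 0, 9500936, 0, 0, 0, ⟨0, 0⟩, 0⟩ 0 0) (.cut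 .s 6803456 (.pos 31 .mp ⟨596649, 0, 0, 0, 0, 9352255, 0, 0, 0, ⟨0, 0⟩, 0⟩ 0 0) (.pos 31 .mp ⟨588941, 0, 0, 0, 0, 9501349, 0, 0, 0, ⟨0, 0⟩, 0⟩ 0 0))) (.pos 32 .mp ⟨9584312, 0, 0, 0, 0, 0, 0, 0, 0, ⟨0, 0⟩, 0⟩ 0 0)))))) (.pos 30 .mp ⟨9838099, 0, 0, 0, 0, 0, 0, 0, 0, ⟨0, 0⟩, 0⟩ 0 0))) (.pos 28 .mp ⟨9610009, 0, 0, 0, 0, 0, 0, 0, 0, ⟨0, 0⟩, 0⟩ 0 0)) (.void 26 ⟨100000, 0, 0, 0, 0, 0, 0, 0, 0, ⟨0, 0⟩, 0⟩ 0 0)))))) (.void 24 ⟨100000, 0, 0, 0, 0, 0, 0, 0, 0, ⟨0, 0⟩, 0⟩ 0 0))) (.void 22 ⟨100000, 0, 0, 0, 0, 0, 0, 0, 0, ⟨0, 0⟩, 0⟩ 0 0))) (.cut .v 16777216 (.cut .v 8388608 (.cut .v 4194304 (.void 4 ⟨0, 0, 50000, 0, 50000, 0, 0, 0, 0, ⟨0, 0⟩, 0⟩ 0 0) (.void 5 ⟨0, 0, 0, 0,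 0, 0, 0, 0, 100000, ⟨0, 0⟩, 9975792⟩ 0 0)) (.cut .v 12582912 (.pos 8 .pm ⟨0, 0, 0, 0, 0, 0, 0, 0, 0, ⟨0, 0⟩, 0⟩ 0 0) (.cut .v 14680064 (.pos 12 .pm ⟨0, 0, 0, 0, 0, 0, 0, 0, 0, ⟨0, 0⟩, 0⟩ 0 0) (.pos 13 .pm ⟨0, 0, 0, 0, 0, 0, 0, 0, 0, ⟨0, 0⟩, 0⟩ 0 0)))) (.cut .d 8430549 (.cut .v 25165824 (.cut .v 20971520 (.pos 23 .pp ⟨2637956, 0, 0, 0, 0, 0, 0, 0, 0, ⟨0, 0⟩, 0⟩ 0 0) (.pos 24 .pp ⟨0, 0, 0, 0, 0, 0, 163017, 1592062, 0, ⟨3546565, 2864214⟩, 0⟩ 92 157)) (.pos 22 .pp ⟨0, 0, 0, 0, 0, 0, 12185475, 0, 0, ⟨0, 0⟩, 0⟩ 0 0)) (.pos 20 .pp ⟨0, 0, 0, 0, 0, 0, 0, 204458129, 0, ⟨5010258, 402922⟩, 0⟩ 138 226)))),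
    by decide +kernel⟩

def covers7 : cell.Covers table row7.1 :=
  ⟨(.cut .d 0 (.cut .v 16777216 (.cut .d (-8388608) (.void 1 ⟨0, 0, 0, 0, 0, 100000, 0, 0, 0, ⟨0, 0⟩, 0⟩ 0 0) (.cut .d (-4194304) (.void 1 ⟨0, 0, 0, 0, 0, 100000, 0, 0, 0, ⟨0, 0⟩, 0⟩ 0 0) (.cut .d (-2097152) (.void 1 ⟨0, 0, 0, 0, 0, 100000, 0, 0, 0, ⟨0, 0⟩, 0⟩ 0 0) (.cut .d (-1048576) (.void 1 ⟨0, 0, 0, 0, 0, 100000, 0, 0, 0, ⟨0, 0⟩, 0⟩ 0 0) (.cut .d (-524288) (.void 1 ⟨0, 0, 0, 0, 0, 100000, 0, 0, 0, ⟨0, 0⟩, 0⟩ 0 0) (.cut .v 8388608 (.cut .v 4194304 (.void 4 ⟨0, 0, 100000, 0, 0, 0, 0, 0, 0, ⟨0, 0⟩, 0⟩ 0 0) (.pos 5 .mm ⟨0, 0, 0, 0, 0, 11171303, 0, 0, 0, ⟨0, 0⟩, 0⟩ 0 0)) (.cut .v 12582912 (.pos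 8 .mm ⟨0, 0, 0, 0, 0, 10422181, 0, 0, 0, ⟨0, 0⟩, 0⟩ 0 0) (.cut .v 14680064 (.pos 12 .mm ⟨0, 0, 0, 0, 0, 12534194, 0, 0, 0, ⟨0, 0⟩, 0⟩ 0 0) (.cut .s 7176192 (.cut .v 15728640 (.pos 14 .mm ⟨0, 0, 0, 0, 0, 11624791, 0, 0, 0, ⟨0, 0⟩, 0⟩ 0 0) (.cut .s 6995968 (.cut .s 6905856 (.cut .v 16252928 (.pos 16 .mm ⟨0, 0, 0, 0, 0, 10403291, 0, 0, 0, ⟨0, 0⟩, 0⟩ 0 0) (.cut .s 6860800 (.cut .s 6838272 (.pos 17 .mm ⟨0, 0, 0, 0, 0, 10240346, 0, 0, 0, ⟨0, 0⟩, 0⟩ 0 0) (.pos 17 .mm ⟨0, 0, 0, 0, 0, 10516843, 0, 0, 0, ⟨0, 0⟩, 0⟩ 0 0)) (.cut .s 6883328 (.pos 17 .mm ⟨0, 0, 0, 0, 0, 10799021, 0, 0, 0, ⟨0, 0⟩, 0⟩ 0 0) (.pos 17 .mm ⟨0, 0, 0, 0, 0, 11087825, 0, 0, 0, ⟨0, 0⟩, 0⟩ 0 0))))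 (.cut .d (-262144) (.pos 15 .mm ⟨0, 0, 0, 0, 0, 12298598, 0, 0, 0, ⟨0, 0⟩, 0⟩ 0 0) (.cut .s 6950912 (.pos 15 .mm ⟨0, 0, 0, 0, 0, 11505580, 0, 0, 0, ⟨0, 0⟩, 0⟩ 0 0) (.pos 15 .mm ⟨0, 0, 0, 0, 0, 12129957, 0, 0, 0, ⟨0, 0⟩, 0⟩ 0 0)))) (.cut .v 16252928 (.pos 16 .mm ⟨0, 0, 0, 0, 0, 13490456, 0, 0, 0, ⟨0, 0⟩, 0⟩ 0 0) (.cut .s 7086080 (.cut .s 7041024 (.cut .s 7018496 (.pos 17 .mm ⟨0, 0, 0, 0, 0, 12629016, 0, 0, 0, ⟨0, 0⟩, 0⟩ 0 0) (.pos 17 .mm ⟨0, 0, 0, 0, 0, 12956254, 0, 0, 0, ⟨0, 0⟩, 0⟩ 0 0)) (.pos 17 .mm ⟨0, 0, 0, 0, 0, 13576736, 0, 0, 0, ⟨0, 0⟩, 0⟩ 0 0)) (.cut .s 7131136 (.pos 17 .mm ⟨0, 0, 0, 0, 0, 14284931, 0, 0, 0, ⟨0, 0⟩, 0⟩ 0 0) (.pos 17 .mm ⟨0, 0, 0, 0,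 0, 15005102, 0, 0, 0, ⟨0, 0⟩, 0⟩ 0 0)))))) (.cut .v 15728640 (.pos 14 .mm ⟨0, 0, 0, 0, 0, 17154128, 0, 0, 0, ⟨0, 0⟩, 0⟩ 0 0) (.cut .s 7356416 (.cut .d (-262144) (.pos 15 .mm ⟨0, 0, 0, 0, 0, 18126045, 0, 0, 0, ⟨0, 0⟩, 0⟩ 0 0) (.cut .l 850045 (.cut .v 16252928 (.pos 16 .mm ⟨0, 0, 0, 0, 0, 15906607, 0, 0, 0, ⟨0, 0⟩, 0⟩ 0 0) (.cut .v 16515072 (.pos 18 .mm ⟨0, 0, 0, 0, 0, 16340394, 0, 0, 0, ⟨0, 0⟩, 0⟩ 0 0) (.cut .s 7266304 (.cut .s 7221248 (.pos 19 .mm ⟨0, 0, 0, 0, 0, 15527351, 0, 0, 0, ⟨0, 0⟩, 0⟩ 0 0) (.pos 19 .mm ⟨0, 0, 0, 0, 0, 16276374, 0, 0, 0, ⟨0, 0⟩, 0⟩ 0 0)) (.cut .s 7311360 (.pos 19 .mm ⟨0, 0, 0, 0, 0, 17047582, 0, 0, 0, ⟨0, 0⟩, 0⟩ 0 0) (.pos 19 .mm ⟨0,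 0, 0, 0, 0, 17840568, 0, 0, 0, ⟨0, 0⟩, 0⟩ 0 0))))) (.pos 15 .mm ⟨0, 0, 0, 0, 0, 15461455, 0, 0, 0, ⟨0, 0⟩, 0⟩ 0 0))) (.cut .d (-262144) (.pos 15 .mm ⟨0, 0, 0, 0, 0, 21813336, 0, 0, 0, ⟨0, 0⟩, 0⟩ 0 0) (.cut .s 7446528 (.pos 15 .mm ⟨0, 0, 0, 0, 0, 19301133, 0, 0, 0, ⟨0, 0⟩, 0⟩ 0 0) (.pos 15 .mm ⟨0, 0, 0, 0, 0, 21026058, 0, 0, 0, ⟨0, 0⟩, 0⟩ 0 0)))))))))))))) (.cut .v 33554432 (.cut .v 25165824 (.cut .d (-8388608) (.void 21 ⟨0, 0, 0, 0, 0, 100000, 0, 0, 0, ⟨0, 0⟩, 0⟩ 0 0) (.cut .d (-4194304) (.void 21 ⟨0, 0, 0, 0, 0, 100000, 0, 0, 0, ⟨0, 0⟩, 0⟩ 0 0) (.cut .d (-2097152) (.void 21 ⟨0, 0, 0, 0, 0, 100000, 0, 0, 0, ⟨0, 0⟩, 0⟩ 0 0) (.cut .d (-1048576) (.void 21 ⟨0,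 0, 0, 0, 0, 100000, 0, 0, 0, ⟨0, 0⟩, 0⟩ 0 0) (.cut .d (-524288) (.void 21 ⟨0, 0, 0, 0, 0, 100000, 0, 0, 0, ⟨0, 0⟩, 0⟩ 0 0) (.cut .v 20971520 (.cut .v 18874368 (.cut .v 17825792 (.cut .s 7176192 (.cut .v 17301504 (.cut .s 6995968 (.cut .s 6905856 (.cut .s 6860800 (.cut .s 6838272 (.cut .d (-262144) (.pos 29 .mp ⟨0, 0, 0, 0, 0, 10525654, 0, 0, 0, ⟨0, 0⟩, 0⟩ 0 0) (.cut .v 17039360 (.cut .s 6827008 (.pos 31 .mp ⟨591328, 0, 0, 0, 0, 9639917, 0, 0, 0, ⟨0, 0⟩, 0⟩ 0 0) (.pos 31 .mp ⟨650350, 0, 0, 0, 0, 9726277, 0, 0, 0, ⟨0, 0⟩, 0⟩ 0 0)) (.pos 32 .mp ⟨9855115, 0, 0, 0, 0, 0, 0, 0, 0, ⟨0, 0⟩, 0⟩ 0 0))) (.cut .d (-262144) (.pos 29 .mp ⟨0, 0, 0, 0, 0, 10860849, 0, 0, 0,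 ⟨0, 0⟩, 0⟩ 0 0) (.cut .v 17039360 (.cut .s 6849536 (.pos 31 .mp ⟨708639, 0, 0, 0, 0, 9814872, 0, 0, 0, ⟨0, 0⟩, 0⟩ 0 0) (.pos 31 .mp ⟨766259, 0, 0, 0, 0, 9905640, 0, 0, 0, ⟨0, 0⟩, 0⟩ 0 0)) (.pos 32 .mp ⟨10126010, 0, 0, 0, 0, 0, 0, 0, 0, ⟨0, 0⟩, 0⟩ 0 0)))) (.cut .d (-262144) (.cut .s 6883328 (.pos 29 .mp ⟨0, 0, 0, 0, 0, 11202641, 0, 0, 0, ⟨0, 0⟩, 0⟩ 0 0) (.pos 29 .mp ⟨0, 0, 0, 0, 0, 11551091, 0, 0, 0, ⟨0, 0⟩, 0⟩ 0 0)) (.cut .v 17039360 (.cut .l 850045 (.cut .d (-131072) (.cut .s 6883328 (.pos 31 .mp ⟨689742, 0, 0, 0, 0, 10310522, 0, 0, 0, ⟨0, 0⟩, 0⟩ 0 0) (.pos 31 .mp ⟨806225, 0, 0, 0, 0, 10506855, 0, 0, 0, ⟨0, 0⟩, 0⟩ 0 0)) (.cut .s 6883328 (.pos 31 .mp ⟨870066,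 0, 0, 0, 0, 9973431, 0, 0, 0, ⟨0, 0⟩, 0⟩ 0 0) (.pos 31 .mp ⟨997525, 0, 0, 0, 0, 10149874, 0, 0, 0, ⟨0, 0⟩, 0⟩ 0 0))) (.pos 31 .mp ⟨186000, 0, 0, 0, 0, 10488848, 0, 0, 0, ⟨0, 0⟩, 0⟩ 0 0)) (.pos 32 .mp ⟨10578857, 0, 0, 0, 0, 0, 0, 0, 0, ⟨0, 0⟩, 0⟩ 0 0)))) (.cut .d (-262144) (.cut .d (-393216) (.void 29 ⟨0, 0, 0, 0, 0, 100000, 0, 0, 0, ⟨0, 0⟩, 0⟩ 0 0) (.cut .l 850045 (.void 29 ⟨0, 0, 0, 0, 0, 100000, 0, 0, 0, ⟨0, 0⟩, 0⟩ 0 0) (.cut .s 6950912 (.pos 29 .mp ⟨0, 0, 0, 0, 0, 11872231, 0, 0, 0, ⟨0, 0⟩, 0⟩ 0 0) (.pos 29 .mp ⟨154689, 0, 0, 0, 0, 12424358, 0, 0, 0, ⟨0, 0⟩, 0⟩ 0 0)))) (.cut .l 850045 (.cut .v 17039360 (.cut .s 6950912 (.cut .d (-131072) (.cut .s 6928384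 (.pos 31 .mp ⟨922680, 0, 0, 0, 0, 10709182, 0, 0, 0, ⟨0, 0⟩, 0⟩ 0 0) (.pos 31 .mp ⟨1039398, 0, 0, 0, 0, 10917200, 0, 0, 0, ⟨0, 0⟩, 0⟩ 0 0)) (.cut .s 6928384 (.pos 31 .mp ⟨1127185, 0, 0, 0, 0, 10326865, 0, 0, 0, ⟨0, 0⟩, 0⟩ 0 0) (.pos 31 .mp ⟨1259058, 0, 0, 0, 0, 10507298, 0, 0, 0, ⟨0, 0⟩, 0⟩ 0 0))) (.cut .d (-131072) (.cut .s 6973440 (.pos 31 .mp ⟨1156672, 0, 0, 0, 0, 11130606, 0, 0, 0, ⟨0, 0⟩, 0⟩ 0 0) (.pos 31 .mp ⟨1274790, 0, 0, 0, 0, 11349093, 0, 0, 0, ⟨0, 0⟩, 0⟩ 0 0)) (.cut .s 6973440 (.pos 31 .mp ⟨1393155, 0, 0, 0, 0, 10691152, 0, 0, 0, ⟨0, 0⟩, 0⟩ 0 0) (.cut .s 6984704 (.pos 31 .mp ⟨1684429, 0, 0, 0, 0, 10675688, 0, 0, 0, ⟨0, 0⟩, 0⟩ 0 0) (.pos 31 .mp ⟨1749401,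 0, 0, 0, 0, 10774148, 0, 0, 0, ⟨0, 0⟩, 0⟩ 0 0))))) (.pos 32 .mp ⟨13892845, 0, 0, 0, 0, 0, 0, 0, 0, ⟨0, 0⟩, 0⟩ 0 0)) (.cut .s 6950912 (.pos 29 .mp ⟨409069, 0, 0, 0, 0, 10890498, 0, 0, 0, ⟨0, 0⟩, 0⟩ 0 0) (.pos 29 .mp ⟨707992, 0, 0, 0, 0, 11253836, 0, 0, 0, ⟨0, 0⟩, 0⟩ 0 0))))) (.cut .d (-262144) (.cut .l 850045 (.void 29 ⟨0, 0, 0, 0, 0, 100000, 0, 0, 0, ⟨0, 0⟩, 0⟩ 0 0) (.cut .d (-393216) (.void 29 ⟨0, 0, 0, 0, 0, 100000, 0, 0, 0, ⟨0, 0⟩, 0⟩ 0 0) (.cut .s 7086080 (.cut .s 7041024 (.pos 29 .mp ⟨375224, 0, 0, 0, 0, 12927371, 0, 0, 0, ⟨0, 0⟩, 0⟩ 0 0) (.pos 29 .mp ⟨562162, 0, 0, 0, 0, 13509466, 0, 0, 0, ⟨0, 0⟩, 0⟩ 0 0)) (.cut .s 7131136 (.pos 29 .mp ⟨857273, 0, 0,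 0, 0, 13994634, 0, 0, 0, ⟨0, 0⟩, 0⟩ 0 0) (.pos 29 .mp ⟨1161968, 0, 0, 0, 0, 14493986, 0, 0, 0, ⟨0, 0⟩, 0⟩ 0 0))))) (.cut .s 7086080 (.cut .l 850045 (.cut .v 17039360 (.cut .s 7041024 (.cut .d (-131072) (.cut .s 7018496 (.pos 31 .mp ⟨1394042, 0, 0, 0, 0, 11572355, 0, 0, 0, ⟨0, 0⟩, 0⟩ 0 0) (.pos 31 .mp ⟨1500750, 0, 0, 0, 0, 11817563, 0, 0, 0, ⟨0, 0⟩, 0⟩ 0 0)) (.cut .d (-65536) (.cut .s 7018496 (.pos 31 .mp ⟨1668060, 0, 0, 0, 0, 11133019, 0, 0, 0, ⟨0, 0⟩, 0⟩ 0 0) (.pos 31 .mp ⟨1808891, 0, 0, 0, 0, 11329216, 0, 0, 0, ⟨0, 0⟩, 0⟩ 0 0)) (.pos 31 .mp ⟨2237291, 0, 0, 0, 0, 10377009, 0, 0, 0, ⟨0, 0⟩, 0⟩ 0 0))) (.cut .d (-131072) (.cut .s 7063552 (.pos 31 .mp ⟨1586852,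 0, 0, 0, 0, 12094997, 0, 0, 0, ⟨0, 0⟩, 0⟩ 0 0) (.pos 31 .mp ⟨1674989, 0, 0, 0, 0, 12376422, 0, 0, 0, ⟨0, 0⟩, 0⟩ 0 0)) (.cut .d (-65536) (.cut .s 7063552 (.pos 31 .mp ⟨1951989, 0, 0, 0, 0, 11528740, 0, 0, 0, ⟨0, 0⟩, 0⟩ 0 0) (.pos 31 .mp ⟨2097365, 0, 0, 0, 0, 11731587, 0, 0, 0, ⟨0, 0⟩, 0⟩ 0 0)) (.pos 31 .mp ⟨2516575, 0, 0, 0, 0, 10756309, 0, 0, 0, ⟨0, 0⟩, 0⟩ 0 0)))) (.pos 32 .mp ⟨15264034, 0, 0, 0, 0, 0, 0, 0, 0, ⟨0, 0⟩, 0⟩ 0 0)) (.cut .s 7041024 (.pos 29 .mp ⟨1017029, 0, 0, 0, 0, 11630775, 0, 0, 0, ⟨0, 0⟩, 0⟩ 0 0) (.pos 29 .mp ⟨1336279, 0, 0, 0, 0, 12020596, 0, 0, 0, ⟨0, 0⟩, 0⟩ 0 0))) (.cut .s 7131136 (.cut .v 17039360 (.cut .l 850045 (.cut .d (-131072) (.cut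 .s 7108608 (.pos 31 .mp ⟨1765658, 0, 0, 0, 0, 12661257, 0, 0, 0, ⟨0, 0⟩, 0⟩ 0 0) (.pos 31 .mp ⟨1867276, 0, 0, 0, 0, 12939798, 0, 0, 0, ⟨0, 0⟩, 0⟩ 0 0)) (.cut .d (-65536) (.cut .s 7108608 (.pos 31 .mp ⟨2245031, 0, 0, 0, 0, 11937753, 0, 0, 0, ⟨0, 0⟩, 0⟩ 0 0) (.pos 31 .mp ⟨2394997, 0, 0, 0, 0, 12147230, 0, 0, 0, ⟨0, 0⟩, 0⟩ 0 0)) (.pos 31 .mp ⟨2803081, 0, 0, 0, 0, 11150654, 0, 0, 0, ⟨0, 0⟩, 0⟩ 0 0))) (.pos 31 .mp ⟨1720440, 0, 0, 0, 0, 12341358, 0, 0, 0, ⟨0, 0⟩, 0⟩ 0 0)) (.pos 32 .mp ⟨13632126, 0, 0, 0, 0, 0, 0, 0, 0, ⟨0, 0⟩, 0⟩ 0 0)) (.cut .v 17039360 (.cut .l 850045 (.cut .d (-131072) (.cut .s 7153664 (.pos 31 .mp ⟨1999538, 0, 0, 0, 0, 13189267, 0, 0, 0, ⟨0, 0⟩,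 0⟩ 0 0) (.pos 31 .mp ⟨2134693, 0, 0, 0, 0, 13441555, 0, 0, 0, ⟨0, 0⟩, 0⟩ 0 0)) (.cut .d (-65536) (.cut .s 7153664 (.pos 31 .mp ⟨2547276, 0, 0, 0, 0, 12360015, 0, 0, 0, ⟨0, 0⟩, 0⟩ 0 0) (.pos 31 .mp ⟨2701880, 0, 0, 0, 0, 12576101, 0, 0, 0, ⟨0, 0⟩, 0⟩ 0 0)) (.pos 31 .mp ⟨3077659, 0, 0, 0, 0, 11582687, 0, 0, 0, ⟨0, 0⟩, 0⟩ 0 0))) (.pos 31 .mp ⟨2057935, 0, 0, 0, 0, 12747247, 0, 0, 0, ⟨0, 0⟩, 0⟩ 0 0)) (.pos 32 .mp ⟨14298598, 0, 0, 0, 0, 0, 0, 0, 0, ⟨0, 0⟩, 0⟩ 0 0)))))) (.pos 30 .mp ⟨14748453, 0, 0, 0, 0, 0, 0, 0, 0, ⟨0, 0⟩, 0⟩ 0 0)) (.cut .v 17301504 (.cut .d (-262144) (.cut .l 850045 (.void 29 ⟨0, 0, 0, 0, 0, 100000, 0, 0, 0, ⟨0, 0⟩, 0⟩ 0 0) (.cut .d (-393216) (.void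 29 ⟨0, 0, 0, 0, 0, 100000, 0, 0, 0, ⟨0, 0⟩, 0⟩ 0 0) (.cut .s 7356416 (.cut .s 7266304 (.cut .s 7221248 (.pos 29 .mp ⟨1476342, 0, 0, 0, 0, 15007319, 0, 0, 0, ⟨0, 0⟩, 0⟩ 0 0) (.pos 29 .mp ⟨1800494, 0, 0, 0, 0, 15534427, 0, 0, 0, ⟨0, 0⟩, 0⟩ 0 0)) (.cut .s 7311360 (.pos 29 .mp ⟨2134525, 0, 0, 0, 0, 16075094, 0, 0, 0, ⟨0, 0⟩, 0⟩ 0 0) (.pos 29 .mp ⟨2478536, 0, 0, 0, 0, 16629097, 0, 0, 0, ⟨0, 0⟩, 0⟩ 0 0))) (.cut .d (-327680) (.pos 29 .mp ⟨3136767, 0, 0, 0, 0, 20080005, 0, 0, 0, ⟨0, 0⟩, 0⟩ 0 0) (.cut .l 1152035 (.pos 29 .mp ⟨3153690, 0, 0, 0, 0, 20351513, 0, 0, 0, ⟨0, 0⟩, 0⟩ 0 0) (.cut .s 7446528 (.cut .s 7401472 (.pos 29 .mp ⟨3022014, 0, 0, 0, 0, 16528073, 0, 0, 0,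 ⟨0, 0⟩, 0⟩ 0 0) (.pos 29 .mp ⟨3464438, 0, 0, 0, 0, 16979523, 0, 0, 0, ⟨0, 0⟩, 0⟩ 0 0)) (.pos 29 .mp ⟨4385941, 0, 0, 0, 0, 17284101, 0, 0, 0, ⟨0, 0⟩, 0⟩ 0 0))))))) (.cut .s 7356416 (.cut .s 7266304 (.cut .s 7221248 (.cut .v 17039360 (.cut .l 850045 (.cut .d (-131072) (.cut .s 7198720 (.pos 31 .mp ⟨2272949, 0, 0, 0, 0, 13696405, 0, 0, 0, ⟨0, 0⟩, 0⟩ 0 0) (.pos 31 .mp ⟨2414515, 0, 0, 0, 0, 13953560, 0, 0, 0, ⟨0, 0⟩, 0⟩ 0 0)) (.cut .d (-65536) (.cut .v 16908288 (.cut .s 7198720 (.pos 51 .mp ⟨2248462, 0, 0, 0, 0, 13494920, 0, 0, 0, ⟨0, 0⟩, 0⟩ 0 0) (.pos 51 .mp ⟨2393299, 0, 0, 0, 0, 13737261, 0, 0, 0, ⟨0, 0⟩, 0⟩ 0 0)) (.pos 52 .mp ⟨5049834, 0, 0, 0, 0, 10752751, 0,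 0, 0, ⟨0, 0⟩, 0⟩ 0 0)) (.pos 31 .mp ⟨3360575, 0, 0, 0, 0, 12027427, 0, 0, 0, ⟨0, 0⟩, 0⟩ 0 0))) (.pos 31 .mp ⟨2354642, 0, 0, 0, 0, 13216650, 0, 0, 0, ⟨0, 0⟩, 0⟩ 0 0)) (.pos 32 .mp ⟨5632010, 0, 0, 0, 0, 10403914, 0, 0, 0, ⟨0, 0⟩, 0⟩ 0 0)) (.cut .v 17039360 (.cut .l 850045 (.cut .d (-131072) (.cut .s 7243776 (.pos 31 .mp ⟨2559597, 0, 0, 0, 0, 14212763, 0, 0, 0, ⟨0, 0⟩, 0⟩ 0 0) (.pos 31 .mp ⟨2708403, 0, 0, 0, 0, 14473753, 0, 0, 0, ⟨0, 0⟩, 0⟩ 0 0)) (.cut .d (-65536) (.cut .v 16908288 (.cut .s 7243776 (.pos 51 .mp ⟨2543653, 0, 0, 0, 0, 13979347, 0, 0, 0, ⟨0, 0⟩, 0⟩ 0 0) (.pos 51 .mp ⟨2698356, 0, 0, 0, 0, 14222506, 0, 0, 0, ⟨0, 0⟩, 0⟩ 0 0)) (.pos 52 .mp ⟨5475096,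 0, 0, 0, 0, 11099872, 0, 0, 0, ⟨0, 0⟩, 0⟩ 0 0)) (.pos 31 .mp ⟨3651916, 0, 0, 0, 0, 12484245, 0, 0, 0, ⟨0, 0⟩, 0⟩ 0 0))) (.pos 31 .mp ⟨2588592, 0, 0, 0, 0, 13772291, 0, 0, 0, ⟨0, 0⟩, 0⟩ 0 0)) (.pos 32 .mp ⟨6044917, 0, 0, 0, 0, 10774861, 0, 0, 0, ⟨0, 0⟩, 0⟩ 0 0))) (.cut .s 7311360 (.cut .v 17039360 (.cut .l 850045 (.cut .d (-131072) (.cut .s 7288832 (.pos 31 .mp ⟨2861137, 0, 0, 0, 0, 14736273, 0, 0, 0, ⟨0, 0⟩, 0⟩ 0 0) (.pos 31 .mp ⟨3018006, 0, 0, 0, 0, 15000061, 0, 0, 0, ⟨0, 0⟩, 0⟩ 0 0)) (.cut .d (-65536) (.cut .s 7288832 (.cut .s 7277568 (.pos 31 .mp ⟨3271811, 0, 0, 0, 0, 13928651, 0, 0, 0, ⟨0, 0⟩, 0⟩ 0 0) (.pos 31 .mp ⟨3361342, 0, 0, 0, 0, 14038743, 0, 0, 0,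 ⟨0, 0⟩, 0⟩ 0 0)) (.pos 31 .mp ⟨3201704, 0, 0, 0, 0, 14544909, 0, 0, 0, ⟨0, 0⟩, 0⟩ 0 0)) (.pos 31 .mp ⟨3951768, 0, 0, 0, 0, 12952519, 0, 0, 0, ⟨0, 0⟩, 0⟩ 0 0))) (.pos 31 .mp ⟨2829426, 0, 0, 0, 0, 14342139, 0, 0, 0, ⟨0, 0⟩, 0⟩ 0 0)) (.pos 32 .mp ⟨6480790, 0, 0, 0, 0, 11144678, 0, 0, 0, ⟨0, 0⟩, 0⟩ 0 0)) (.cut .v 17039360 (.cut .l 850045 (.cut .d (-131072) (.cut .s 7333888 (.pos 31 .mp ⟨3179213, 0, 0, 0, 0, 15264857, 0, 0, 0, ⟨0, 0⟩, 0⟩ 0 0) (.pos 31 .mp ⟨3344961, 0, 0, 0, 0, 15530397, 0, 0, 0, ⟨0, 0⟩, 0⟩ 0 0)) (.cut .d (-65536) (.cut .s 7333888 (.pos 31 .mp ⟨3374966, 0, 0, 0, 0, 14782321, 0, 0, 0, ⟨0, 0⟩, 0⟩ 0 0) (.pos 31 .mp ⟨3554077, 0, 0, 0, 0, 15018617, 0,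 0, 0, ⟨0, 0⟩, 0⟩ 0 0)) (.pos 31 .mp ⟨4260222, 0, 0, 0, 0, 13431634, 0, 0, 0, ⟨0, 0⟩, 0⟩ 0 0))) (.cut .s 7333888 (.pos 31 .mp ⟨3077215, 0, 0, 0, 0, 14818184, 0, 0, 0, ⟨0, 0⟩, 0⟩ 0 0) (.pos 31 .mp ⟨3203742, 0, 0, 0, 0, 15112515, 0, 0, 0, ⟨0, 0⟩, 0⟩ 0 0))) (.pos 32 .mp ⟨6943316, 0, 0, 0, 0, 11509383, 0, 0, 0, ⟨0, 0⟩, 0⟩ 0 0)))) (.cut .s 7446528 (.cut .s 7401472 (.cut .v 17039360 (.cut .d (-131072) (.cut .l 850045 (.cut .s 7378944 (.pos 31 .mp ⟨3515455, 0, 0, 0, 0, 15796419, 0, 0, 0, ⟨0, 0⟩, 0⟩ 0 0) (.pos 31 .mp ⟨3690894, 0, 0, 0, 0, 16062658, 0, 0, 0, ⟨0, 0⟩, 0⟩ 0 0)) (.pos 31 .mp ⟨2750076, 0, 0, 0, 0, 16454267, 0, 0, 0, ⟨0, 0⟩, 0⟩ 0 0)) (.cut .d (-65536) (.cut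 .l 850045 (.cut .s 7378944 (.pos 31 .mp ⟨3735678, 0, 0, 0, 0, 15258051, 0, 0, 0, ⟨0, 0⟩, 0⟩ 0 0) (.pos 31 .mp ⟨3919783, 0, 0, 0, 0, 15500612, 0, 0, 0, ⟨0, 0⟩, 0⟩ 0 0)) (.pos 31 .mp ⟨0, 0, 0, 0, 0, 0, 0, 0, 0, ⟨0, 0⟩, 0⟩ 0 0)) (.pos 31 .mp ⟨4577370, 0, 0, 0, 0, 13920980, 0, 0, 0, ⟨0, 0⟩, 0⟩ 0 0))) (.pos 32 .mp ⟨7436201, 0, 0, 0, 0, 11864912, 0, 0, 0, ⟨0, 0⟩, 0⟩ 0 0)) (.cut .v 17039360 (.cut .l 850045 (.cut .d (-131072) (.pos 31 .mp ⟨3709136, 0, 0, 0, 0, 16876029, 0, 0, 0, ⟨0, 0⟩, 0⟩ 0 0) (.cut .d (-65536) (.cut .s 7424000 (.pos 31 .mp ⟨4106406, 0, 0, 0, 0, 15746289, 0, 0, 0, ⟨0, 0⟩, 0⟩ 0 0) (.pos 31 .mp ⟨4295559, 0, 0, 0, 0, 15995071, 0, 0, 0, ⟨0, 0⟩, 0⟩ 0 0))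 (.pos 31 .mp ⟨4903305, 0, 0, 0, 0, 14419954, 0, 0, 0, ⟨0, 0⟩, 0⟩ 0 0))) (.pos 31 .mp ⟨3593958, 0, 0, 0, 0, 16131119, 0, 0, 0, ⟨0, 0⟩, 0⟩ 0 0)) (.pos 32 .mp ⟨7963173, 0, 0, 0, 0, 12207109, 0, 0, 0, ⟨0, 0⟩, 0⟩ 0 0))) (.cut .s 7491584 (.cut .v 17039360 (.cut .l 850045 (.cut .d (-131072) (.pos 31 .mp ⟨4043663, 0, 0, 0, 0, 17469074, 0, 0, 0, ⟨0, 0⟩, 0⟩ 0 0) (.cut .d (-65536) (.cut .s 7469056 (.pos 31 .mp ⟨4487257, 0, 0, 0, 0, 16246947, 0, 0, 0, ⟨0, 0⟩, 0⟩ 0 0) (.pos 31 .mp ⟨4681514, 0, 0, 0, 0, 16501903, 0, 0, 0, ⟨0, 0⟩, 0⟩ 0 0)) (.pos 31 .mp ⟨5238124, 0, 0, 0, 0, 14927958, 0, 0, 0, ⟨0, 0⟩, 0⟩ 0 0))) (.pos 31 .mp ⟨3863062, 0, 0, 0, 0, 16752020, 0, 0, 0, ⟨0, 0⟩,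 0⟩ 0 0)) (.pos 32 .mp ⟨8527983, 0, 0, 0, 0, 12531732, 0, 0, 0, ⟨0, 0⟩, 0⟩ 0 0)) (.cut .v 17039360 (.cut .l 850045 (.cut .d (-131072) (.pos 31 .mp ⟨4411280, 0, 0, 0, 0, 18046974, 0, 0, 0, ⟨0, 0⟩, 0⟩ 0 0) (.cut .d (-65536) (.cut .s 7514112 (.pos 31 .mp ⟨4878344, 0, 0, 0, 0, 16759929, 0, 0, 0, ⟨0, 0⟩, 0⟩ 0 0) (.pos 31 .mp ⟨5077761, 0, 0, 0, 0, 17021010, 0, 0, 0, ⟨0, 0⟩, 0⟩ 0 0)) (.pos 31 .mp ⟨5581924, 0, 0, 0, 0, 15444396, 0, 0, 0, ⟨0, 0⟩, 0⟩ 0 0))) (.pos 31 .mp ⟨4139426, 0, 0, 0, 0, 17384271, 0, 0, 0, ⟨0, 0⟩, 0⟩ 0 0)) (.pos 32 .mp ⟨9134409, 0, 0, 0, 0, 12834443, 0, 0, 0, ⟨0, 0⟩, 0⟩ 0 0)))))) (.pos 30 .mp ⟨21330632, 0, 0, 0, 0, 0, 0, 0, 0, ⟨0, 0⟩, 0⟩ 0 0))) (.pos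 28 .mp ⟨20897634, 0, 0, 0, 0, 0, 0, 0, 0, ⟨0, 0⟩, 0⟩ 0 0)) (.void 26 ⟨100000, 0, 0, 0, 0, 0, 0, 0, 0, ⟨0, 0⟩, 0⟩ 0 0)) (.void 24 ⟨100000, 0, 0, 0, 0, 0, 0, 0, 0, ⟨0, 0⟩, 0⟩ 0 0))))))) (.void 22 ⟨100000, 0, 0, 0, 0, 0, 0, 0, 0, ⟨0, 0⟩, 0⟩ 0 0)) (.void 61 ⟨100000, 0, 0, 0, 0, 0, 0, 0, 0, ⟨0, 0⟩, 0⟩ 0 0))) (.cut .v 16777216 (.cut .v 8388608 (.cut .v 4194304 (.void 4 ⟨0, 0, 50000, 0, 50000, 0, 0, 0, 0, ⟨0, 0⟩, 0⟩ 0 0) (.pos 5 .pm ⟨0, 0, 0, 0, 0, 0, 0, 0, 0, ⟨0, 0⟩, 0⟩ 0 0)) (.cut .d 12260274 (.pos 3 .pm ⟨0, 0, 0, 0, 0, 0, 0, 0, 0, ⟨0, 0⟩, 0⟩ 0 0) (.void 3 ⟨0, 0, 0, 0, 0, 0, 0, 0, 100000, ⟨0, 0⟩, 14107901⟩ 0 0))) (.cut .v 33554432 (.cut .d 12260274 (.cut .v 25165824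 (.cut .v 20971520 (.pos 23 .pp ⟨6529306, 0, 0, 0, 0, 0, 0, 0, 0, ⟨0, 0⟩, 0⟩ 0 0) (.pos 24 .pp ⟨7123168, 0, 0, 0, 0, 0, 593819, 0, 0, ⟨0, 0⟩, 0⟩ 0 0)) (.pos 22 .pp ⟨6186216, 0, 0, 0, 0, 0, 1729189, 0, 0, ⟨0, 0⟩, 0⟩ 0 0)) (.cut .d 18390411 (.pos 20 .pp ⟨0, 0, 0, 0, 0, 0, 0, 107119624, 6487937, ⟨5315715, 25106⟩, 19951585⟩ 180 293) (.void 20 ⟨0, 74600, 0, 0, 0, 0, 0, 0, 25400, ⟨0, 0⟩, 19951585⟩ 0 0))) (.cut .d 12260274 (.cut .d 6130137 (.pos 61 .pp ⟨35133956, 0, 0, 0, 0, 0, 50530210, 0, 0, ⟨0, 0⟩, 0⟩ 0 0) (.pos 61 .pp ⟨0, 0, 0, 0, 0, 0, 36393810, 167033888, 0, ⟨5028463, 398064⟩, 0⟩ 142 207)) (.pos 61 .pp ⟨0, 32448248, 0, 0, 0, 0, 80694243, 0, 0, ⟨0, 0⟩, 0⟩ 0 0))))),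
    by decide +kernel⟩

def covers8 : cell.Covers table row8.1 :=
  ⟨(.cut .d 0 (.cut .v 16777216 (.cut .d (-8388608) (.void 1 ⟨0, 0, 0, 0, 0, 100000, 0, 0, 0, ⟨0, 0⟩, 0⟩ 0 0) (.cut .d (-4194304) (.void 1 ⟨0, 0, 0, 0, 0, 100000, 0, 0, 0, ⟨0, 0⟩, 0⟩ 0 0) (.cut .d (-2097152) (.void 1 ⟨0, 0, 0, 0, 0, 100000, 0, 0, 0, ⟨0, 0⟩, 0⟩ 0 0) (.cut .d (-1048576) (.void 1 ⟨0, 0, 0, 0, 0, 100000, 0, 0, 0, ⟨0, 0⟩, 0⟩ 0 0) (.cut .d (-524288) (.void 1 ⟨0, 0, 0, 0, 0, 100000, 0, 0, 0, ⟨0, 0⟩, 0⟩ 0 0) (.cut .v 8388608 (.cut .v 4194304 (.void 4 ⟨0, 0, 100000, 0, 0, 0, 0, 0, 0, ⟨0, 0⟩, 0⟩ 0 0) (.pos 5 .mm ⟨0, 0, 0, 0, 0, 15318952, 0, 0, 0, ⟨0, 0⟩, 0⟩ 0 0)) (.cut .v 12582912 (.pos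 8 .mm ⟨0, 0, 0, 0, 0, 18882882, 0, 0, 0, ⟨0, 0⟩, 0⟩ 0 0) (.cut .v 14680064 (.pos 12 .mm ⟨0, 0, 0, 0, 0, 23485462, 0, 0, 0, ⟨0, 0⟩, 0⟩ 0 0) (.cut .v 15728640 (.pos 14 .mm ⟨0, 0, 0, 0, 0, 26535603, 0, 0, 0, ⟨0, 0⟩, 0⟩ 0 0) (.cut .d (-262144) (.cut .s 7798784 (.pos 15 .mm ⟨0, 0, 0, 0, 0, 27821633, 0, 0, 0, ⟨0, 0⟩, 0⟩ 0 0) (.pos 15 .mm ⟨0, 0, 0, 0, 0, 35367190, 0, 0, 0, ⟨0, 0⟩, 0⟩ 0 0)) (.cut .s 7798784 (.cut .l 850045 (.cut .d (-131072) (.pos 15 .mm ⟨0, 0, 0, 0, 0, 26941719, 0, 0, 0, ⟨0, 0⟩, 0⟩ 0 0) (.cut .s 7667712 (.pos 15 .mm ⟨0, 0, 0, 0, 0, 22888037, 0, 0, 0, ⟨0, 0⟩, 0⟩ 0 0) (.pos 15 .mm ⟨0, 0, 0, 0, 0, 25818196, 0, 0, 0, ⟨0, 0⟩, 0⟩ 0 0))) (.pos 15 .mm ⟨0,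 0, 0, 0, 0, 23047988, 0, 0, 0, ⟨0, 0⟩, 0⟩ 0 0)) (.cut .l 850045 (.cut .d (-131072) (.pos 15 .mm ⟨0, 0, 0, 0, 0, 34122886, 0, 0, 0, ⟨0, 0⟩, 0⟩ 0 0) (.cut .s 7929856 (.pos 15 .mm ⟨0, 0, 0, 0, 0, 29018241, 0, 0, 0, ⟨0, 0⟩, 0⟩ 0 0) (.pos 15 .mm ⟨0, 0, 0, 0, 0, 32475196, 0, 0, 0, ⟨0, 0⟩, 0⟩ 0 0))) (.pos 15 .mm ⟨0, 0, 0, 0, 0, 29387417, 0, 0, 0, ⟨0, 0⟩, 0⟩ 0 0))))))))))))) (.cut .v 33554432 (.cut .v 25165824 (.cut .d (-8388608) (.void 21 ⟨0, 0, 0, 0, 0, 100000, 0, 0, 0, ⟨0, 0⟩, 0⟩ 0 0) (.cut .v 20971520 (.cut .d (-4194304) (.void 23 ⟨0, 0, 0, 0, 0, 100000, 0, 0, 0, ⟨0, 0⟩, 0⟩ 0 0) (.cut .d (-2097152) (.void 23 ⟨0, 0, 0, 0, 0, 100000, 0, 0, 0, ⟨0, 0⟩, 0⟩ 0 0) (.cut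 .d (-1048576) (.void 23 ⟨0, 0, 0, 0, 0, 100000, 0, 0, 0, ⟨0, 0⟩, 0⟩ 0 0) (.cut .d (-524288) (.void 23 ⟨0, 0, 0, 0, 0, 100000, 0, 0, 0, ⟨0, 0⟩, 0⟩ 0 0) (.cut .v 18874368 (.cut .v 17825792 (.cut .d (-262144) (.cut .v 17301504 (.cut .d (-393216) (.void 29 ⟨0, 0, 0, 0, 0, 100000, 0, 0, 0, ⟨0, 0⟩, 0⟩ 0 0) (.cut .d (-327680) (.void 29 ⟨0, 0, 0, 0, 0, 100000, 0, 0, 0, ⟨0, 0⟩, 0⟩ 0 0) (.cut .l 850045 (.void 29 ⟨0, 0, 0, 0, 0, 100000, 0, 0, 0, ⟨0, 0⟩, 0⟩ 0 0) (.cut .l 1152035 (.void 29 ⟨0, 0, 0, 0, 0, 100000, 0, 0, 0, ⟨0, 0⟩, 0⟩ 0 0) (.cut .s 7798784 (.cut .s 7667712 (.cut .s 7602176 (.pos 29 .mp ⟨5092700, 0, 0, 0, 0, 18529655, 0, 0, 0, ⟨0, 0⟩, 0⟩ 0 0) (.pos 29 .mp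 ⟨4952781, 0, 0, 0, 0, 20718441, 0, 0, 0, ⟨0, 0⟩, 0⟩ 0 0)) (.cut .s 7733248 (.pos 29 .mp ⟨5583018, 0, 0, 0, 0, 21717064, 0, 0, 0, ⟨0, 0⟩, 0⟩ 0 0) (.pos 29 .mp ⟨6239420, 0, 0, 0, 0, 22757787, 0, 0, 0, ⟨0, 0⟩, 0⟩ 0 0))) (.cut .d (-294912) (.pos 29 .mp ⟨7231170, 0, 0, 0, 0, 32323501, 0, 0, 0, ⟨0, 0⟩, 0⟩ 0 0) (.cut .s 7929856 (.cut .s 7864320 (.pos 29 .mp ⟨6922424, 0, 0, 0, 0, 23690754, 0, 0, 0, ⟨0, 0⟩, 0⟩ 0 0) (.pos 29 .mp ⟨7632479, 0, 0, 0, 0, 24811618, 0, 0, 0, ⟨0, 0⟩, 0⟩ 0 0)) (.pos 29 .mp ⟨8370051, 0, 0, 0, 0, 27726045, 0, 0, 0, ⟨0, 0⟩, 0⟩ 0 0)))))))) (.pos 30 .mp ⟨37285005, 0, 0, 0, 0, 0, 0, 0, 0, ⟨0, 0⟩, 0⟩ 0 0)) (.cut .v 17301504 (.cut .s 7798784 (.cut .s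 7667712 (.cut .s 7602176 (.cut .v 17039360 (.cut .d (-131072) (.cut .l 850045 (.pos 31 .mp ⟨4737906, 0, 0, 0, 0, 19096284, 0, 0, 0, ⟨0, 0⟩, 0⟩ 0 0) (.pos 31 .mp ⟨3563330, 0, 0, 0, 0, 19606673, 0, 0, 0, ⟨0, 0⟩, 0⟩ 0 0)) (.cut .d (-65536) (.cut .l 850045 (.cut .s 7569408 (.pos 31 .mp ⟨5371612, 0, 0, 0, 0, 17274413, 0, 0, 0, ⟨0, 0⟩, 0⟩ 0 0) (.pos 31 .mp ⟨5674057, 0, 0, 0, 0, 17640269, 0, 0, 0, ⟨0, 0⟩, 0⟩ 0 0)) (.pos 31 .mp ⟨0, 0, 0, 0, 0, 0, 0, 0, 0, ⟨0, 0⟩, 0⟩ 0 0)) (.pos 31 .mp ⟨6099404, 0, 0, 0, 0, 15942897, 0, 0, 0, ⟨0, 0⟩, 0⟩ 0 0))) (.pos 32 .mp ⟨11402731, 0, 0, 0, 0, 11651131, 0, 0, 0, ⟨0, 0⟩, 0⟩ 0 0)) (.cut .v 17039360 (.cut .d (-131072) (.cut .l 850045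 (.pos 31 .mp ⟨5274153, 0, 0, 0, 0, 20029909, 0, 0, 0, ⟨0, 0⟩, 0⟩ 0 0) (.pos 31 .mp ⟨4073003, 0, 0, 0, 0, 20542061, 0, 0, 0, ⟨0, 0⟩, 0⟩ 0 0)) (.cut .l 850045 (.cut .v 16908288 (.cut .l 548055 (.cut .d (-65536) (.cut .s 7634944 (.pos 51 .mp ⟨5664837, 0, 0, 0, 0, 18479514, 0, 0, 0, ⟨0, 0⟩, 0⟩ 0 0) (.pos 51 .mp ⟨5917740, 0, 0, 0, 0, 18950778, 0, 0, 0, ⟨0, 0⟩, 0⟩ 0 0)) (.cut .s 7634944 (.pos 51 .mp ⟨6107951, 0, 0, 0, 0, 17157560, 0, 0, 0, ⟨0, 0⟩, 0⟩ 0 0) (.pos 51 .mp ⟨6384047, 0, 0, 0, 0, 17576708, 0, 0, 0, ⟨0, 0⟩, 0⟩ 0 0))) (.pos 51 .mp ⟨4779753, 0, 0, 0, 0, 18709337, 0, 0, 0, ⟨0, 0⟩, 0⟩ 0 0)) (.pos 52 .mp ⟨11773064, 0, 0, 0, 0, 12202134, 0, 0, 0, ⟨0, 0⟩, 0⟩ 0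 0)) (.pos 31 .mp ⟨0, 0, 0, 0, 0, 0, 0, 0, 0, ⟨0, 0⟩, 0⟩ 0 0))) (.pos 32 .mp ⟨12204180, 0, 0, 0, 0, 12223135, 0, 0, 0, ⟨0, 0⟩, 0⟩ 0 0))) (.cut .s 7733248 (.cut .v 17039360 (.cut .d (-131072) (.cut .l 850045 (.cut .s 7700480 (.pos 31 .mp ⟨6033549, 0, 0, 0, 0, 20099062, 0, 0, 0, ⟨0, 0⟩, 0⟩ 0 0) (.pos 31 .mp ⟨6297500, 0, 0, 0, 0, 20616269, 0, 0, 0, ⟨0, 0⟩, 0⟩ 0 0)) (.cut .s 7700480 (.pos 31 .mp ⟨4959188, 0, 0, 0, 0, 20852880, 0, 0, 0, ⟨0, 0⟩, 0⟩ 0 0) (.pos 31 .mp ⟨5156682, 0, 0, 0, 0, 21435780, 0, 0, 0, ⟨0, 0⟩, 0⟩ 0 0))) (.cut .l 850045 (.cut .l 548055 (.cut .v 16908288 (.cut .d (-65536) (.cut .s 7700480 (.pos 51 .mp ⟨6177407, 0, 0, 0, 0, 19431830, 0, 0, 0, ⟨0,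 0⟩, 0⟩ 0 0) (.pos 51 .mp ⟨6444532, 0, 0, 0, 0, 19921728, 0, 0, 0, ⟨0, 0⟩, 0⟩ 0 0)) (.cut .s 7700480 (.pos 51 .mp ⟨6665514, 0, 0, 0, 0, 18006384, 0, 0, 0, ⟨0, 0⟩, 0⟩ 0 0) (.pos 51 .mp ⟨6952396, 0, 0, 0, 0, 18446264, 0, 0, 0, ⟨0, 0⟩, 0⟩ 0 0))) (.pos 52 .mp ⟨26805689, 0, 0, 0, 0, 0, 0, 0, 0, ⟨0, 0⟩, 0⟩ 0 0)) (.pos 31 .mp ⟨6863233, 0, 0, 0, 0, 17904331, 0, 0, 0, ⟨0, 0⟩, 0⟩ 0 0)) (.pos 31 .mp ⟨0, 0, 0, 0, 0, 0, 0, 0, 0, ⟨0, 0⟩, 0⟩ 0 0))) (.pos 32 .mp ⟨13036421, 0, 0, 0, 0, 12829480, 0, 0, 0, ⟨0, 0⟩, 0⟩ 0 0)) (.cut .v 17039360 (.cut .d (-131072) (.cut .l 850045 (.cut .s 7766016 (.pos 31 .mp ⟨6570447, 0, 0, 0, 0, 21141133, 0, 0, 0, ⟨0, 0⟩, 0⟩ 0 0) (.pos 31 .mp ⟨6853277,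 0, 0, 0, 0, 21672506, 0, 0, 0, ⟨0, 0⟩, 0⟩ 0 0)) (.cut .s 7766016 (.pos 31 .mp ⟨5364508, 0, 0, 0, 0, 22025449, 0, 0, 0, ⟨0, 0⟩, 0⟩ 0 0) (.pos 31 .mp ⟨5583883, 0, 0, 0, 0, 22620429, 0, 0, 0, ⟨0, 0⟩, 0⟩ 0 0))) (.cut .l 850045 (.cut .l 548055 (.cut .v 16908288 (.cut .d (-65536) (.cut .s 7766016 (.pos 51 .mp ⟨6719808, 0, 0, 0, 0, 20419525, 0, 0, 0, ⟨0, 0⟩, 0⟩ 0 0) (.pos 51 .mp ⟨7003919, 0, 0, 0, 0, 20924272, 0, 0, 0, ⟨0, 0⟩, 0⟩ 0 0)) (.cut .s 7766016 (.pos 51 .mp ⟨7244739, 0, 0, 0, 0, 18896021, 0, 0, 0, ⟨0, 0⟩, 0⟩ 0 0) (.pos 51 .mp ⟨7542589, 0, 0, 0, 0, 19355336, 0, 0, 0, ⟨0, 0⟩, 0⟩ 0 0))) (.pos 52 .mp ⟨28226370, 0, 0, 0, 0, 0, 0, 0, 0, ⟨0, 0⟩, 0⟩ 0 0)) (.pos 31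 .mp ⟨7492154, 0, 0, 0, 0, 18761978, 0, 0, 0, ⟨0, 0⟩, 0⟩ 0 0)) (.pos 31 .mp ⟨0, 0, 0, 0, 0, 0, 0, 0, 0, ⟨0, 0⟩, 0⟩ 0 0))) (.pos 32 .mp ⟨13915479, 0, 0, 0, 0, 13452892, 0, 0, 0, ⟨0, 0⟩, 0⟩ 0 0)))) (.cut .s 7929856 (.cut .s 7864320 (.cut .v 17039360 (.cut .d (-131072) (.cut .l 850045 (.pos 31 .mp ⟨7016854, 0, 0, 0, 0, 23109184, 0, 0, 0, ⟨0, 0⟩, 0⟩ 0 0) (.cut .s 7831552 (.pos 31 .mp ⟨5816025, 0, 0, 0, 0, 23219245, 0, 0, 0, ⟨0, 0⟩, 0⟩ 0 0) (.pos 31 .mp ⟨6062149, 0, 0, 0, 0, 23820409, 0, 0, 0, ⟨0, 0⟩, 0⟩ 0 0))) (.cut .l 850045 (.cut .l 548055 (.cut .v 16908288 (.cut .d (-65536) (.cut .s 7831552 (.pos 51 .mp ⟨7297549, 0, 0, 0, 0, 21435015, 0, 0, 0, ⟨0, 0⟩, 0⟩ 0 0)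 (.pos 51 .mp ⟨7601378, 0, 0, 0, 0, 21950797, 0, 0, 0, ⟨0, 0⟩, 0⟩ 0 0)) (.cut .d (-32768) (.cut .s 7831552 (.pos 51 .mp ⟨7665420, 0, 0, 0, 0, 20332221, 0, 0, 0, ⟨0, 0⟩, 0⟩ 0 0) (.pos 51 .mp ⟨7979231, 0, 0, 0, 0, 20809199, 0, 0, 0, ⟨0, 0⟩, 0⟩ 0 0)) (.pos 51 .mp ⟨7314933, 0, 0, 0, 0, 0, 0, 0, 0, ⟨0, 0⟩, 0⟩ 0 0))) (.pos 52 .mp ⟨29696360, 0, 0, 0, 0, 0, 0, 0, 0, ⟨0, 0⟩, 0⟩ 0 0)) (.pos 31 .mp ⟨8145236, 0, 0, 0, 0, 19654765, 0, 0, 0, ⟨0, 0⟩, 0⟩ 0 0)) (.pos 31 .mp ⟨0, 0, 0, 0, 0, 0, 0, 0, 0, ⟨0, 0⟩, 0⟩ 0 0))) (.cut .s 7831552 (.pos 32 .mp ⟨11936853, 0, 0, 0, 0, 16769632, 0, 0, 0, ⟨0, 0⟩, 0⟩ 0 0) (.pos 32 .mp ⟨12348506, 0, 0, 0, 0, 17167842, 0, 0, 0, ⟨0, 0⟩, 0⟩ 0 0)))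 (.cut .v 17039360 (.cut .d (-131072) (.cut .l 850045 (.pos 31 .mp ⟨7643367, 0, 0, 0, 0, 24226028, 0, 0, 0, ⟨0, 0⟩, 0⟩ 0 0) (.cut .s 7897088 (.pos 31 .mp ⟨6323470, 0, 0, 0, 0, 24422418, 0, 0, 0, ⟨0, 0⟩, 0⟩ 0 0) (.pos 31 .mp ⟨6623681, 0, 0, 0, 0, 24998216, 0, 0, 0, ⟨0, 0⟩, 0⟩ 0 0))) (.cut .l 850045 (.cut .l 548055 (.cut .v 16908288 (.cut .d (-65536) (.cut .s 7897088 (.pos 51 .mp ⟨7916082, 0, 0, 0, 0, 22470656, 0, 0, 0, ⟨0, 0⟩, 0⟩ 0 0) (.pos 51 .mp ⟨8242336, 0, 0, 0, 0, 22993626, 0, 0, 0, ⟨0, 0⟩, 0⟩ 0 0)) (.cut .d (-32768) (.cut .s 7897088 (.pos 51 .mp ⟨8023941, 0, 0, 0, 0, 21808836, 0, 0, 0, ⟨0, 0⟩, 0⟩ 0 0) (.pos 51 .mp ⟨8319660, 0, 0, 0, 0, 22356979, 0, 0, 0,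 ⟨0, 0⟩, 0⟩ 0 0)) (.pos 51 .mp ⟨7928500, 0, 0, 0, 0, 0, 0, 0, 0, ⟨0, 0⟩, 0⟩ 0 0))) (.pos 52 .mp ⟨31212647, 0, 0, 0, 0, 0, 0, 0, 0, ⟨0, 0⟩, 0⟩ 0 0)) (.pos 31 .mp ⟨8822894, 0, 0, 0, 0, 20580088, 0, 0, 0, ⟨0, 0⟩, 0⟩ 0 0)) (.pos 31 .mp ⟨0, 0, 0, 0, 0, 0, 0, 0, 0, ⟨0, 0⟩, 0⟩ 0 0))) (.cut .s 7897088 (.pos 32 .mp ⟨12781664, 0, 0, 0, 0, 17559936, 0, 0, 0, ⟨0, 0⟩, 0⟩ 0 0) (.pos 32 .mp ⟨13238418, 0, 0, 0, 0, 17943499, 0, 0, 0, ⟨0, 0⟩, 0⟩ 0 0)))) (.cut .s 7995392 (.cut .v 17039360 (.cut .d (-131072) (.cut .l 850045 (.pos 31 .mp ⟨8293342, 0, 0, 0, 0, 25386619, 0, 0, 0, ⟨0, 0⟩, 0⟩ 0 0) (.cut .s 7962624 (.pos 31 .mp ⟨6933954, 0, 0, 0, 0, 25580292, 0, 0, 0, ⟨0, 0⟩, 0⟩ 0 0)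 (.pos 31 .mp ⟨7249772, 0, 0, 0, 0, 26173713, 0, 0, 0, ⟨0, 0⟩, 0⟩ 0 0))) (.cut .l 850045 (.cut .l 548055 (.cut .v 16908288 (.cut .d (-65536) (.cut .s 7962624 (.pos 51 .mp ⟨8580810, 0, 0, 0, 0, 23518736, 0, 0, 0, ⟨0, 0⟩, 0⟩ 0 0) (.pos 51 .mp ⟨8932173, 0, 0, 0, 0, 24045013, 0, 0, 0, ⟨0, 0⟩, 0⟩ 0 0)) (.cut .d (-32768) (.cut .s 7962624 (.pos 51 .mp ⟨8620672, 0, 0, 0, 0, 22913750, 0, 0, 0, ⟨0, 0⟩, 0⟩ 0 0) (.pos 51 .mp ⟨8927023, 0, 0, 0, 0, 23478849, 0, 0, 0, ⟨0, 0⟩, 0⟩ 0 0)) (.pos 51 .mp ⟨8562714, 0, 0, 0, 0, 0, 0, 0, 0, ⟨0, 0⟩, 0⟩ 0 0))) (.pos 52 .mp ⟨32772378, 0, 0, 0, 0, 0, 0, 0, 0, ⟨0, 0⟩, 0⟩ 0 0)) (.pos 31 .mp ⟨9525561, 0, 0, 0, 0, 21535367, 0, 0, 0, ⟨0, 0⟩,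 0⟩ 0 0)) (.pos 31 .mp ⟨0, 0, 0, 0, 0, 0, 0, 0, 0, ⟨0, 0⟩, 0⟩ 0 0))) (.pos 32 .mp ⟨16995910, 0, 0, 0, 0, 15244326, 0, 0, 0, ⟨0, 0⟩, 0⟩ 0 0)) (.cut .v 17039360 (.cut .d (-131072) (.cut .l 850045 (.pos 31 .mp ⟨8967189, 0, 0, 0, 0, 26590016, 0, 0, 0, ⟨0, 0⟩, 0⟩ 0 0) (.cut .s 8028160 (.pos 31 .mp ⟨7571183, 0, 0, 0, 0, 26778367, 0, 0, 0, ⟨0, 0⟩, 0⟩ 0 0) (.pos 31 .mp ⟨7900596, 0, 0, 0, 0, 27391431, 0, 0, 0, ⟨0, 0⟩, 0⟩ 0 0))) (.cut .l 850045 (.cut .l 548055 (.cut .v 16908288 (.cut .d (-65536) (.cut .s 8028160 (.pos 51 .mp ⟨9297090, 0, 0, 0, 0, 24571476, 0, 0, 0, ⟨0, 0⟩, 0⟩ 0 0) (.pos 51 .mp ⟨9676226, 0, 0, 0, 0, 25097140, 0, 0, 0, ⟨0, 0⟩, 0⟩ 0 0)) (.cut .d (-32768)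 (.cut .s 8028160 (.pos 51 .mp ⟨9238761, 0, 0, 0, 0, 24051981, 0, 0, 0, ⟨0, 0⟩, 0⟩ 0 0) (.pos 51 .mp ⟨9555934, 0, 0, 0, 0, 24632848, 0, 0, 0, ⟨0, 0⟩, 0⟩ 0 0)) (.pos 51 .mp ⟨9217918, 0, 0, 0, 0, 0, 0, 0, 0, ⟨0, 0⟩, 0⟩ 0 0))) (.pos 52 .mp ⟨34372847, 0, 0, 0, 0, 0, 0, 0, 0, ⟨0, 0⟩, 0⟩ 0 0)) (.pos 31 .mp ⟨10253681, 0, 0, 0, 0, 22518049, 0, 0, 0, ⟨0, 0⟩, 0⟩ 0 0)) (.pos 31 .mp ⟨0, 0, 0, 0, 0, 0, 0, 0, 0, ⟨0, 0⟩, 0⟩ 0 0))) (.pos 32 .mp ⟨18225382, 0, 0, 0, 0, 15751830, 0, 0, 0, ⟨0, 0⟩, 0⟩ 0 0))))) (.pos 30 .mp ⟨28701744, 0, 0, 0, 0, 0, 0, 0, 0, ⟨0, 0⟩, 0⟩ 0 0))) (.pos 28 .mp ⟨34944498, 0, 0, 0, 0, 0, 0, 0, 0, ⟨0, 0⟩, 0⟩ 0 0)) (.void 26 ⟨100000, 0, 0, 0, 0, 0, 0, 0,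 0, ⟨0, 0⟩, 0⟩ 0 0)))))) (.void 24 ⟨100000, 0, 0, 0, 0, 0, 0, 0, 0, ⟨0, 0⟩, 0⟩ 0 0))) (.void 22 ⟨100000, 0, 0, 0, 0, 0, 0, 0, 0, ⟨0, 0⟩, 0⟩ 0 0)) (.void 61 ⟨100000, 0, 0, 0, 0, 0, 0, 0, 0, ⟨0, 0⟩, 0⟩ 0 0))) (.cut .v 16777216 (.cut .v 8388608 (.cut .v 4194304 (.void 4 ⟨0, 0, 50000, 0, 50000, 0, 0, 0, 0, ⟨0, 0⟩, 0⟩ 0 0) (.pos 5 .pm ⟨0, 0, 0, 0, 0, 0, 0, 0, 0, ⟨0, 0⟩, 0⟩ 0 0)) (.cut .d 10285164 (.pos 3 .pm ⟨0, 0, 0, 0, 0, 0, 0, 0, 0, ⟨0, 0⟩, 0⟩ 0 0) (.pos 3 .pm ⟨0, 0, 0, 0, 0, 0, 0, 0, 15639749, ⟨0, 0⟩, 14107901⟩ 0 0))) (.cut .v 33554432 (.cut .d 10285164 (.cut .v 25165824 (.cut .v 20971520 (.pos 23 .pp ⟨9630106, 0, 0, 0, 0, 0, 0, 0, 0, ⟨0, 0⟩, 0⟩ 0 0) (.pos 24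 .pp ⟨12209542, 0, 0, 0, 0, 0, 0, 0, 0, ⟨0, 0⟩, 0⟩ 0 0)) (.pos 22 .pp ⟨16914700, 0, 0, 0, 0, 0, 2450280, 0, 0, ⟨0, 0⟩, 0⟩ 0 0)) (.cut .d 15427746 (.pos 20 .pp ⟨0, 4903314, 0, 0, 0, 0, 0, 0, 4248309, ⟨0, 0⟩, 19951585⟩ 0 0) (.void 20 ⟨0, 87876, 0, 0, 0, 0, 0, 0, 12124, ⟨0, 0⟩, 19951585⟩ 0 0))) (.cut .d 10285164 (.cut .v 50331648 (.cut .d 5142582 (.pos 64 .pp ⟨77261190, 0, 0, 0, 0, 0, 1409934, 0, 0, ⟨0, 0⟩, 0⟩ 0 0) (.pos 64 .pp ⟨0, 0, 0, 0, 0, 0, 2857954, 0, 0, ⟨0, 0⟩, 0⟩ 0 0)) (.pos 65 .pp ⟨109040498, 0, 0, 0, 0, 0, 186716557, 0, 0, ⟨0, 0⟩, 0⟩ 0 0)) (.pos 61 .pp ⟨0, 27591933, 0, 0, 0, 0, 2857954, 0, 0, ⟨0, 0⟩, 0⟩ 0 0))))),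
    by decide +kernel⟩

def covers9 : cell.Covers table row9.1 :=
  ⟨(.cut .d 0 (.cut .v 16777216 (.cut .d (-8388608) (.void 1 ⟨0, 0, 0, 0, 0, 100000, 0, 0, 0, ⟨0, 0⟩, 0⟩ 0 0) (.cut .d (-4194304) (.void 1 ⟨0, 0, 0, 0, 0, 100000, 0, 0, 0, ⟨0, 0⟩, 0⟩ 0 0) (.cut .d (-2097152) (.void 1 ⟨0, 0, 0, 0, 0, 100000, 0, 0, 0, ⟨0, 0⟩, 0⟩ 0 0) (.cut .d (-1048576) (.void 1 ⟨0, 0, 0, 0, 0, 100000, 0, 0, 0, ⟨0, 0⟩, 0⟩ 0 0) (.cut .d (-524288) (.void 1 ⟨0, 0, 0, 0, 0, 100000, 0, 0, 0, ⟨0, 0⟩, 0⟩ 0 0) (.cut .v 8388608 (.cut .v 4194304 (.void 4 ⟨0, 0, 100000, 0, 0, 0, 0, 0, 0, ⟨0, 0⟩, 0⟩ 0 0) (.pos 5 .mm ⟨0, 0, 0, 0, 0, 21401335, 0, 0, 0, ⟨0, 0⟩, 0⟩ 0 0)) (.cut .d (-262144) (.pos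 3 .mm ⟨0, 0, 0, 0, 0, 53582668, 0, 0, 0, ⟨0, 0⟩, 0⟩ 0 0) (.cut .v 12582912 (.pos 8 .mm ⟨0, 0, 0, 0, 0, 24436755, 0, 0, 0, ⟨0, 0⟩, 0⟩ 0 0) (.cut .v 14680064 (.pos 12 .mm ⟨0, 0, 0, 0, 0, 33213451, 0, 0, 0, ⟨0, 0⟩, 0⟩ 0 0) (.cut .v 15728640 (.pos 14 .mm ⟨0, 0, 0, 0, 0, 38011811, 0, 0, 0, ⟨0, 0⟩, 0⟩ 0 0) (.cut .v 16252928 (.pos 16 .mm ⟨0, 0, 0, 0, 0, 40718630, 0, 0, 0, ⟨0, 0⟩, 0⟩ 0 0) (.cut .s 8323072 (.cut .l 850045 (.cut .d (-131072) (.pos 17 .mm ⟨0, 0, 0, 0, 0, 43097738, 0, 0, 0, ⟨0, 0⟩, 0⟩ 0 0) (.cut .s 8192000 (.pos 17 .mm ⟨0, 0, 0, 0, 0, 36315595, 0, 0, 0, ⟨0, 0⟩, 0⟩ 0 0) (.pos 17 .mm ⟨0, 0, 0, 0, 0, 40423611, 0, 0, 0, ⟨0, 0⟩, 0⟩ 0 0))) (.pos 17 .mm ⟨0, 0,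 0, 0, 0, 37259143, 0, 0, 0, ⟨0, 0⟩, 0⟩ 0 0)) (.cut .v 16515072 (.pos 18 .mm ⟨0, 0, 0, 0, 0, 47093725, 0, 0, 0, ⟨0, 0⟩, 0⟩ 0 0) (.cut .s 8454144 (.cut .s 8388608 (.pos 19 .mm ⟨0, 0, 0, 0, 0, 44096089, 0, 0, 0, ⟨0, 0⟩, 0⟩ 0 0) (.pos 19 .mm ⟨0, 0, 0, 0, 0, 46429344, 0, 0, 0, ⟨0, 0⟩, 0⟩ 0 0)) (.cut .s 8519680 (.pos 19 .mm ⟨0, 0, 0, 0, 0, 48847181, 0, 0, 0, ⟨0, 0⟩, 0⟩ 0 0) (.pos 19 .mm ⟨0, 0, 0, 0, 0, 51347669, 0, 0, 0, ⟨0, 0⟩, 0⟩ 0 0)))))))))))))))) (.cut .v 67108864 (.cut .v 33554432 (.cut .v 25165824 (.cut .d (-8388608) (.void 21 ⟨0, 0, 0, 0, 0, 100000, 0, 0, 0, ⟨0, 0⟩, 0⟩ 0 0) (.cut .v 20971520 (.cut .d (-4194304) (.void 23 ⟨0, 0, 0, 0, 0, 100000, 0, 0, 0, ⟨0,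 0⟩, 0⟩ 0 0) (.cut .d (-2097152) (.void 23 ⟨0, 0, 0, 0, 0, 100000, 0, 0, 0, ⟨0, 0⟩, 0⟩ 0 0) (.cut .d (-1048576) (.void 23 ⟨0, 0, 0, 0, 0, 100000, 0, 0, 0, ⟨0, 0⟩, 0⟩ 0 0) (.cut .d (-524288) (.void 23 ⟨0, 0, 0, 0, 0, 100000, 0, 0, 0, ⟨0, 0⟩, 0⟩ 0 0) (.cut .v 18874368 (.cut .v 17825792 (.cut .d (-262144) (.cut .s 8323072 (.cut .s 8192000 (.cut .s 8126464 (.pos 27 .mp ⟨10944619, 0, 0, 0, 0, 29515207, 0, 0, 0, ⟨0, 0⟩, 0⟩ 0 0) (.pos 27 .mp ⟨11749118, 0, 0, 0, 0, 31075800, 0, 0, 0, ⟨0, 0⟩, 0⟩ 0 0)) (.pos 27 .mp ⟨12732379, 0, 0, 0, 0, 35346571, 0, 0, 0, ⟨0, 0⟩, 0⟩ 0 0)) (.void 27 ⟨0, 0, 0, 0, 0, 100000, 0, 0, 0, ⟨0, 0⟩, 0⟩ 0 0)) (.cut .v 17301504 (.cut .s 8323072 (.cut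 .s 8192000 (.cut .v 17039360 (.cut .d (-131072) (.cut .l 850045 (.cut .s 8126464 (.pos 31 .mp ⟨9665680, 0, 0, 0, 0, 27923979, 0, 0, 0, ⟨0, 0⟩, 0⟩ 0 0) (.pos 31 .mp ⟨10395394, 0, 0, 0, 0, 29144765, 0, 0, 0, ⟨0, 0⟩, 0⟩ 0 0)) (.cut .v 16908288 (.pos 51 .mp ⟨0, 0, 0, 0, 0, 37777110, 0, 0, 0, ⟨0, 0⟩, 0⟩ 0 0) (.cut .s 8126464 (.cut .s 8093696 (.pos 52 .mp ⟨8403067, 0, 0, 0, 0, 27882601, 0, 0, 0, ⟨0, 0⟩, 0⟩ 0 0) (.pos 52 .mp ⟨8743117, 0, 0, 0, 0, 28491218, 0, 0, 0, ⟨0, 0⟩, 0⟩ 0 0)) (.cut .s 8159232 (.pos 52 .mp ⟨9089095, 0, 0, 0, 0, 29117003, 0, 0, 0, ⟨0, 0⟩, 0⟩ 0 0) (.pos 52 .mp ⟨9441054, 0, 0, 0, 0, 29759835, 0, 0, 0, ⟨0, 0⟩, 0⟩ 0 0))))) (.cut .l 850045 (.cut .s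 8126464 (.cut .v 16908288 (.cut .l 548055 (.cut .d (-65536) (.pos 51 .mp ⟨9397285, 0, 0, 0, 0, 27199241, 0, 0, 0, ⟨0, 0⟩, 0⟩ 0 0) (.cut .d (-32768) (.cut .s 8093696 (.pos 51 .mp ⟨9878679, 0, 0, 0, 0, 25313112, 0, 0, 0, ⟨0, 0⟩, 0⟩ 0 0) (.pos 51 .mp ⟨10207804, 0, 0, 0, 0, 25921674, 0, 0, 0, ⟨0, 0⟩, 0⟩ 0 0)) (.pos 51 .mp ⟨10076148, 0, 0, 0, 0, 0, 0, 0, 0, ⟨0, 0⟩, 0⟩ 0 0))) (.pos 51 .mp ⟨8718677, 0, 0, 0, 0, 26328711, 0, 0, 0, ⟨0, 0⟩, 0⟩ 0 0)) (.pos 52 .mp ⟨19605419, 0, 0, 0, 0, 15452823, 0, 0, 0, ⟨0, 0⟩, 0⟩ 0 0)) (.cut .s 8159232 (.cut .v 16908288 (.cut .d (-65536) (.pos 51 .mp ⟨10235647, 0, 0, 0, 0, 27346205, 0, 0, 0, ⟨0, 0⟩, 0⟩ 0 0) (.cut .s 8142848 (.pos 51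 .mp ⟨11017652, 0, 0, 0, 0, 25068714, 0, 0, 0, ⟨0, 0⟩, 0⟩ 0 0) (.pos 51 .mp ⟨11199932, 0, 0, 0, 0, 25352958, 0, 0, 0, ⟨0, 0⟩, 0⟩ 0 0))) (.pos 52 .mp ⟨17513833, 0, 0, 0, 0, 19215669, 0, 0, 0, ⟨0, 0⟩, 0⟩ 0 0)) (.cut .v 16908288 (.cut .d (-65536) (.pos 51 .mp ⟨10525060, 0, 0, 0, 0, 28038423, 0, 0, 0, ⟨0, 0⟩, 0⟩ 0 0) (.cut .s 8175616 (.pos 51 .mp ⟨11383784, 0, 0, 0, 0, 25640728, 0, 0, 0, ⟨0, 0⟩, 0⟩ 0 0) (.pos 51 .mp ⟨11569217, 0, 0, 0, 0, 25931975, 0, 0, 0, ⟨0, 0⟩, 0⟩ 0 0))) (.pos 52 .mp ⟨17955314, 0, 0, 0, 0, 19704057, 0, 0, 0, ⟨0, 0⟩, 0⟩ 0 0)))) (.pos 31 .mp ⟨0, 0, 0, 0, 0, 0, 0, 0, 0, ⟨0, 0⟩, 0⟩ 0 0))) (.cut .s 8126464 (.pos 32 .mp ⟨19698046, 0, 0, 0, 0, 16079278,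 0, 0, 0, ⟨0, 0⟩, 0⟩ 0 0) (.pos 32 .mp ⟨20719693, 0, 0, 0, 0, 16886426, 0, 0, 0, ⟨0, 0⟩, 0⟩ 0 0))) (.cut .v 17039360 (.cut .d (-131072) (.cut .l 850045 (.cut .s 8257536 (.pos 31 .mp ⟨11151385, 0, 0, 0, 0, 30442513, 0, 0, 0, ⟨0, 0⟩, 0⟩ 0 0) (.pos 31 .mp ⟨11934142, 0, 0, 0, 0, 31823262, 0, 0, 0, ⟨0, 0⟩, 0⟩ 0 0)) (.cut .v 16908288 (.pos 51 .mp ⟨0, 0, 0, 0, 0, 42072365, 0, 0, 0, ⟨0, 0⟩, 0⟩ 0 0) (.cut .s 8257536 (.cut .s 8224768 (.pos 52 .mp ⟨9799050, 0, 0, 0, 0, 30419595, 0, 0, 0, ⟨0, 0⟩, 0⟩ 0 0) (.pos 52 .mp ⟨10163140, 0, 0, 0, 0, 31096157, 0, 0, 0, ⟨0, 0⟩, 0⟩ 0 0)) (.cut .s 8290304 (.pos 52 .mp ⟨10533379, 0, 0, 0, 0, 31789394, 0, 0, 0, ⟨0, 0⟩, 0⟩ 0 0) (.pos 52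 .mp ⟨10909827, 0, 0, 0, 0, 32499175, 0, 0, 0, ⟨0, 0⟩, 0⟩ 0 0))))) (.cut .l 850045 (.cut .s 8257536 (.cut .s 8224768 (.cut .v 16908288 (.cut .d (-65536) (.pos 51 .mp ⟨10827180, 0, 0, 0, 0, 28739303, 0, 0, 0, ⟨0, 0⟩, 0⟩ 0 0) (.cut .d (-32768) (.pos 51 .mp ⟨11289407, 0, 0, 0, 0, 27726572, 0, 0, 0, ⟨0, 0⟩, 0⟩ 0 0) (.pos 51 .mp ⟨11298358, 0, 0, 0, 0, 0, 0, 0, 0, ⟨0, 0⟩, 0⟩ 0 0))) (.pos 52 .mp ⟨18416832, 0, 0, 0, 0, 20192944, 0, 0, 0, ⟨0, 0⟩, 0⟩ 0 0)) (.cut .v 16908288 (.cut .d (-65536) (.pos 51 .mp ⟨11143344, 0, 0, 0, 0, 29447109, 0, 0, 0, ⟨0, 0⟩, 0⟩ 0 0) (.cut .d (-32768) (.pos 51 .mp ⟨11690409, 0, 0, 0, 0, 28303702, 0, 0, 0, ⟨0, 0⟩, 0⟩ 0 0) (.pos 51 .mp ⟨11663644,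 0, 0, 0, 0, 0, 0, 0, 0, ⟨0, 0⟩, 0⟩ 0 0))) (.pos 52 .mp ⟨18901172, 0, 0, 0, 0, 20679099, 0, 0, 0, ⟨0, 0⟩, 0⟩ 0 0))) (.cut .s 8290304 (.cut .v 16908288 (.cut .d (-65536) (.pos 51 .mp ⟨11474889, 0, 0, 0, 0, 30160093, 0, 0, 0, ⟨0, 0⟩, 0⟩ 0 0) (.cut .d (-32768) (.pos 51 .mp ⟨12089855, 0, 0, 0, 0, 28908512, 0, 0, 0, ⟨0, 0⟩, 0⟩ 0 0) (.pos 51 .mp ⟨12034811, 0, 0, 0, 0, 0, 0, 0, 0, ⟨0, 0⟩, 0⟩ 0 0))) (.pos 52 .mp ⟨19411136, 0, 0, 0, 0, 21159231, 0, 0, 0, ⟨0, 0⟩, 0⟩ 0 0)) (.cut .v 16908288 (.cut .d (-65536) (.pos 51 .mp ⟨11823150, 0, 0, 0, 0, 30876490, 0, 0, 0, ⟨0, 0⟩, 0⟩ 0 0) (.cut .d (-32768) (.pos 51 .mp ⟨12486544, 0, 0, 0, 0, 29542898, 0, 0, 0, ⟨0, 0⟩, 0⟩ 0 0) (.pos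 51 .mp ⟨12411913, 0, 0, 0, 0, 0, 0, 0, 0, ⟨0, 0⟩, 0⟩ 0 0))) (.pos 52 .mp ⟨19949546, 0, 0, 0, 0, 21629992, 0, 0, 0, ⟨0, 0⟩, 0⟩ 0 0)))) (.pos 31 .mp ⟨12568037, 0, 0, 0, 0, 0, 0, 0, 0, ⟨0, 0⟩, 0⟩ 0 0))) (.cut .d (-131072) (.cut .s 8257536 (.pos 32 .mp ⟨20319726, 0, 0, 0, 0, 19530361, 0, 0, 0, ⟨0, 0⟩, 0⟩ 0 0) (.pos 32 .mp ⟨21235489, 0, 0, 0, 0, 20662806, 0, 0, 0, ⟨0, 0⟩, 0⟩ 0 0)) (.pos 32 .mp ⟨36171121, 0, 0, 0, 0, 0, 0, 0, 0, ⟨0, 0⟩, 0⟩ 0 0)))) (.cut .s 8454144 (.cut .v 17039360 (.cut .d (-131072) (.cut .l 850045 (.pos 31 .mp ⟨12744165, 0, 0, 0, 0, 35540854, 0, 0, 0, ⟨0, 0⟩, 0⟩ 0 0) (.cut .v 16908288 (.pos 51 .mp ⟨0, 0, 0, 0, 0, 46767179, 0, 0, 0, ⟨0, 0⟩, 0⟩ 0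 0) (.cut .s 8388608 (.cut .s 8355840 (.pos 52 .mp ⟨11292542, 0, 0, 0, 0, 33225366, 0, 0, 0, ⟨0, 0⟩, 0⟩ 0 0) (.pos 52 .mp ⟨11681585, 0, 0, 0, 0, 33967831, 0, 0, 0, ⟨0, 0⟩, 0⟩ 0 0)) (.cut .s 8421376 (.pos 52 .mp ⟨12077016, 0, 0, 0, 0, 34726429, 0, 0, 0, ⟨0, 0⟩, 0⟩ 0 0) (.pos 52 .mp ⟨12478897, 0, 0, 0, 0, 35501017, 0, 0, 0, ⟨0, 0⟩, 0⟩ 0 0))))) (.cut .l 850045 (.cut .s 8388608 (.cut .s 8355840 (.cut .v 16908288 (.cut .d (-65536) (.pos 51 .mp ⟨12189460, 0, 0, 0, 0, 31594520, 0, 0, 0, ⟨0, 0⟩, 0⟩ 0 0) (.cut .d (-32768) (.pos 51 .mp ⟨12879235, 0, 0, 0, 0, 30208833, 0, 0, 0, ⟨0, 0⟩, 0⟩ 0 0) (.pos 51 .mp ⟨12795005, 0, 0, 0, 0, 0, 0, 0, 0, ⟨0, 0⟩, 0⟩ 0 0))) (.pos 52 .mp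 ⟨20519242, 0, 0, 0, 0, 22087976, 0, 0, 0, ⟨0, 0⟩, 0⟩ 0 0)) (.cut .v 16908288 (.cut .d (-65536) (.pos 51 .mp ⟨12575151, 0, 0, 0, 0, 32312388, 0, 0, 0, ⟨0, 0⟩, 0⟩ 0 0) (.cut .d (-32768) (.pos 51 .mp ⟨13266642, 0, 0, 0, 0, 30908360, 0, 0, 0, ⟨0, 0⟩, 0⟩ 0 0) (.pos 51 .mp ⟨13184145, 0, 0, 0, 0, 0, 0, 0, 0, ⟨0, 0⟩, 0⟩ 0 0))) (.pos 52 .mp ⟨21123087, 0, 0, 0, 0, 22529716, 0, 0, 0, ⟨0, 0⟩, 0⟩ 0 0))) (.cut .v 16908288 (.cut .d (-65536) (.cut .s 8421376 (.pos 51 .mp ⟨12981557, 0, 0, 0, 0, 33028283, 0, 0, 0, ⟨0, 0⟩, 0⟩ 0 0) (.pos 51 .mp ⟨13410010, 0, 0, 0, 0, 33740375, 0, 0, 0, ⟨0, 0⟩, 0⟩ 0 0)) (.cut .d (-32768) (.cut .s 8421376 (.pos 51 .mp ⟨13647438, 0, 0, 0, 0, 31643606,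 0, 0, 0, ⟨0, 0⟩, 0⟩ 0 0) (.pos 51 .mp ⟨14020250, 0, 0, 0, 0, 32416776, 0, 0, 0, ⟨0, 0⟩, 0⟩ 0 0)) (.pos 51 .mp ⟨13836015, 0, 0, 0, 0, 0, 0, 0, 0, ⟨0, 0⟩, 0⟩ 0 0))) (.cut .s 8421376 (.pos 52 .mp ⟨21763962, 0, 0, 0, 0, 22951682, 0, 0, 0, ⟨0, 0⟩, 0⟩ 0 0) (.pos 52 .mp ⟨22444773, 0, 0, 0, 0, 23350284, 0, 0, 0, ⟨0, 0⟩, 0⟩ 0 0)))) (.pos 31 .mp ⟨14321477, 0, 0, 0, 0, 0, 0, 0, 0, ⟨0, 0⟩, 0⟩ 0 0))) (.cut .d (-131072) (.cut .s 8388608 (.pos 32 .mp ⟨22210242, 0, 0, 0, 0, 21823679, 0, 0, 0, ⟨0, 0⟩, 0⟩ 0 0) (.pos 32 .mp ⟨23334314, 0, 0, 0, 0, 22909152, 0, 0, 0, ⟨0, 0⟩, 0⟩ 0 0)) (.pos 32 .mp ⟨39736710, 0, 0, 0, 0, 0, 0, 0, 0, ⟨0, 0⟩, 0⟩ 0 0))) (.cut .v 17039360 (.cut .d (-131072)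 (.cut .l 850045 (.pos 31 .mp ⟨14448113, 0, 0, 0, 0, 38802738, 0, 0, 0, ⟨0, 0⟩, 0⟩ 0 0) (.cut .v 16908288 (.pos 51 .mp ⟨0, 0, 0, 0, 0, 51861200, 0, 0, 0, ⟨0, 0⟩, 0⟩ 0 0) (.cut .s 8519680 (.cut .s 8486912 (.pos 52 .mp ⟨12887292, 0, 0, 0, 0, 36291448, 0, 0, 0, ⟨0, 0⟩, 0⟩ 0 0) (.pos 52 .mp ⟨13302264, 0, 0, 0, 0, 37097572, 0, 0, 0, ⟨0, 0⟩, 0⟩ 0 0)) (.cut .s 8552448 (.pos 52 .mp ⟨13723879, 0, 0, 0, 0, 37919236, 0, 0, 0, ⟨0, 0⟩, 0⟩ 0 0) (.pos 52 .mp ⟨14152204, 0, 0, 0, 0, 38756283, 0, 0, 0, ⟨0, 0⟩, 0⟩ 0 0))))) (.cut .l 850045 (.cut .s 8519680 (.cut .v 16908288 (.cut .d (-65536) (.cut .s 8486912 (.pos 51 .mp ⟨13861841, 0, 0, 0, 0, 34446819, 0, 0, 0, ⟨0, 0⟩, 0⟩ 0 0)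 (.pos 51 .mp ⟨14338385, 0, 0, 0, 0, 35145753, 0, 0, 0, ⟨0, 0⟩, 0⟩ 0 0)) (.cut .d (-32768) (.cut .s 8486912 (.pos 51 .mp ⟨14383655, 0, 0, 0, 0, 33230162, 0, 0, 0, ⟨0, 0⟩, 0⟩ 0 0) (.pos 51 .mp ⟨14736187, 0, 0, 0, 0, 34086139, 0, 0, 0, ⟨0, 0⟩, 0⟩ 0 0)) (.pos 51 .mp ⟨14659399, 0, 0, 0, 0, 0, 0, 0, 0, ⟨0, 0⟩, 0⟩ 0 0))) (.pos 52 .mp ⟨27421719, 0, 0, 0, 0, 19452108, 0, 0, 0, ⟨0, 0⟩, 0⟩ 0 0)) (.cut .v 16908288 (.cut .l 548055 (.cut .d (-65536) (.pos 51 .mp ⟨14803230, 0, 0, 0, 0, 37123720, 0, 0, 0, ⟨0, 0⟩, 0⟩ 0 0) (.cut .d (-32768) (.cut .s 8552448 (.pos 51 .mp ⟨15076324, 0, 0, 0, 0, 34987176, 0, 0, 0, ⟨0, 0⟩, 0⟩ 0 0) (.pos 51 .mp ⟨15433654, 0, 0, 0, 0, 35878633, 0,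 0, 0, ⟨0, 0⟩, 0⟩ 0 0)) (.pos 51 .mp ⟨15507636, 0, 0, 0, 0, 0, 0, 0, 0, ⟨0, 0⟩, 0⟩ 0 0))) (.pos 51 .mp ⟨13439704, 0, 0, 0, 0, 36516247, 0, 0, 0, ⟨0, 0⟩, 0⟩ 0 0)) (.pos 52 .mp ⟨29233171, 0, 0, 0, 0, 19839866, 0, 0, 0, ⟨0, 0⟩, 0⟩ 0 0))) (.pos 31 .mp ⟨16193164, 0, 0, 0, 0, 0, 0, 0, 0, ⟨0, 0⟩, 0⟩ 0 0))) (.cut .s 8519680 (.cut .s 8486912 (.pos 32 .mp ⟨21657315, 0, 0, 0, 0, 26293567, 0, 0, 0, ⟨0, 0⟩, 0⟩ 0 0) (.pos 32 .mp ⟨22345855, 0, 0, 0, 0, 26755928, 0, 0, 0, ⟨0, 0⟩, 0⟩ 0 0)) (.pos 32 .mp ⟨28430406, 0, 0, 0, 0, 21828990, 0, 0, 0, ⟨0, 0⟩, 0⟩ 0 0))))) (.pos 30 .mp ⟨43010421, 0, 0, 0, 0, 0, 0, 0, 0, ⟨0, 0⟩, 0⟩ 0 0))) (.pos 28 .mp ⟨51774098, 0, 0, 0, 0, 0, 0, 0, 0,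 ⟨0, 0⟩, 0⟩ 0 0)) (.void 26 ⟨100000, 0, 0, 0, 0, 0, 0, 0, 0, ⟨0, 0⟩, 0⟩ 0 0)))))) (.void 24 ⟨100000, 0, 0, 0, 0, 0, 0, 0, 0, ⟨0, 0⟩, 0⟩ 0 0))) (.void 22 ⟨100000, 0, 0, 0, 0, 0, 0, 0, 0, ⟨0, 0⟩, 0⟩ 0 0)) (.void 61 ⟨100000, 0, 0, 0, 0, 0, 0, 0, 0, ⟨0, 0⟩, 0⟩ 0 0)) (.void 70 ⟨100000, 0, 0, 0, 0, 0, 0, 0, 0, ⟨0, 0⟩, 0⟩ 0 0))) (.cut .v 16777216 (.cut .v 8388608 (.cut .v 4194304 (.void 4 ⟨0, 0, 32105, 0, 0, 0, 0, 0, 67895, ⟨0, 0⟩, 3966728⟩ 0 0) (.pos 5 .pm ⟨0, 0, 0, 0, 0, 0, 0, 0, 523591, ⟨0, 0⟩, 9975792⟩ 0 0)) (.cut .d 9070610 (.pos 3 .pm ⟨0, 0, 0, 0, 0, 0, 0, 0, 0, ⟨0, 0⟩, 0⟩ 0 0) (.cut .d 13605915 (.pos 3 .pm ⟨0, 7601897, 0, 0, 0, 0, 0, 0, 6928700, ⟨0, 0⟩, 14107901⟩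 0 0) (.pos 3 .pm ⟨0, 39251348, 0, 0, 0, 0, 0, 0, 9954716, ⟨0, 0⟩, 14107901⟩ 0 0)))) (.cut .v 67108864 (.cut .d 9070610 (.cut .d 4535305 (.cut .v 33554432 (.cut .v 25165824 (.cut .v 20971520 (.pos 23 .pp ⟨17456289, 0, 0, 0, 0, 0, 0, 0, 0, ⟨0, 0⟩, 0⟩ 0 0) (.pos 24 .pp ⟨33514660, 0, 0, 0, 0, 0, 0, 0, 0, ⟨0, 0⟩, 0⟩ 0 0)) (.pos 22 .pp ⟨52844683, 0, 0, 0, 0, 0, 0, 0, 0, ⟨0, 0⟩, 0⟩ 0 0)) (.cut .d 2267652 (.pos 61 .pp ⟨319136827, 0, 0, 0, 0, 0, 0, 0, 0, ⟨0, 0⟩, 0⟩ 0 0) (.pos 61 .pp ⟨73943222, 0, 0, 0, 0, 0, 3946252, 0, 0, ⟨0, 0⟩, 0⟩ 0 0))) (.pos 60 .pp ⟨0, 0, 0, 0, 0, 0, 3255331, 0, 0, ⟨0, 0⟩, 0⟩ 0 0)) (.cut .d 13605915 (.pos 60 .pp ⟨0, 23051844, 0, 0, 0, 0, 0, 21385739,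 0, ⟨5327353, 12958⟩, 0⟩ 189 283) (.pos 60 .pp ⟨0, 74948606, 0, 0, 0, 0, 0, 0, 2917841, ⟨0, 0⟩, 23726566⟩ 0 0))) (.cut .d 9070610 (.pos 70 .pp ⟨330490732, 0, 0, 0, 0, 0, 1629573666, 0, 0, ⟨0, 0⟩, 0⟩ 0 0) (.void 70 ⟨0, 100000, 0, 0, 0, 0, 0, 0, 0, ⟨0, 0⟩, 0⟩ 0 0))))),
    by decide +kernel⟩

def covers10 : cell.Covers table row10.1 :=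
  ⟨(.cut .d 0 (.cut .v 16777216 (.cut .d (-8388608) (.void 1 ⟨0, 0, 0, 0, 0, 100000, 0, 0, 0, ⟨0, 0⟩, 0⟩ 0 0) (.cut .d (-4194304) (.void 1 ⟨0, 0, 0, 0, 0, 100000, 0, 0, 0, ⟨0, 0⟩, 0⟩ 0 0) (.cut .d (-2097152) (.void 1 ⟨0, 0, 0, 0, 0, 100000, 0, 0, 0, ⟨0, 0⟩, 0⟩ 0 0) (.cut .d (-1048576) (.void 1 ⟨0, 0, 0, 0, 0, 100000, 0, 0, 0, ⟨0, 0⟩, 0⟩ 0 0) (.cut .d (-524288) (.void 1 ⟨0, 0, 0, 0, 0, 100000, 0, 0, 0, ⟨0, 0⟩, 0⟩ 0 0) (.cut .d (-262144) (.void 1 ⟨0, 0, 0, 0, 0, 100000, 0, 0, 0, ⟨0, 0⟩, 0⟩ 0 0) (.cut .v 8388608 (.cut .v 4194304 (.void 4 ⟨0, 0, 100000, 0, 0, 0, 0, 0, 0, ⟨0, 0⟩, 0⟩ 0 0) (.pos 5 .mm ⟨0, 0, 0, 0, 0, 28712028, 0, 0, 0, ⟨0, 0⟩, 0⟩ 0 0)) (.cut .v 12582912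 (.pos 8 .mm ⟨0, 0, 0, 0, 0, 37764108, 0, 0, 0, ⟨0, 0⟩, 0⟩ 0 0) (.cut .v 14680064 (.pos 12 .mm ⟨0, 0, 0, 0, 0, 50271588, 0, 0, 0, ⟨0, 0⟩, 0⟩ 0 0) (.cut .v 15728640 (.pos 14 .mm ⟨0, 0, 0, 0, 0, 56814548, 0, 0, 0, ⟨0, 0⟩, 0⟩ 0 0) (.cut .v 16252928 (.pos 16 .mm ⟨0, 0, 0, 0, 0, 60413298, 0, 0, 0, ⟨0, 0⟩, 0⟩ 0 0) (.cut .s 8814592 (.cut .s 8699904 (.pos 17 .mm ⟨0, 0, 0, 0, 0, 55747533, 0, 0, 0, ⟨0, 0⟩, 0⟩ 0 0) (.pos 17 .mm ⟨0, 0, 0, 0, 0, 60716804, 0, 0, 0, ⟨0, 0⟩, 0⟩ 0 0)) (.cut .s 8929280 (.pos 17 .mm ⟨0, 0, 0, 0, 0, 66031790, 0, 0, 0, ⟨0, 0⟩, 0⟩ 0 0) (.pos 17 .mm ⟨0, 0, 0, 0, 0, 71679408, 0, 0, 0, ⟨0, 0⟩, 0⟩ 0 0)))))))))))))) (.cut .v 67108864 (.cut .v 33554432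 (.cut .v 25165824 (.cut .d (-8388608) (.void 21 ⟨0, 0, 0, 0, 0, 100000, 0, 0, 0, ⟨0, 0⟩, 0⟩ 0 0) (.cut .v 20971520 (.cut .d (-4194304) (.void 23 ⟨0, 0, 0, 0, 0, 100000, 0, 0, 0, ⟨0, 0⟩, 0⟩ 0 0) (.cut .d (-2097152) (.void 23 ⟨0, 0, 0, 0, 0, 100000, 0, 0, 0, ⟨0, 0⟩, 0⟩ 0 0) (.cut .d (-1048576) (.void 23 ⟨0, 0, 0, 0, 0, 100000, 0, 0, 0, ⟨0, 0⟩, 0⟩ 0 0) (.cut .d (-524288) (.void 23 ⟨0, 0, 0, 0, 0, 100000, 0, 0, 0, ⟨0, 0⟩, 0⟩ 0 0) (.cut .d (-262144) (.void 23 ⟨0, 0, 0, 0, 0, 100000, 0, 0, 0, ⟨0, 0⟩, 0⟩ 0 0) (.cut .v 18874368 (.cut .v 17825792 (.cut .v 17301504 (.cut .s 8814592 (.cut .s 8699904 (.cut .d (-131072) (.cut .l 850045 (.pos 29 .mp ⟨17421536, 0, 0, 0, 0,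 41758246, 0, 0, 0, ⟨0, 0⟩, 0⟩ 0 0) (.cut .d (-196608) (.cut .s 8642560 (.pos 29 .mp ⟨16025717, 0, 0, 0, 0, 40722855, 0, 0, 0, ⟨0, 0⟩, 0⟩ 0 0) (.pos 29 .mp ⟨17182579, 0, 0, 0, 0, 41716820, 0, 0, 0, ⟨0, 0⟩, 0⟩ 0 0)) (.cut .v 17039360 (.cut .s 8642560 (.pos 31 .mp ⟨14560631, 0, 0, 0, 0, 39966887, 0, 0, 0, ⟨0, 0⟩, 0⟩ 0 0) (.pos 31 .mp ⟨15342393, 0, 0, 0, 0, 41394091, 0, 0, 0, ⟨0, 0⟩, 0⟩ 0 0)) (.pos 32 .mp ⟨48409459, 0, 0, 0, 0, 0, 0, 0, 0, ⟨0, 0⟩, 0⟩ 0 0)))) (.cut .v 17039360 (.cut .l 850045 (.cut .s 8642560 (.cut .v 16908288 (.cut .d (-65536) (.pos 51 .mp ⟨14870332, 0, 0, 0, 0, 39215766, 0, 0, 0, ⟨0, 0⟩, 0⟩ 0 0) (.cut .d (-32768) (.cut .s 8613888 (.pos 51 .mp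 ⟨15886227, 0, 0, 0, 0, 36677808, 0, 0, 0, ⟨0, 0⟩, 0⟩ 0 0) (.pos 51 .mp ⟨16326108, 0, 0, 0, 0, 37276131, 0, 0, 0, ⟨0, 0⟩, 0⟩ 0 0)) (.pos 51 .mp ⟨16547852, 0, 0, 0, 0, 0, 0, 0, 0, ⟨0, 0⟩, 0⟩ 0 0))) (.pos 52 .mp ⟨30699092, 0, 0, 0, 0, 20630524, 0, 0, 0, ⟨0, 0⟩, 0⟩ 0 0)) (.cut .v 16908288 (.cut .d (-65536) (.cut .s 8671232 (.pos 51 .mp ⟨16792122, 0, 0, 0, 0, 38373559, 0, 0, 0, ⟨0, 0⟩, 0⟩ 0 0) (.pos 51 .mp ⟨17071689, 0, 0, 0, 0, 39234187, 0, 0, 0, ⟨0, 0⟩, 0⟩ 0 0)) (.cut .d (-32768) (.cut .s 8671232 (.pos 51 .mp ⟨16835183, 0, 0, 0, 0, 37771663, 0, 0, 0, ⟨0, 0⟩, 0⟩ 0 0) (.pos 51 .mp ⟨17341944, 0, 0, 0, 0, 38295388, 0, 0, 0, ⟨0, 0⟩, 0⟩ 0 0)) (.pos 51 .mp ⟨17333392,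 0, 0, 0, 0, 0, 0, 0, 0, ⟨0, 0⟩, 0⟩ 0 0))) (.pos 52 .mp ⟨31659279, 0, 0, 0, 0, 21720947, 0, 0, 0, ⟨0, 0⟩, 0⟩ 0 0))) (.pos 31 .mp ⟨17955579, 0, 0, 0, 0, 0, 0, 0, 0, ⟨0, 0⟩, 0⟩ 0 0)) (.pos 32 .mp ⟨47672429, 0, 0, 0, 0, 0, 0, 0, 0, ⟨0, 0⟩, 0⟩ 0 0))) (.cut .d (-131072) (.cut .l 850045 (.pos 29 .mp ⟨19302787, 0, 0, 0, 0, 44886623, 0, 0, 0, ⟨0, 0⟩, 0⟩ 0 0) (.cut .d (-196608) (.cut .d (-229376) (.pos 29 .mp ⟨18722088, 0, 0, 0, 0, 61264898, 0, 0, 0, ⟨0, 0⟩, 0⟩ 0 0) (.cut .s 8757248 (.pos 29 .mp ⟨18072515, 0, 0, 0, 0, 43043979, 0, 0, 0, ⟨0, 0⟩, 0⟩ 0 0) (.cut .s 8785920 (.pos 29 .mp ⟨19069123, 0, 0, 0, 0, 43191719, 0, 0, 0, ⟨0, 0⟩, 0⟩ 0 0) (.pos 29 .mp ⟨19582241, 0, 0,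 0, 0, 43885976, 0, 0, 0, ⟨0, 0⟩, 0⟩ 0 0)))) (.cut .v 17039360 (.cut .l 1152035 (.cut .s 8757248 (.pos 31 .mp ⟨17061262, 0, 0, 0, 0, 42212251, 0, 0, 0, ⟨0, 0⟩, 0⟩ 0 0) (.pos 31 .mp ⟨17919971, 0, 0, 0, 0, 43775090, 0, 0, 0, ⟨0, 0⟩, 0⟩ 0 0)) (.pos 31 .mp ⟨16145223, 0, 0, 0, 0, 42826787, 0, 0, 0, ⟨0, 0⟩, 0⟩ 0 0)) (.pos 32 .mp ⟨52104060, 0, 0, 0, 0, 0, 0, 0, 0, ⟨0, 0⟩, 0⟩ 0 0)))) (.cut .l 850045 (.cut .v 17039360 (.cut .d (-65536) (.cut .s 8757248 (.cut .v 16908288 (.cut .s 8728576 (.pos 51 .mp ⟨17367066, 0, 0, 0, 0, 40099050, 0, 0, 0, ⟨0, 0⟩, 0⟩ 0 0) (.pos 51 .mp ⟨17679407, 0, 0, 0, 0, 40966566, 0, 0, 0, ⟨0, 0⟩, 0⟩ 0 0)) (.pos 52 .mp ⟨31449651, 0, 0, 0, 0, 24410040,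 0, 0, 0, ⟨0, 0⟩, 0⟩ 0 0)) (.cut .v 16908288 (.cut .s 8785920 (.pos 51 .mp ⟨18009867, 0, 0, 0, 0, 41835141, 0, 0, 0, ⟨0, 0⟩, 0⟩ 0 0) (.pos 51 .mp ⟨18359604, 0, 0, 0, 0, 42703168, 0, 0, 0, ⟨0, 0⟩, 0⟩ 0 0)) (.pos 52 .mp ⟨32565363, 0, 0, 0, 0, 25517497, 0, 0, 0, ⟨0, 0⟩, 0⟩ 0 0))) (.cut .d (-32768) (.cut .v 16908288 (.cut .l 548055 (.cut .l 397060 (.cut .s 8757248 (.cut .s 8728576 (.pos 51 .mp ⟨17278294, 0, 0, 0, 0, 39755186, 0, 0, 0, ⟨0, 0⟩, 0⟩ 0 0) (.pos 51 .mp ⟨17641879, 0, 0, 0, 0, 40557989, 0, 0, 0, ⟨0, 0⟩, 0⟩ 0 0)) (.cut .s 8785920 (.pos 51 .mp ⟨18015641, 0, 0, 0, 0, 41369488, 0, 0, 0, ⟨0, 0⟩, 0⟩ 0 0) (.pos 51 .mp ⟨18400040, 0, 0, 0, 0, 42188885, 0, 0, 0,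 ⟨0, 0⟩, 0⟩ 0 0))) (.pos 51 .mp ⟨19379948, 0, 0, 0, 0, 36039358, 0, 0, 0, ⟨0, 0⟩, 0⟩ 0 0)) (.pos 51 .mp ⟨0, 0, 0, 0, 0, 0, 0, 0, 0, ⟨0, 0⟩, 0⟩ 0 0)) (.pos 52 .mp ⟨50086432, 0, 0, 0, 0, 0, 0, 0, 0, ⟨0, 0⟩, 0⟩ 0 0)) (.pos 31 .mp ⟨19081082, 0, 0, 0, 0, 0, 0, 0, 0, ⟨0, 0⟩, 0⟩ 0 0))) (.pos 32 .mp ⟨55744028, 0, 0, 0, 0, 0, 0, 0, 0, ⟨0, 0⟩, 0⟩ 0 0)) (.pos 29 .mp ⟨19960095, 0, 0, 0, 0, 28279980, 0, 0, 0, ⟨0, 0⟩, 0⟩ 0 0)))) (.cut .d (-131072) (.cut .l 850045 (.void 29 ⟨0, 0, 0, 0, 0, 100000, 0, 0, 0, ⟨0, 0⟩, 0⟩ 0 0) (.cut .d (-196608) (.cut .d (-229376) (.void 29 ⟨0, 0, 0, 0, 0, 100000, 0, 0, 0, ⟨0, 0⟩, 0⟩ 0 0) (.cut .l 1152035 (.void 29 ⟨0, 0, 0, 0, 0, 100000, 0, 0,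 0, ⟨0, 0⟩, 0⟩ 0 0) (.cut .l 1303030 (.pos 29 .mp ⟨20352517, 0, 0, 0, 0, 65669124, 0, 0, 0, ⟨0, 0⟩, 0⟩ 0 0) (.cut .s 8929280 (.cut .v 17039360 (.pos 31 .mp ⟨0, 0, 0, 0, 0, 68698095, 0, 0, 0, ⟨0, 0⟩, 0⟩ 0 0) (.pos 32 .mp ⟨23777102, 0, 0, 0, 0, 41386039, 0, 0, 0, ⟨0, 0⟩, 0⟩ 0 0)) (.cut .s 8986624 (.pos 29 .mp ⟨21909076, 0, 0, 0, 0, 50001377, 0, 0, 0, ⟨0, 0⟩, 0⟩ 0 0) (.pos 29 .mp ⟨22971344, 0, 0, 0, 0, 51769112, 0, 0, 0, ⟨0, 0⟩, 0⟩ 0 0)))))) (.cut .v 17039360 (.cut .v 16908288 (.pos 51 .mp ⟨0, 0, 0, 0, 0, 70140858, 0, 0, 0, ⟨0, 0⟩, 0⟩ 0 0) (.cut .s 8929280 (.cut .s 8871936 (.cut .s 8843264 (.pos 52 .mp ⟨17914554, 0, 0, 0, 0, 45367611, 0, 0, 0, ⟨0, 0⟩, 0⟩ 0 0) (.pos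 52 .mp ⟨18350425, 0, 0, 0, 0, 46196119, 0, 0, 0, ⟨0, 0⟩, 0⟩ 0 0)) (.cut .s 8900608 (.pos 52 .mp ⟨18795801, 0, 0, 0, 0, 47037363, 0, 0, 0, ⟨0, 0⟩, 0⟩ 0 0) (.pos 52 .mp ⟨19246944, 0, 0, 0, 0, 47896424, 0, 0, 0, ⟨0, 0⟩, 0⟩ 0 0))) (.cut .s 8986624 (.cut .s 8957952 (.pos 52 .mp ⟨19703908, 0, 0, 0, 0, 48773276, 0, 0, 0, ⟨0, 0⟩, 0⟩ 0 0) (.pos 52 .mp ⟨20166750, 0, 0, 0, 0, 49667886, 0, 0, 0, ⟨0, 0⟩, 0⟩ 0 0)) (.cut .s 9015296 (.pos 52 .mp ⟨20635525, 0, 0, 0, 0, 50580225, 0, 0, 0, ⟨0, 0⟩, 0⟩ 0 0) (.pos 52 .mp ⟨21110291, 0, 0, 0, 0, 51510256, 0, 0, 0, ⟨0, 0⟩, 0⟩ 0 0))))) (.cut .s 8929280 (.pos 32 .mp ⟨56085769, 0, 0, 0, 0, 0, 0, 0, 0, ⟨0, 0⟩, 0⟩ 0 0) (.pos 32 .mp ⟨60363598,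 0, 0, 0, 0, 0, 0, 0, 0, ⟨0, 0⟩, 0⟩ 0 0))))) (.cut .v 17039360 (.cut .l 850045 (.cut .s 8929280 (.cut .d (-65536) (.cut .s 8871936 (.cut .v 16908288 (.cut .s 8843264 (.pos 51 .mp ⟨17922614, 0, 0, 0, 0, 44831840, 0, 0, 0, ⟨0, 0⟩, 0⟩ 0 0) (.pos 51 .mp ⟨18326194, 0, 0, 0, 0, 45678410, 0, 0, 0, ⟨0, 0⟩, 0⟩ 0 0)) (.pos 52 .mp ⟨33788707, 0, 0, 0, 0, 26590082, 0, 0, 0, ⟨0, 0⟩, 0⟩ 0 0)) (.cut .v 16908288 (.cut .s 8900608 (.pos 51 .mp ⟨18734890, 0, 0, 0, 0, 46547161, 0, 0, 0, ⟨0, 0⟩, 0⟩ 0 0) (.pos 51 .mp ⟨19151567, 0, 0, 0, 0, 47433941, 0, 0, 0, ⟨0, 0⟩, 0⟩ 0 0)) (.pos 52 .mp ⟨35144756, 0, 0, 0, 0, 27596719, 0, 0, 0, ⟨0, 0⟩, 0⟩ 0 0))) (.cut .d (-32768) (.cut .v 16908288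 (.cut .l 548055 (.cut .l 397060 (.cut .s 8871936 (.cut .s 8843264 (.pos 51 .mp ⟨18795530, 0, 0, 0, 0, 43015382, 0, 0, 0, ⟨0, 0⟩, 0⟩ 0 0) (.pos 51 .mp ⟨19202568, 0, 0, 0, 0, 43848178, 0, 0, 0, ⟨0, 0⟩, 0⟩ 0 0)) (.cut .s 8900608 (.pos 51 .mp ⟨19621609, 0, 0, 0, 0, 44686470, 0, 0, 0, ⟨0, 0⟩, 0⟩ 0 0) (.pos 51 .mp ⟨20053108, 0, 0, 0, 0, 45529449, 0, 0, 0, ⟨0, 0⟩, 0⟩ 0 0))) (.pos 51 .mp ⟨21174165, 0, 0, 0, 0, 38905600, 0, 0, 0, ⟨0, 0⟩, 0⟩ 0 0)) (.pos 51 .mp ⟨0, 0, 0, 0, 0, 0, 0, 0, 0, ⟨0, 0⟩, 0⟩ 0 0)) (.pos 52 .mp ⟨53878413, 0, 0, 0, 0, 0, 0, 0, 0, ⟨0, 0⟩, 0⟩ 0 0)) (.pos 31 .mp ⟨20791154, 0, 0, 0, 0, 0, 0, 0, 0, ⟨0, 0⟩, 0⟩ 0 0))) (.cut .d (-65536) (.cut .s 8986624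 (.cut .v 16908288 (.cut .s 8957952 (.pos 51 .mp ⟨19577038, 0, 0, 0, 0, 48337806, 0, 0, 0, ⟨0, 0⟩, 0⟩ 0 0) (.pos 51 .mp ⟨20007845, 0, 0, 0, 0, 49264568, 0, 0, 0, ⟨0, 0⟩, 0⟩ 0 0)) (.pos 52 .mp ⟨36703863, 0, 0, 0, 0, 28451386, 0, 0, 0, ⟨0, 0⟩, 0⟩ 0 0)) (.cut .v 16908288 (.cut .s 9015296 (.pos 51 .mp ⟨20444039, 0, 0, 0, 0, 50214524, 0, 0, 0, ⟨0, 0⟩, 0⟩ 0 0) (.pos 51 .mp ⟨20885672, 0, 0, 0, 0, 51187978, 0, 0, 0, ⟨0, 0⟩, 0⟩ 0 0)) (.pos 52 .mp ⟨38487906, 0, 0, 0, 0, 29124961, 0, 0, 0, ⟨0, 0⟩, 0⟩ 0 0))) (.cut .d (-32768) (.cut .l 548055 (.cut .v 16908288 (.cut .l 397060 (.cut .s 8986624 (.cut .s 8957952 (.pos 51 .mp ⟨20497518, 0, 0, 0, 0, 46376304, 0, 0, 0, ⟨0, 0⟩,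 0⟩ 0 0) (.pos 51 .mp ⟨20955296, 0, 0, 0, 0, 47226222, 0, 0, 0, ⟨0, 0⟩, 0⟩ 0 0)) (.cut .s 9015296 (.pos 51 .mp ⟨21426894, 0, 0, 0, 0, 48078385, 0, 0, 0, ⟨0, 0⟩, 0⟩ 0 0) (.pos 51 .mp ⟨21912768, 0, 0, 0, 0, 48931970, 0, 0, 0, ⟨0, 0⟩, 0⟩ 0 0))) (.pos 51 .mp ⟨23052928, 0, 0, 0, 0, 41958749, 0, 0, 0, ⟨0, 0⟩, 0⟩ 0 0)) (.pos 52 .mp ⟨59519481, 0, 0, 0, 0, 0, 0, 0, 0, ⟨0, 0⟩, 0⟩ 0 0)) (.pos 31 .mp ⟨22293872, 0, 0, 0, 0, 0, 0, 0, 0, ⟨0, 0⟩, 0⟩ 0 0)) (.pos 31 .mp ⟨22632324, 0, 0, 0, 0, 0, 0, 0, 0, ⟨0, 0⟩, 0⟩ 0 0)))) (.cut .s 8929280 (.pos 31 .mp ⟨21146257, 0, 0, 0, 0, 38752243, 0, 0, 0, ⟨0, 0⟩, 0⟩ 0 0) (.pos 31 .mp ⟨23177910, 0, 0, 0, 0, 41607832, 0, 0, 0, ⟨0, 0⟩, 0⟩ 0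 0))) (.pos 32 .mp ⟨57592615, 0, 0, 0, 0, 0, 0, 0, 0, ⟨0, 0⟩, 0⟩ 0 0)))) (.pos 30 .mp ⟨60043566, 0, 0, 0, 0, 0, 0, 0, 0, ⟨0, 0⟩, 0⟩ 0 0)) (.pos 28 .mp ⟨64390754, 0, 0, 0, 0, 0, 0, 0, 0, ⟨0, 0⟩, 0⟩ 0 0)) (.void 26 ⟨100000, 0, 0, 0, 0, 0, 0, 0, 0, ⟨0, 0⟩, 0⟩ 0 0))))))) (.void 24 ⟨100000, 0, 0, 0, 0, 0, 0, 0, 0, ⟨0, 0⟩, 0⟩ 0 0))) (.void 22 ⟨100000, 0, 0, 0, 0, 0, 0, 0, 0, ⟨0, 0⟩, 0⟩ 0 0)) (.void 61 ⟨100000, 0, 0, 0, 0, 0, 0, 0, 0, ⟨0, 0⟩, 0⟩ 0 0)) (.void 70 ⟨100000, 0, 0, 0, 0, 0, 0, 0, 0, ⟨0, 0⟩, 0⟩ 0 0))) (.cut .v 16777216 (.cut .v 8388608 (.cut .v 4194304 (.void 4 ⟨0, 0, 32105, 0, 0, 0, 0, 0, 67895, ⟨0, 0⟩, 3966728⟩ 0 0) (.pos 5 .pm ⟨0, 0, 0, 0, 0, 0, 0, 0,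 3865916, ⟨0, 0⟩, 9975792⟩ 0 0)) (.cut .d 8004398 (.pos 3 .pm ⟨0, 0, 0, 0, 0, 0, 0, 0, 0, ⟨0, 0⟩, 0⟩ 0 0) (.cut .d 12006597 (.pos 3 .pm ⟨0, 0, 0, 0, 0, 0, 0, 2288245, 4578870, ⟨5331301, 8721⟩, 14107901⟩ 195 282) (.pos 3 .pm ⟨0, 51663382, 0, 0, 0, 0, 0, 0, 9175734, ⟨0, 0⟩, 14107901⟩ 0 0)))) (.cut .v 67108864 (.cut .d 8004398 (.cut .d 4002199 (.cut .v 33554432 (.cut .v 25165824 (.cut .v 20971520 (.pos 23 .pp ⟨26394659, 0, 0, 0, 0, 0, 0, 0, 0, ⟨0, 0⟩, 0⟩ 0 0) (.pos 24 .pp ⟨49289549, 0, 0, 0, 0, 0, 0, 0, 0, ⟨0, 0⟩, 0⟩ 0 0)) (.pos 22 .pp ⟨79366105, 0, 0, 0, 0, 0, 0, 0, 0, ⟨0, 0⟩, 0⟩ 0 0)) (.cut .d 2001099 (.pos 61 .pp ⟨440530544, 0, 0, 0, 0, 0, 0, 0, 0, ⟨0, 0⟩, 0⟩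 0 0) (.pos 61 .pp ⟨126014694, 0, 0, 0, 0, 0, 3366077, 0, 0, ⟨0, 0⟩, 0⟩ 0 0))) (.pos 60 .pp ⟨0, 0, 0, 0, 0, 0, 3401878, 0, 0, ⟨0, 0⟩, 0⟩ 0 0)) (.cut .d 12006597 (.pos 60 .pp ⟨0, 0, 0, 0, 0, 0, 0, 18727595, 0, ⟨5331301, 8721⟩, 0⟩ 195 282) (.pos 60 .pp ⟨0, 58174066, 0, 0, 0, 0, 0, 0, 0, ⟨0, 0⟩, 0⟩ 0 0))) (.cut .v 134217728 (.cut .d 8004398 (.cut .d 4002199 (.cut .v 100663296 (.pos 75 .pp ⟨1089037847, 0, 0, 0, 0, 0, 0, 0, 0, ⟨0, 0⟩, 0⟩ 0 0) (.void 76 ⟨45316, 54684, 0, 0, 0, 0, 0, 0, 0, ⟨0, 0⟩, 0⟩ 0 0)) (.pos 73 .pp ⟨0, 27172408, 0, 0, 0, 0, 153302037, 0, 0, ⟨0, 0⟩, 0⟩ 0 0)) (.void 73 ⟨0, 100000, 0, 0, 0, 0, 0, 0, 0, ⟨0, 0⟩, 0⟩ 0 0)) (.void 74 ⟨0, 0, 0, 0, 0, 0,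 100000, 0, 0, ⟨0, 0⟩, 0⟩ 0 0))))),
    by decide +kernel⟩

def covers11 : cell.Covers table row11.1 :=
  ⟨(.cut .d 0 (.cut .v 16777216 (.cut .d (-8388608) (.void 1 ⟨0, 0, 0, 0, 0, 100000, 0, 0, 0, ⟨0, 0⟩, 0⟩ 0 0) (.cut .d (-4194304) (.void 1 ⟨0, 0, 0, 0, 0, 100000, 0, 0, 0, ⟨0, 0⟩, 0⟩ 0 0) (.cut .d (-2097152) (.void 1 ⟨0, 0, 0, 0, 0, 100000, 0, 0, 0, ⟨0, 0⟩, 0⟩ 0 0) (.cut .d (-1048576) (.void 1 ⟨0, 0, 0, 0, 0, 100000, 0, 0, 0, ⟨0, 0⟩, 0⟩ 0 0) (.cut .d (-524288) (.void 1 ⟨0, 0, 0, 0, 0, 100000, 0, 0, 0, ⟨0, 0⟩, 0⟩ 0 0) (.cut .d (-262144) (.void 1 ⟨0, 0, 0, 0, 0, 100000, 0, 0, 0, ⟨0, 0⟩, 0⟩ 0 0) (.cut .v 8388608 (.cut .v 4194304 (.void 4 ⟨0, 0, 100000, 0, 0,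 0, 0, 0, 0, ⟨0, 0⟩, 0⟩ 0 0) (.pos 5 .mm ⟨0, 0, 0, 0, 0, 39702942, 0, 0, 0, ⟨0, 0⟩, 0⟩ 0 0)) (.cut .v 12582912 (.pos 8 .mm ⟨0, 0, 0, 0, 0, 55709325, 0, 0, 0, ⟨0, 0⟩, 0⟩ 0 0) (.cut .v 14680064 (.pos 12 .mm ⟨0, 0, 0, 0, 0, 72208604, 0, 0, 0, ⟨0, 0⟩, 0⟩ 0 0) (.cut .v 15728640 (.pos 14 .mm ⟨0, 0, 0, 0, 0, 81450374, 0, 0, 0, ⟨0, 0⟩, 0⟩ 0 0) (.cut .v 16252928 (.pos 16 .mm ⟨0, 0, 0, 0, 0, 86493937, 0, 0, 0, ⟨0, 0⟩, 0⟩ 0 0) (.cut .s 9306112 (.cut .d (-131072) (.pos 17 .mm ⟨0, 0, 0, 0, 0, 87297291, 0, 0, 0, ⟨0, 0⟩, 0⟩ 0 0) (.cut .s 9175040 (.pos 17 .mm ⟨0, 0, 0, 0, 0, 76909683, 0, 0, 0, ⟨0, 0⟩, 0⟩ 0 0) (.pos 17 .mm ⟨0, 0, 0, 0, 0, 84239267, 0, 0, 0, ⟨0, 0⟩, 0⟩ 0 0)))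 (.cut .d (-131072) (.pos 17 .mm ⟨0, 0, 0, 0, 0, 104458868, 0, 0, 0, ⟨0, 0⟩, 0⟩ 0 0) (.cut .s 9437184 (.pos 17 .mm ⟨0, 0, 0, 0, 0, 92131552, 0, 0, 0, ⟨0, 0⟩, 0⟩ 0 0) (.pos 17 .mm ⟨0, 0, 0, 0, 0, 100563653, 0, 0, 0, ⟨0, 0⟩, 0⟩ 0 0))))))))))))))) (.cut .v 67108864 (.cut .v 33554432 (.cut .v 25165824 (.cut .d (-8388608) (.void 21 ⟨0, 0, 0, 0, 0, 100000, 0, 0, 0, ⟨0, 0⟩, 0⟩ 0 0) (.cut .v 20971520 (.cut .d (-4194304) (.void 23 ⟨0, 0, 0, 0, 0, 100000, 0, 0, 0, ⟨0, 0⟩, 0⟩ 0 0) (.cut .v 18874368 (.cut .d (-2097152) (.void 25 ⟨0, 0, 0, 0, 0, 100000, 0, 0, 0, ⟨0, 0⟩, 0⟩ 0 0) (.cut .d (-1048576) (.void 25 ⟨0, 0, 0, 0, 0, 100000, 0, 0, 0, ⟨0, 0⟩, 0⟩ 0 0) (.cut .d (-524288)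 (.void 25 ⟨0, 0, 0, 0, 0, 100000, 0, 0, 0, ⟨0, 0⟩, 0⟩ 0 0) (.cut .d (-262144) (.void 25 ⟨0, 0, 0, 0, 0, 100000, 0, 0, 0, ⟨0, 0⟩, 0⟩ 0 0) (.cut .v 17825792 (.cut .v 17301504 (.cut .s 9306112 (.cut .d (-131072) (.cut .l 850045 (.void 29 ⟨0, 0, 0, 0, 0, 100000, 0, 0, 0, ⟨0, 0⟩, 0⟩ 0 0) (.cut .d (-196608) (.cut .d (-229376) (.void 29 ⟨0, 0, 0, 0, 0, 100000, 0, 0, 0, ⟨0, 0⟩, 0⟩ 0 0) (.cut .d (-212992) (.void 29 ⟨0, 0, 0, 0, 0, 100000, 0, 0, 0, ⟨0, 0⟩, 0⟩ 0 0) (.cut .d (-204800) (.pos 29 .mp ⟨24357234, 0, 0, 0, 0, 80224421, 0, 0, 0, ⟨0, 0⟩, 0⟩ 0 0) (.cut .l 1152035 (.void 29 ⟨0, 0, 0, 0, 0, 100000, 0, 0, 0, ⟨0, 0⟩, 0⟩ 0 0) (.cut .l 1303030 (.void 29 ⟨0, 0, 0, 0,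 0, 100000, 0, 0, 0, ⟨0, 0⟩, 0⟩ 0 0) (.cut .v 17039360 (.pos 31 .mp ⟨0, 0, 0, 0, 0, 90631649, 0, 0, 0, ⟨0, 0⟩, 0⟩ 0 0) (.cut .s 9175040 (.pos 32 .mp ⟨28104528, 0, 0, 0, 0, 49829978, 0, 0, 0, ⟨0, 0⟩, 0⟩ 0 0) (.pos 32 .mp ⟨31106590, 0, 0, 0, 0, 53810331, 0, 0, 0, ⟨0, 0⟩, 0⟩ 0 0)))))))) (.cut .v 17039360 (.cut .s 9175040 (.cut .v 16908288 (.pos 51 .mp ⟨0, 0, 0, 0, 0, 80709010, 0, 0, 0, ⟨0, 0⟩, 0⟩ 0 0) (.cut .s 9109504 (.cut .s 9076736 (.pos 52 .mp ⟨21594009, 0, 0, 0, 0, 52685964, 0, 0, 0, ⟨0, 0⟩, 0⟩ 0 0) (.pos 52 .mp ⟨22161956, 0, 0, 0, 0, 53694979, 0, 0, 0, ⟨0, 0⟩, 0⟩ 0 0)) (.cut .s 9142272 (.pos 52 .mp ⟨22737756, 0, 0, 0, 0, 54735876, 0, 0, 0, ⟨0, 0⟩, 0⟩ 0 0)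 (.pos 52 .mp ⟨23321499, 0, 0, 0, 0, 55808642, 0, 0, 0, ⟨0, 0⟩, 0⟩ 0 0)))) (.cut .v 16908288 (.pos 51 .mp ⟨0, 0, 0, 0, 0, 88289821, 0, 0, 0, ⟨0, 0⟩, 0⟩ 0 0) (.cut .s 9240576 (.cut .s 9207808 (.pos 52 .mp ⟨23913276, 0, 0, 0, 0, 56913256, 0, 0, 0, ⟨0, 0⟩, 0⟩ 0 0) (.pos 52 .mp ⟨24513180, 0, 0, 0, 0, 58049696, 0, 0, 0, ⟨0, 0⟩, 0⟩ 0 0)) (.cut .s 9273344 (.pos 52 .mp ⟨25121306, 0, 0, 0, 0, 59217933, 0, 0, 0, ⟨0, 0⟩, 0⟩ 0 0) (.pos 52 .mp ⟨25737751, 0, 0, 0, 0, 60417932, 0, 0, 0, ⟨0, 0⟩, 0⟩ 0 0))))) (.cut .s 9175040 (.pos 32 .mp ⟨55229339, 0, 0, 0, 0, 14402488, 0, 0, 0, ⟨0, 0⟩, 0⟩ 0 0) (.pos 32 .mp ⟨54676456, 0, 0, 0, 0, 22521490, 0, 0, 0, ⟨0, 0⟩, 0⟩ 0 0))))) (.cut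 .v 17039360 (.cut .l 850045 (.cut .s 9175040 (.cut .d (-65536) (.cut .s 9109504 (.cut .v 16908288 (.cut .s 9076736 (.pos 51 .mp ⟨21334939, 0, 0, 0, 0, 52308577, 0, 0, 0, ⟨0, 0⟩, 0⟩ 0 0) (.pos 51 .mp ⟨21859085, 0, 0, 0, 0, 53310879, 0, 0, 0, ⟨0, 0⟩, 0⟩ 0 0)) (.pos 52 .mp ⟨38472149, 0, 0, 0, 0, 32404693, 0, 0, 0, ⟨0, 0⟩, 0⟩ 0 0)) (.cut .d (-98304) (.pos 31 .mp ⟨23749923, 0, 0, 0, 0, 55610414, 0, 0, 0, ⟨0, 0⟩, 0⟩ 0 0) (.cut .l 548055 (.pos 31 .mp ⟨23738292, 0, 0, 0, 0, 56098216, 0, 0, 0, ⟨0, 0⟩, 0⟩ 0 0) (.pos 31 .mp ⟨26173084, 0, 0, 0, 0, 48358569, 0, 0, 0, ⟨0, 0⟩, 0⟩ 0 0)))) (.cut .d (-32768) (.cut .v 16908288 (.cut .l 548055 (.cut .s 9109504 (.cut .s 9076736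 (.pos 51 .mp ⟨23898005, 0, 0, 0, 0, 47607419, 0, 0, 0, ⟨0, 0⟩, 0⟩ 0 0) (.cut .s 9093120 (.pos 51 .mp ⟨23201652, 0, 0, 0, 0, 49962783, 0, 0, 0, ⟨0, 0⟩, 0⟩ 0 0) (.pos 51 .mp ⟨23473404, 0, 0, 0, 0, 50486666, 0, 0, 0, ⟨0, 0⟩, 0⟩ 0 0))) (.cut .l 397060 (.cut .d (-49152) (.pos 51 .mp ⟨23578114, 0, 0, 0, 0, 55315994, 0, 0, 0, ⟨0, 0⟩, 0⟩ 0 0) (.cut .s 9142272 (.pos 51 .mp ⟨24437084, 0, 0, 0, 0, 50239682, 0, 0, 0, ⟨0, 0⟩, 0⟩ 0 0) (.pos 51 .mp ⟨25061532, 0, 0, 0, 0, 51157494, 0, 0, 0, ⟨0, 0⟩, 0⟩ 0 0))) (.pos 51 .mp ⟨25332283, 0, 0, 0, 0, 48367921, 0, 0, 0, ⟨0, 0⟩, 0⟩ 0 0))) (.pos 51 .mp ⟨0, 0, 0, 0, 0, 0, 0, 0, 0, ⟨0, 0⟩, 0⟩ 0 0)) (.pos 52 .mp ⟨62831852, 0, 0, 0, 0,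 0, 0, 0, 0, ⟨0, 0⟩, 0⟩ 0 0)) (.pos 31 .mp ⟨24857804, 0, 0, 0, 0, 32843708, 0, 0, 0, ⟨0, 0⟩, 0⟩ 0 0))) (.cut .d (-65536) (.cut .s 9240576 (.cut .d (-98304) (.pos 31 .mp ⟨24926472, 0, 0, 0, 0, 57831085, 0, 0, 0, ⟨0, 0⟩, 0⟩ 0 0) (.cut .l 548055 (.pos 31 .mp ⟨24889823, 0, 0, 0, 0, 58368032, 0, 0, 0, ⟨0, 0⟩, 0⟩ 0 0) (.cut .s 9207808 (.pos 31 .mp ⟨26798504, 0, 0, 0, 0, 50653238, 0, 0, 0, ⟨0, 0⟩, 0⟩ 0 0) (.pos 31 .mp ⟨27432872, 0, 0, 0, 0, 51670723, 0, 0, 0, ⟨0, 0⟩, 0⟩ 0 0)))) (.cut .d (-98304) (.pos 31 .mp ⟨26135996, 0, 0, 0, 0, 60201430, 0, 0, 0, ⟨0, 0⟩, 0⟩ 0 0) (.cut .l 548055 (.pos 31 .mp ⟨26072965, 0, 0, 0, 0, 60788785, 0, 0, 0, ⟨0, 0⟩, 0⟩ 0 0) (.cut .s 9273344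 (.pos 31 .mp ⟨28076293, 0, 0, 0, 0, 52717297, 0, 0, 0, ⟨0, 0⟩, 0⟩ 0 0) (.pos 31 .mp ⟨28728871, 0, 0, 0, 0, 53792901, 0, 0, 0, ⟨0, 0⟩, 0⟩ 0 0))))) (.cut .v 16908288 (.cut .l 548055 (.cut .d (-32768) (.cut .s 9240576 (.cut .l 397060 (.cut .d (-49152) (.pos 51 .mp ⟨24696471, 0, 0, 0, 0, 57591595, 0, 0, 0, ⟨0, 0⟩, 0⟩ 0 0) (.cut .s 9207808 (.pos 51 .mp ⟨25683299, 0, 0, 0, 0, 52125134, 0, 0, 0, ⟨0, 0⟩, 0⟩ 0 0) (.cut .s 9224192 (.pos 51 .mp ⟨25425641, 0, 0, 0, 0, 54310704, 0, 0, 0, ⟨0, 0⟩, 0⟩ 0 0) (.pos 51 .mp ⟨25711853, 0, 0, 0, 0, 54870412, 0, 0, 0, ⟨0, 0⟩, 0⟩ 0 0)))) (.pos 51 .mp ⟨26519027, 0, 0, 0, 0, 50434078, 0, 0, 0, ⟨0, 0⟩, 0⟩ 0 0)) (.cut .l 397060 (.cut .d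 (-49152) (.pos 51 .mp ⟨25845235, 0, 0, 0, 0, 60015664, 0, 0, 0, ⟨0, 0⟩, 0⟩ 0 0) (.cut .s 9273344 (.pos 51 .mp ⟨26914320, 0, 0, 0, 0, 54219091, 0, 0, 0, ⟨0, 0⟩, 0⟩ 0 0) (.pos 51 .mp ⟨27521244, 0, 0, 0, 0, 55350208, 0, 0, 0, ⟨0, 0⟩, 0⟩ 0 0))) (.pos 51 .mp ⟨26598200, 0, 0, 0, 0, 54641104, 0, 0, 0, ⟨0, 0⟩, 0⟩ 0 0))) (.cut .s 9240576 (.pos 51 .mp ⟨25482093, 0, 0, 0, 0, 50295800, 0, 0, 0, ⟨0, 0⟩, 0⟩ 0 0) (.pos 51 .mp ⟨26640950, 0, 0, 0, 0, 52450029, 0, 0, 0, ⟨0, 0⟩, 0⟩ 0 0))) (.pos 51 .mp ⟨0, 0, 0, 0, 0, 0, 0, 0, 0, ⟨0, 0⟩, 0⟩ 0 0)) (.pos 52 .mp ⟨67898418, 0, 0, 0, 0, 0, 0, 0, 0, ⟨0, 0⟩, 0⟩ 0 0)))) (.cut .v 16908288 (.pos 51 .mp ⟨0, 0, 0, 0, 0, 74838797, 0, 0, 0,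 ⟨0, 0⟩, 0⟩ 0 0) (.cut .s 9175040 (.pos 52 .mp ⟨26405374, 0, 0, 0, 0, 45052647, 0, 0, 0, ⟨0, 0⟩, 0⟩ 0 0) (.cut .s 9240576 (.pos 52 .mp ⟨27714087, 0, 0, 0, 0, 49855064, 0, 0, 0, ⟨0, 0⟩, 0⟩ 0 0) (.pos 52 .mp ⟨29061004, 0, 0, 0, 0, 51886589, 0, 0, 0, ⟨0, 0⟩, 0⟩ 0 0))))) (.pos 32 .mp ⟨67803752, 0, 0, 0, 0, 0, 0, 0, 0, ⟨0, 0⟩, 0⟩ 0 0))) (.cut .d (-131072) (.cut .d (-196608) (.void 29 ⟨0, 0, 0, 0, 0, 100000, 0, 0, 0, ⟨0, 0⟩, 0⟩ 0 0) (.cut .l 850045 (.void 29 ⟨0, 0, 0, 0, 0, 100000, 0, 0, 0, ⟨0, 0⟩, 0⟩ 0 0) (.cut .v 17039360 (.cut .s 9437184 (.cut .v 16908288 (.pos 51 .mp ⟨0, 0, 0, 0, 0, 96580256, 0, 0, 0, ⟨0, 0⟩, 0⟩ 0 0) (.cut .s 9371648 (.cut .s 9338880 (.pos 52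 .mp ⟨26362611, 0, 0, 0, 0, 61649656, 0, 0, 0, ⟨0, 0⟩, 0⟩ 0 0) (.pos 52 .mp ⟨26995987, 0, 0, 0, 0, 62913062, 0, 0, 0, ⟨0, 0⟩, 0⟩ 0 0)) (.cut .s 9404416 (.pos 52 .mp ⟨27637981, 0, 0, 0, 0, 64208099, 0, 0, 0, ⟨0, 0⟩, 0⟩ 0 0) (.pos 52 .mp ⟨28288696, 0, 0, 0, 0, 65534715, 0, 0, 0, ⟨0, 0⟩, 0⟩ 0 0)))) (.cut .s 9502720 (.cut .s 9469952 (.pos 31 .mp ⟨28674501, 0, 0, 0, 0, 67233810, 0, 0, 0, ⟨0, 0⟩, 0⟩ 0 0) (.pos 31 .mp ⟨29330933, 0, 0, 0, 0, 68639312, 0, 0, 0, ⟨0, 0⟩, 0⟩ 0 0)) (.pos 31 .mp ⟨29996254, 0, 0, 0, 0, 71389113, 0, 0, 0, ⟨0, 0⟩, 0⟩ 0 0))) (.cut .s 9437184 (.pos 32 .mp ⟨59913140, 0, 0, 0, 0, 23707526, 0, 0, 0, ⟨0, 0⟩, 0⟩ 0 0) (.pos 32 .mp ⟨66334259, 0, 0, 0,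 0, 23999046, 0, 0, 0, ⟨0, 0⟩, 0⟩ 0 0))))) (.cut .v 17039360 (.cut .s 9437184 (.cut .l 850045 (.cut .d (-65536) (.cut .l 548055 (.pos 31 .mp ⟨27288463, 0, 0, 0, 0, 67575395, 0, 0, 0, ⟨0, 0⟩, 0⟩ 0 0) (.cut .d (-98304) (.cut .s 9371648 (.pos 31 .mp ⟨27379268, 0, 0, 0, 0, 62342851, 0, 0, 0, ⟨0, 0⟩, 0⟩ 0 0) (.pos 31 .mp ⟨28657088, 0, 0, 0, 0, 64959398, 0, 0, 0, ⟨0, 0⟩, 0⟩ 0 0)) (.cut .s 9371648 (.cut .s 9338880 (.pos 31 .mp ⟨29390715, 0, 0, 0, 0, 54897471, 0, 0, 0, ⟨0, 0⟩, 0⟩ 0 0) (.pos 31 .mp ⟨30061934, 0, 0, 0, 0, 56030938, 0, 0, 0, ⟨0, 0⟩, 0⟩ 0 0)) (.pos 31 .mp ⟨31432946, 0, 0, 0, 0, 56838412, 0, 0, 0, ⟨0, 0⟩, 0⟩ 0 0)))) (.cut .v 16908288 (.cut .l 548055 (.cut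 .d (-32768) (.cut .s 9371648 (.cut .l 397060 (.cut .s 9338880 (.pos 51 .mp ⟨26615045, 0, 0, 0, 0, 59409379, 0, 0, 0, ⟨0, 0⟩, 0⟩ 0 0) (.pos 51 .mp ⟨27223289, 0, 0, 0, 0, 60634948, 0, 0, 0, ⟨0, 0⟩, 0⟩ 0 0)) (.pos 51 .mp ⟨27788364, 0, 0, 0, 0, 56986958, 0, 0, 0, ⟨0, 0⟩, 0⟩ 0 0)) (.cut .s 9404416 (.pos 51 .mp ⟨27352227, 0, 0, 0, 0, 62426054, 0, 0, 0, ⟨0, 0⟩, 0⟩ 0 0) (.pos 51 .mp ⟨28031986, 0, 0, 0, 0, 63632442, 0, 0, 0, ⟨0, 0⟩, 0⟩ 0 0))) (.cut .s 9371648 (.pos 51 .mp ⟨27827436, 0, 0, 0, 0, 54696854, 0, 0, 0, ⟨0, 0⟩, 0⟩ 0 0) (.pos 51 .mp ⟨29042333, 0, 0, 0, 0, 57031791, 0, 0, 0, ⟨0, 0⟩, 0⟩ 0 0))) (.pos 51 .mp ⟨29551954, 0, 0, 0, 0, 0, 0, 0, 0, ⟨0, 0⟩, 0⟩ 0 0)) (.pos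 52 .mp ⟨73472661, 0, 0, 0, 0, 0, 0, 0, 0, ⟨0, 0⟩, 0⟩ 0 0))) (.cut .s 9371648 (.pos 31 .mp ⟨30183822, 0, 0, 0, 0, 53050928, 0, 0, 0, ⟨0, 0⟩, 0⟩ 0 0) (.pos 31 .mp ⟨31585639, 0, 0, 0, 0, 55213823, 0, 0, 0, ⟨0, 0⟩, 0⟩ 0 0))) (.cut .l 850045 (.cut .d (-65536) (.cut .l 548055 (.pos 31 .mp ⟨29819635, 0, 0, 0, 0, 73584850, 0, 0, 0, ⟨0, 0⟩, 0⟩ 0 0) (.cut .s 9502720 (.cut .s 9469952 (.pos 31 .mp ⟨28361124, 0, 0, 0, 0, 66938756, 0, 0, 0, ⟨0, 0⟩, 0⟩ 0 0) (.pos 31 .mp ⟨28985607, 0, 0, 0, 0, 68345695, 0, 0, 0, ⟨0, 0⟩, 0⟩ 0 0)) (.pos 31 .mp ⟨29618224, 0, 0, 0, 0, 71116903, 0, 0, 0, ⟨0, 0⟩, 0⟩ 0 0))) (.cut .v 16908288 (.cut .d (-32768) (.cut .l 548055 (.cut .s 9502720 (.cut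 .s 9469952 (.pos 51 .mp ⟨28746473, 0, 0, 0, 0, 64828233, 0, 0, 0, ⟨0, 0⟩, 0⟩ 0 0) (.pos 51 .mp ⟨29497162, 0, 0, 0, 0, 66011009, 0, 0, 0, ⟨0, 0⟩, 0⟩ 0 0)) (.cut .s 9535488 (.pos 51 .mp ⟨30285529, 0, 0, 0, 0, 67178329, 0, 0, 0, ⟨0, 0⟩, 0⟩ 0 0) (.pos 51 .mp ⟨31113056, 0, 0, 0, 0, 68327726, 0, 0, 0, ⟨0, 0⟩, 0⟩ 0 0))) (.pos 51 .mp ⟨32174245, 0, 0, 0, 0, 0, 0, 0, 0, ⟨0, 0⟩, 0⟩ 0 0)) (.pos 51 .mp ⟨31268080, 0, 0, 0, 0, 58347129, 0, 0, 0, ⟨0, 0⟩, 0⟩ 0 0)) (.pos 52 .mp ⟨79575812, 0, 0, 0, 0, 0, 0, 0, 0, ⟨0, 0⟩, 0⟩ 0 0))) (.cut .s 9502720 (.pos 31 .mp ⟨33027823, 0, 0, 0, 0, 57444557, 0, 0, 0, ⟨0, 0⟩, 0⟩ 0 0) (.pos 31 .mp ⟨34511361, 0, 0, 0, 0, 59738333, 0, 0, 0, ⟨0,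 0⟩, 0⟩ 0 0)))) (.pos 32 .mp ⟨79401544, 0, 0, 0, 0, 0, 0, 0, 0, ⟨0, 0⟩, 0⟩ 0 0)))) (.pos 30 .mp ⟨82135132, 0, 0, 0, 0, 0, 0, 0, 0, ⟨0, 0⟩, 0⟩ 0 0)) (.pos 28 .mp ⟨88013020, 0, 0, 0, 0, 0, 0, 0, 0, ⟨0, 0⟩, 0⟩ 0 0)))))) (.void 26 ⟨100000, 0, 0, 0, 0, 0, 0, 0, 0, ⟨0, 0⟩, 0⟩ 0 0))) (.void 24 ⟨100000, 0, 0, 0, 0, 0, 0, 0, 0, ⟨0, 0⟩, 0⟩ 0 0))) (.void 22 ⟨100000, 0, 0, 0, 0, 0, 0, 0, 0, ⟨0, 0⟩, 0⟩ 0 0)) (.void 61 ⟨100000, 0, 0, 0, 0, 0, 0, 0, 0, ⟨0, 0⟩, 0⟩ 0 0)) (.void 70 ⟨100000, 0, 0, 0, 0, 0, 0, 0, 0, ⟨0, 0⟩, 0⟩ 0 0))) (.cut .v 16777216 (.cut .v 8388608 (.cut .v 4194304 (.cut .v 2097152 (.void 6 ⟨0, 0, 50000, 0, 50000, 0, 0, 0, 0, ⟨0, 0⟩, 0⟩ 0 0) (.void 7 ⟨0, 0,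 45679, 0, 0, 0, 0, 0, 54321, ⟨0, 0⟩, 7053950⟩ 0 0)) (.cut .d 7172869 (.pos 5 .pm ⟨0, 0, 0, 0, 0, 0, 0, 0, 0, ⟨0, 0⟩, 0⟩ 0 0) (.pos 5 .pm ⟨0, 0, 0, 0, 0, 0, 0, 0, 30214469, ⟨0, 0⟩, 9975792⟩ 0 0))) (.cut .d 7172869 (.pos 3 .pm ⟨0, 0, 0, 0, 0, 0, 0, 0, 0, ⟨0, 0⟩, 0⟩ 0 0) (.cut .d 10759303 (.pos 3 .pm ⟨0, 0, 0, 0, 0, 0, 0, 0, 0, ⟨0, 0⟩, 0⟩ 0 0) (.cut .d 12552520 (.cut .v 12582912 (.pos 8 .pm ⟨0, 48853074, 0, 0, 0, 0, 0, 5731000, 2678474, ⟨5339375, 0⟩, 13128881⟩ 261 349) (.pos 9 .pm ⟨0, 50227971, 0, 0, 0, 0, 0, 14044079, 0, ⟨5339375, 0⟩, 0⟩ 261 349)) (.pos 3 .pm ⟨0, 126501055, 0, 0, 0, 0, 0, 0, 12339961, ⟨0, 0⟩, 14107901⟩ 0 0))))) (.cut .v 67108864 (.cut .d 7172869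 (.cut .d 3586434 (.cut .v 33554432 (.cut .d 1793217 (.cut .v 25165824 (.cut .v 20971520 (.pos 23 .pp ⟨40683140, 0, 0, 0, 0, 0, 0, 0, 0, ⟨0, 0⟩, 0⟩ 0 0) (.pos 24 .pp ⟨82833302, 0, 0, 0, 0, 0, 0, 0, 0, ⟨0, 0⟩, 0⟩ 0 0)) (.pos 22 .pp ⟨139619130, 0, 0, 0, 0, 0, 0, 0, 0, ⟨0, 0⟩, 0⟩ 0 0)) (.pos 20 .pp ⟨0, 0, 0, 0, 0, 0, 0, 0, 0, ⟨0, 0⟩, 0⟩ 0 0)) (.cut .d 1793217 (.pos 61 .pp ⟨598159873, 0, 0, 0, 0, 0, 0, 0, 0, ⟨0, 0⟩, 0⟩ 0 0) (.pos 61 .pp ⟨193631344, 0, 0, 0, 0, 0, 0, 0, 0, ⟨0, 0⟩, 0⟩ 0 0))) (.pos 60 .pp ⟨0, 0, 0, 0, 0, 0, 0, 18725438, 0, ⟨5250657, 108704⟩, 0⟩ 167 225)) (.cut .d 10759303 (.pos 60 .pp ⟨0, 6543458, 0, 0, 0, 0, 0, 0, 0, ⟨0, 0⟩, 0⟩ 0 0) (.pos 60 .pp ⟨0,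 77397358, 0, 0, 0, 0, 0, 0, 0, ⟨0, 0⟩, 0⟩ 0 0))) (.cut .v 134217728 (.cut .d 7172869 (.cut .d 3586434 (.cut .v 100663296 (.cut .v 83886080 (.pos 79 .pp ⟨1045551580, 0, 0, 0, 0, 0, 0, 0, 0, ⟨0, 0⟩, 0⟩ 0 0) (.void 80 ⟨44198, 55802, 0, 0, 0, 0, 0, 0, 0, ⟨0, 0⟩, 0⟩ 0 0)) (.void 76 ⟨44198, 55802, 0, 0, 0, 0, 0, 0, 0, ⟨0, 0⟩, 0⟩ 0 0)) (.pos 73 .pp ⟨0, 207566612, 0, 0, 0, 0, 6624099, 0, 0, ⟨0, 0⟩, 0⟩ 0 0)) (.void 73 ⟨0, 100000, 0, 0, 0, 0, 0, 0, 0, ⟨0, 0⟩, 0⟩ 0 0)) (.void 74 ⟨38048, 61952, 0, 0, 0, 0, 0, 0, 0, ⟨0, 0⟩, 0⟩ 0 0))))),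
    by decide +kernel⟩

def covers12 : cell.Covers table row12.1 :=
  ⟨(.cut .d 0 (.cut .v 16777216 (.cut .d (-8388608) (.void 1 ⟨0, 0, 0, 0, 0, 100000, 0, 0, 0, ⟨0, 0⟩, 0⟩ 0 0) (.cut .d (-4194304) (.void 1 ⟨0, 0, 0, 0, 0, 100000, 0, 0, 0, ⟨0, 0⟩, 0⟩ 0 0) (.cut .d (-2097152) (.void 1 ⟨0, 0, 0, 0, 0, 100000, 0, 0, 0, ⟨0, 0⟩, 0⟩ 0 0) (.cut .d (-1048576) (.void 1 ⟨0, 0, 0, 0, 0, 100000, 0, 0, 0, ⟨0, 0⟩, 0⟩ 0 0) (.cut .d (-524288) (.void 1 ⟨0, 0, 0, 0, 0, 100000, 0, 0, 0, ⟨0, 0⟩, 0⟩ 0 0) (.cut .d (-262144) (.void 1 ⟨0, 0, 0, 0, 0, 100000, 0, 0, 0, ⟨0, 0⟩, 0⟩ 0 0) (.cut .v 8388608 (.cut .v 4194304 (.void 4 ⟨0, 0, 100000, 0, 0, 0, 0, 0, 0, ⟨0, 0⟩, 0⟩ 0 0) (.pos 5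 .mm ⟨0, 0, 0, 0, 0, 55975899, 0, 0, 0, ⟨0, 0⟩, 0⟩ 0 0)) (.cut .v 12582912 (.pos 8 .mm ⟨0, 0, 0, 0, 0, 83049902, 0, 0, 0, ⟨0, 0⟩, 0⟩ 0 0) (.cut .v 14680064 (.pos 12 .mm ⟨0, 0, 0, 0, 0, 104910459, 0, 0, 0, ⟨0, 0⟩, 0⟩ 0 0) (.cut .v 15728640 (.pos 14 .mm ⟨0, 0, 0, 0, 0, 117472906, 0, 0, 0, ⟨0, 0⟩, 0⟩ 0 0) (.cut .v 16252928 (.pos 16 .mm ⟨0, 0, 0, 0, 0, 124244584, 0, 0, 0, ⟨0, 0⟩, 0⟩ 0 0) (.cut .d (-131072) (.cut .s 9830400 (.pos 17 .mm ⟨0, 0, 0, 0, 0, 126017281, 0, 0, 0, ⟨0, 0⟩, 0⟩ 0 0) (.pos 17 .mm ⟨0, 0, 0, 0, 0, 148441378, 0, 0, 0, ⟨0, 0⟩, 0⟩ 0 0)) (.cut .s 9830400 (.cut .s 9699328 (.pos 17 .mm ⟨0, 0, 0, 0, 0, 110063454, 0, 0, 0, ⟨0, 0⟩, 0⟩ 0 0) (.pos 17 .mm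 ⟨0, 0, 0, 0, 0, 119832561, 0, 0, 0, ⟨0, 0⟩, 0⟩ 0 0)) (.cut .s 9961472 (.pos 17 .mm ⟨0, 0, 0, 0, 0, 130320214, 0, 0, 0, ⟨0, 0⟩, 0⟩ 0 0) (.pos 17 .mm ⟨0, 0, 0, 0, 0, 141498682, 0, 0, 0, ⟨0, 0⟩, 0⟩ 0 0))))))))))))))) (.cut .v 67108864 (.cut .v 33554432 (.cut .v 25165824 (.cut .d (-8388608) (.void 21 ⟨0, 0, 0, 0, 0, 100000, 0, 0, 0, ⟨0, 0⟩, 0⟩ 0 0) (.cut .v 20971520 (.cut .d (-4194304) (.void 23 ⟨0, 0, 0, 0, 0, 100000, 0, 0, 0, ⟨0, 0⟩, 0⟩ 0 0) (.cut .v 18874368 (.cut .d (-2097152) (.void 25 ⟨100000, 0, 0, 0, 0, 0, 0, 0, 0, ⟨0, 0⟩, 0⟩ 0 0) (.cut .d (-1048576) (.void 25 ⟨100000, 0, 0, 0, 0, 0, 0, 0, 0, ⟨0, 0⟩, 0⟩ 0 0) (.cut .d (-524288) (.void 25 ⟨0, 0, 0, 0, 0,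 100000, 0, 0, 0, ⟨0, 0⟩, 0⟩ 0 0) (.cut .d (-262144) (.void 25 ⟨0, 0, 0, 0, 0, 100000, 0, 0, 0, ⟨0, 0⟩, 0⟩ 0 0) (.cut .v 17825792 (.cut .v 17301504 (.cut .d (-131072) (.cut .d (-196608) (.void 29 ⟨0, 0, 0, 0, 0, 100000, 0, 0, 0, ⟨0, 0⟩, 0⟩ 0 0) (.cut .l 850045 (.void 29 ⟨0, 0, 0, 0, 0, 100000, 0, 0, 0, ⟨0, 0⟩, 0⟩ 0 0) (.cut .s 9830400 (.cut .v 17039360 (.cut .l 1152035 (.pos 31 .mp ⟨33001918, 0, 0, 0, 0, 88514622, 0, 0, 0, ⟨0, 0⟩, 0⟩ 0 0) (.cut .v 16908288 (.pos 51 .mp ⟨0, 0, 0, 0, 0, 120916865, 0, 0, 0, ⟨0, 0⟩, 0⟩ 0 0) (.cut .s 9699328 (.cut .s 9633792 (.pos 52 .mp ⟨31679313, 0, 0, 0, 0, 74314503, 0, 0, 0, ⟨0, 0⟩, 0⟩ 0 0) (.pos 52 .mp ⟨33156100, 0, 0, 0, 0,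 77019487, 0, 0, 0, ⟨0, 0⟩, 0⟩ 0 0)) (.cut .d (-163840) (.pos 52 .mp ⟨36695711, 0, 0, 0, 0, 84105689, 0, 0, 0, ⟨0, 0⟩, 0⟩ 0 0) (.cut .s 9764864 (.pos 52 .mp ⟨34669339, 0, 0, 0, 0, 78941832, 0, 0, 0, ⟨0, 0⟩, 0⟩ 0 0) (.cut .s 9797632 (.pos 52 .mp ⟨36219983, 0, 0, 0, 0, 80478572, 0, 0, 0, ⟨0, 0⟩, 0⟩ 0 0) (.pos 52 .mp ⟨37009640, 0, 0, 0, 0, 81977400, 0, 0, 0, ⟨0, 0⟩, 0⟩ 0 0))))))) (.cut .d (-163840) (.pos 32 .mp ⟨106931540, 0, 0, 0, 0, 0, 0, 0, 0, ⟨0, 0⟩, 0⟩ 0 0) (.pos 32 .mp ⟨96219758, 0, 0, 0, 0, 0, 0, 0, 0, ⟨0, 0⟩, 0⟩ 0 0))) (.cut .l 1152035 (.pos 29 .mp ⟨40078647, 0, 0, 0, 0, 126212346, 0, 0, 0, ⟨0, 0⟩, 0⟩ 0 0) (.cut .v 17039360 (.cut .d (-163840) (.pos 31 .mp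 ⟨39621302, 0, 0, 0, 0, 100716179, 0, 0, 0, ⟨0, 0⟩, 0⟩ 0 0) (.cut .v 16908288 (.pos 51 .mp ⟨0, 0, 0, 0, 0, 139671839, 0, 0, 0, ⟨0, 0⟩, 0⟩ 0 0) (.cut .s 9961472 (.cut .v 16973824 (.pos 71 .mp ⟨0, 0, 0, 0, 0, 135389264, 0, 0, 0, ⟨0, 0⟩, 0⟩ 0 0) (.cut .s 9895936 (.cut .s 9863168 (.pos 72 .mp ⟨43033840, 0, 0, 0, 0, 76053501, 0, 0, 0, ⟨0, 0⟩, 0⟩ 0 0) (.pos 72 .mp ⟨43957911, 0, 0, 0, 0, 77458003, 0, 0, 0, ⟨0, 0⟩, 0⟩ 0 0)) (.cut .s 9928704 (.pos 72 .mp ⟨44894546, 0, 0, 0, 0, 78900632, 0, 0, 0, ⟨0, 0⟩, 0⟩ 0 0) (.pos 72 .mp ⟨45843914, 0, 0, 0, 0, 80381242, 0, 0, 0, ⟨0, 0⟩, 0⟩ 0 0)))) (.cut .s 10027008 (.pos 52 .mp ⟨41106450, 0, 0, 0, 0, 91570532, 0, 0, 0, ⟨0, 0⟩, 0⟩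 0 0) (.pos 52 .mp ⟨42817017, 0, 0, 0, 0, 95141089, 0, 0, 0, ⟨0, 0⟩, 0⟩ 0 0))))) (.cut .d (-163840) (.pos 32 .mp ⟨121487995, 0, 0, 0, 0, 0, 0, 0, 0, ⟨0, 0⟩, 0⟩ 0 0) (.pos 32 .mp ⟨110250896, 0, 0, 0, 0, 0, 0, 0, 0, ⟨0, 0⟩, 0⟩ 0 0))))))) (.cut .s 9830400 (.cut .v 17039360 (.cut .s 9699328 (.cut .s 9633792 (.cut .l 850045 (.cut .d (-65536) (.cut .s 9601024 (.pos 31 .mp ⟨32281524, 0, 0, 0, 0, 71315222, 0, 0, 0, ⟨0, 0⟩, 0⟩ 0 0) (.pos 31 .mp ⟨32666454, 0, 0, 0, 0, 73092426, 0, 0, 0, ⟨0, 0⟩, 0⟩ 0 0)) (.cut .d (-32768) (.cut .s 9601024 (.pos 31 .mp ⟨34395373, 0, 0, 0, 0, 66038798, 0, 0, 0, ⟨0, 0⟩, 0⟩ 0 0) (.pos 31 .mp ⟨35350374, 0, 0, 0, 0, 66786506, 0, 0, 0, ⟨0, 0⟩,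 0⟩ 0 0)) (.pos 31 .mp ⟨33645256, 0, 0, 0, 0, 64251077, 0, 0, 0, ⟨0, 0⟩, 0⟩ 0 0))) (.pos 31 .mp ⟨36073267, 0, 0, 0, 0, 62787336, 0, 0, 0, ⟨0, 0⟩, 0⟩ 0 0)) (.cut .d (-65536) (.cut .l 850045 (.cut .s 9666560 (.pos 31 .mp ⟨33081367, 0, 0, 0, 0, 74881285, 0, 0, 0, ⟨0, 0⟩, 0⟩ 0 0) (.pos 31 .mp ⟨33528186, 0, 0, 0, 0, 76678743, 0, 0, 0, ⟨0, 0⟩, 0⟩ 0 0)) (.cut .s 9666560 (.pos 31 .mp ⟨36868784, 0, 0, 0, 0, 66718637, 0, 0, 0, ⟨0, 0⟩, 0⟩ 0 0) (.pos 31 .mp ⟨37674949, 0, 0, 0, 0, 67891838, 0, 0, 0, ⟨0, 0⟩, 0⟩ 0 0))) (.cut .v 16908288 (.cut .l 850045 (.cut .l 548055 (.cut .d (-32768) (.cut .s 9666560 (.pos 51 .mp ⟨33204150, 0, 0, 0, 0, 72451115, 0, 0, 0, ⟨0, 0⟩, 0⟩ 0 0)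 (.pos 51 .mp ⟨33631544, 0, 0, 0, 0, 74217041, 0, 0, 0, ⟨0, 0⟩, 0⟩ 0 0)) (.cut .s 9666560 (.pos 51 .mp ⟨33992643, 0, 0, 0, 0, 67740478, 0, 0, 0, ⟨0, 0⟩, 0⟩ 0 0) (.pos 51 .mp ⟨34682342, 0, 0, 0, 0, 69114183, 0, 0, 0, ⟨0, 0⟩, 0⟩ 0 0))) (.pos 51 .mp ⟨34982049, 0, 0, 0, 0, 66701526, 0, 0, 0, ⟨0, 0⟩, 0⟩ 0 0)) (.pos 51 .mp ⟨0, 0, 0, 0, 0, 0, 0, 0, 0, ⟨0, 0⟩, 0⟩ 0 0)) (.pos 52 .mp ⟨86969569, 0, 0, 0, 0, 0, 0, 0, 0, ⟨0, 0⟩, 0⟩ 0 0)))) (.cut .s 9764864 (.cut .d (-65536) (.cut .l 850045 (.cut .s 9732096 (.pos 31 .mp ⟨34008839, 0, 0, 0, 0, 78481717, 0, 0, 0, ⟨0, 0⟩, 0⟩ 0 0) (.cut .s 9748480 (.pos 31 .mp ⟨34998911, 0, 0, 0, 0, 78533474, 0, 0, 0, ⟨0, 0⟩, 0⟩ 0 0) (.pos 31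 .mp ⟨35273087, 0, 0, 0, 0, 79421671, 0, 0, 0, ⟨0, 0⟩, 0⟩ 0 0))) (.cut .s 9732096 (.pos 31 .mp ⟨38491899, 0, 0, 0, 0, 69104583, 0, 0, 0, ⟨0, 0⟩, 0⟩ 0 0) (.pos 31 .mp ⟨39319773, 0, 0, 0, 0, 70356792, 0, 0, 0, ⟨0, 0⟩, 0⟩ 0 0))) (.cut .v 16908288 (.cut .l 850045 (.cut .l 548055 (.cut .d (-32768) (.cut .s 9732096 (.pos 51 .mp ⟨34092582, 0, 0, 0, 0, 75987537, 0, 0, 0, ⟨0, 0⟩, 0⟩ 0 0) (.cut .s 9748480 (.pos 51 .mp ⟨35612173, 0, 0, 0, 0, 75395192, 0, 0, 0, ⟨0, 0⟩, 0⟩ 0 0) (.pos 51 .mp ⟨35884370, 0, 0, 0, 0, 76256248, 0, 0, 0, ⟨0, 0⟩, 0⟩ 0 0))) (.cut .s 9732096 (.pos 51 .mp ⟨35380176, 0, 0, 0, 0, 70519070, 0, 0, 0, ⟨0, 0⟩, 0⟩ 0 0) (.cut .s 9748480 (.pos 51 .mp ⟨35732176,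 0, 0, 0, 0, 72210461, 0, 0, 0, ⟨0, 0⟩, 0⟩ 0 0) (.pos 51 .mp ⟨36086250, 0, 0, 0, 0, 72942368, 0, 0, 0, ⟨0, 0⟩, 0⟩ 0 0)))) (.pos 51 .mp ⟨36436712, 0, 0, 0, 0, 69397318, 0, 0, 0, ⟨0, 0⟩, 0⟩ 0 0)) (.pos 51 .mp ⟨0, 0, 0, 0, 0, 0, 0, 0, 0, ⟨0, 0⟩, 0⟩ 0 0)) (.pos 52 .mp ⟨89990030, 0, 0, 0, 0, 0, 0, 0, 0, ⟨0, 0⟩, 0⟩ 0 0))) (.cut .d (-65536) (.cut .l 850045 (.cut .d (-98304) (.pos 31 .mp ⟨37193428, 0, 0, 0, 0, 102110709, 0, 0, 0, ⟨0, 0⟩, 0⟩ 0 0) (.cut .v 16908288 (.cut .s 9797632 (.pos 51 .mp ⟨34691532, 0, 0, 0, 0, 81360919, 0, 0, 0, ⟨0, 0⟩, 0⟩ 0 0) (.pos 51 .mp ⟨35400887, 0, 0, 0, 0, 82900358, 0, 0, 0, ⟨0, 0⟩, 0⟩ 0 0)) (.pos 52 .mp ⟨61084453, 0, 0, 0, 0, 48089277,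 0, 0, 0, ⟨0, 0⟩, 0⟩ 0 0))) (.cut .d (-98304) (.cut .s 9797632 (.pos 31 .mp ⟨33702491, 0, 0, 0, 0, 83084754, 0, 0, 0, ⟨0, 0⟩, 0⟩ 0 0) (.cut .s 9814016 (.pos 31 .mp ⟨34420339, 0, 0, 0, 0, 84154264, 0, 0, 0, ⟨0, 0⟩, 0⟩ 0 0) (.pos 31 .mp ⟨34782311, 0, 0, 0, 0, 84952794, 0, 0, 0, ⟨0, 0⟩, 0⟩ 0 0))) (.pos 31 .mp ⟨38407593, 0, 0, 0, 0, 72683802, 0, 0, 0, ⟨0, 0⟩, 0⟩ 0 0))) (.cut .v 16908288 (.cut .l 850045 (.cut .l 548055 (.cut .d (-32768) (.cut .d (-49152) (.pos 51 .mp ⟨35386033, 0, 0, 0, 0, 82506843, 0, 0, 0, ⟨0, 0⟩, 0⟩ 0 0) (.cut .l 397060 (.cut .s 9797632 (.pos 51 .mp ⟨36134852, 0, 0, 0, 0, 78167356, 0, 0, 0, ⟨0, 0⟩, 0⟩ 0 0) (.pos 51 .mp ⟨36775841, 0, 0, 0, 0, 79845064,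 0, 0, 0, ⟨0, 0⟩, 0⟩ 0 0)) (.pos 51 .mp ⟨37724441, 0, 0, 0, 0, 73248813, 0, 0, 0, ⟨0, 0⟩, 0⟩ 0 0))) (.cut .d (-16384) (.cut .d (-24576) (.cut .v 16842752 (.cut .s 9797632 (.pos 62 .mp ⟨35373166, 0, 0, 0, 0, 77778000, 0, 0, 0, ⟨0, 0⟩, 0⟩ 0 0) (.pos 62 .mp ⟨36066755, 0, 0, 0, 0, 79338105, 0, 0, 0, ⟨0, 0⟩, 0⟩ 0 0)) (.pos 63 .mp ⟨92490567, 0, 0, 0, 0, 0, 0, 0, 0, ⟨0, 0⟩, 0⟩ 0 0)) (.pos 51 .mp ⟨36969618, 0, 0, 0, 0, 0, 0, 0, 0, ⟨0, 0⟩, 0⟩ 0 0)) (.pos 51 .mp ⟨35279864, 0, 0, 0, 0, 0, 0, 0, 0, ⟨0, 0⟩, 0⟩ 0 0))) (.pos 51 .mp ⟨37927061, 0, 0, 0, 0, 72210487, 0, 0, 0, ⟨0, 0⟩, 0⟩ 0 0)) (.pos 51 .mp ⟨0, 0, 0, 0, 0, 0, 0, 0, 0, ⟨0, 0⟩, 0⟩ 0 0)) (.pos 52 .mp ⟨93181861, 0,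 0, 0, 0, 0, 0, 0, 0, ⟨0, 0⟩, 0⟩ 0 0))))) (.pos 32 .mp ⟨93395821, 0, 0, 0, 0, 0, 0, 0, 0, ⟨0, 0⟩, 0⟩ 0 0)) (.cut .v 17039360 (.cut .s 9961472 (.cut .s 9895936 (.cut .d (-65536) (.cut .l 850045 (.cut .d (-98304) (.void 31 ⟨0, 0, 0, 0, 0, 100000, 0, 0, 0, ⟨0, 0⟩, 0⟩ 0 0) (.cut .v 16908288 (.cut .s 9863168 (.pos 51 .mp ⟨36118461, 0, 0, 0, 0, 84497308, 0, 0, 0, ⟨0, 0⟩, 0⟩ 0 0) (.pos 51 .mp ⟨36844365, 0, 0, 0, 0, 86152727, 0, 0, 0, ⟨0, 0⟩, 0⟩ 0 0)) (.pos 52 .mp ⟨63536524, 0, 0, 0, 0, 49816843, 0, 0, 0, ⟨0, 0⟩, 0⟩ 0 0))) (.cut .d (-98304) (.cut .l 1152035 (.cut .s 9863168 (.pos 31 .mp ⟨36950728, 0, 0, 0, 0, 84374741, 0, 0, 0, ⟨0, 0⟩, 0⟩ 0 0) (.pos 31 .mp ⟨37717915,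 0, 0, 0, 0, 86008310, 0, 0, 0, ⟨0, 0⟩, 0⟩ 0 0)) (.pos 31 .mp ⟨39995295, 0, 0, 0, 0, 76372509, 0, 0, 0, ⟨0, 0⟩, 0⟩ 0 0)) (.pos 31 .mp ⟨39954054, 0, 0, 0, 0, 75661095, 0, 0, 0, ⟨0, 0⟩, 0⟩ 0 0))) (.cut .v 16908288 (.cut .l 850045 (.cut .l 548055 (.cut .d (-32768) (.cut .d (-49152) (.pos 51 .mp ⟨36818071, 0, 0, 0, 0, 85715604, 0, 0, 0, ⟨0, 0⟩, 0⟩ 0 0) (.cut .l 397060 (.cut .s 9863168 (.pos 51 .mp ⟨37444289, 0, 0, 0, 0, 81530422, 0, 0, 0, ⟨0, 0⟩, 0⟩ 0 0) (.pos 51 .mp ⟨38141334, 0, 0, 0, 0, 83221322, 0, 0, 0, ⟨0, 0⟩, 0⟩ 0 0)) (.pos 51 .mp ⟨39223709, 0, 0, 0, 0, 76199195, 0, 0, 0, ⟨0, 0⟩, 0⟩ 0 0))) (.cut .d (-16384) (.cut .d (-24576) (.cut .v 16842752 (.cut .s 9863168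 (.pos 62 .mp ⟨36768382, 0, 0, 0, 0, 80926952, 0, 0, 0, ⟨0, 0⟩, 0⟩ 0 0) (.pos 62 .mp ⟨37478155, 0, 0, 0, 0, 82543903, 0, 0, 0, ⟨0, 0⟩, 0⟩ 0 0)) (.pos 63 .mp ⟨95811817, 0, 0, 0, 0, 0, 0, 0, 0, ⟨0, 0⟩, 0⟩ 0 0)) (.pos 51 .mp ⟨38410720, 0, 0, 0, 0, 0, 0, 0, 0, ⟨0, 0⟩, 0⟩ 0 0)) (.pos 51 .mp ⟨36592503, 0, 0, 0, 0, 0, 0, 0, 0, ⟨0, 0⟩, 0⟩ 0 0))) (.pos 51 .mp ⟨39454054, 0, 0, 0, 0, 75135529, 0, 0, 0, ⟨0, 0⟩, 0⟩ 0 0)) (.pos 51 .mp ⟨0, 0, 0, 0, 0, 0, 0, 0, 0, ⟨0, 0⟩, 0⟩ 0 0)) (.pos 52 .mp ⟨96549012, 0, 0, 0, 0, 0, 0, 0, 0, ⟨0, 0⟩, 0⟩ 0 0))) (.cut .d (-65536) (.cut .l 850045 (.cut .d (-98304) (.void 31 ⟨0, 0, 0, 0, 0, 100000, 0, 0, 0, ⟨0, 0⟩, 0⟩ 0 0) (.cut .v 16908288 (.cut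 .s 9928704 (.pos 51 .mp ⟨37578712, 0, 0, 0, 0, 87867591, 0, 0, 0, ⟨0, 0⟩, 0⟩ 0 0) (.pos 51 .mp ⟨38321617, 0, 0, 0, 0, 89642891, 0, 0, 0, ⟨0, 0⟩, 0⟩ 0 0)) (.pos 52 .mp ⟨66593663, 0, 0, 0, 0, 50965680, 0, 0, 0, ⟨0, 0⟩, 0⟩ 0 0))) (.cut .d (-98304) (.cut .l 1152035 (.cut .s 9928704 (.pos 31 .mp ⟨38494308, 0, 0, 0, 0, 87685592, 0, 0, 0, ⟨0, 0⟩, 0⟩ 0 0) (.pos 31 .mp ⟨39280033, 0, 0, 0, 0, 89406529, 0, 0, 0, ⟨0, 0⟩, 0⟩ 0 0)) (.pos 31 .mp ⟨41596206, 0, 0, 0, 0, 79483709, 0, 0, 0, ⟨0, 0⟩, 0⟩ 0 0)) (.pos 31 .mp ⟨41532963, 0, 0, 0, 0, 78756259, 0, 0, 0, ⟨0, 0⟩, 0⟩ 0 0))) (.cut .l 850045 (.cut .v 16908288 (.cut .l 548055 (.cut .d (-32768) (.cut .d (-49152) (.pos 51 .mp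 ⟨38283918, 0, 0, 0, 0, 89155641, 0, 0, 0, ⟨0, 0⟩, 0⟩ 0 0) (.cut .l 397060 (.cut .s 9928704 (.pos 51 .mp ⟨38868120, 0, 0, 0, 0, 84915642, 0, 0, 0, ⟨0, 0⟩, 0⟩ 0 0) (.pos 51 .mp ⟨39625794, 0, 0, 0, 0, 86611240, 0, 0, 0, ⟨0, 0⟩, 0⟩ 0 0)) (.pos 51 .mp ⟨40759418, 0, 0, 0, 0, 79253092, 0, 0, 0, ⟨0, 0⟩, 0⟩ 0 0))) (.cut .d (-16384) (.cut .d (-24576) (.cut .v 16842752 (.cut .s 9928704 (.pos 62 .mp ⟨38196186, 0, 0, 0, 0, 84188323, 0, 0, 0, ⟨0, 0⟩, 0⟩ 0 0) (.pos 62 .mp ⟨38922587, 0, 0, 0, 0, 85859574, 0, 0, 0, ⟨0, 0⟩, 0⟩ 0 0)) (.pos 63 .mp ⟨99309309, 0, 0, 0, 0, 0, 0, 0, 0, ⟨0, 0⟩, 0⟩ 0 0)) (.pos 51 .mp ⟨39885621, 0, 0, 0, 0, 0, 0, 0, 0, ⟨0, 0⟩, 0⟩ 0 0)) (.pos 51 .mp ⟨37934822,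 0, 0, 0, 0, 0, 0, 0, 0, ⟨0, 0⟩, 0⟩ 0 0))) (.pos 51 .mp ⟨41018687, 0, 0, 0, 0, 78166958, 0, 0, 0, ⟨0, 0⟩, 0⟩ 0 0)) (.pos 52 .mp ⟨101188915, 0, 0, 0, 0, 0, 0, 0, 0, ⟨0, 0⟩, 0⟩ 0 0)) (.pos 31 .mp ⟨0, 0, 0, 0, 0, 0, 0, 0, 0, ⟨0, 0⟩, 0⟩ 0 0)))) (.cut .s 10027008 (.cut .d (-65536) (.cut .l 850045 (.cut .s 9994240 (.cut .s 9977856 (.pos 31 .mp ⟨39795479, 0, 0, 0, 0, 90787642, 0, 0, 0, ⟨0, 0⟩, 0⟩ 0 0) (.pos 31 .mp ⟨39924749, 0, 0, 0, 0, 92241527, 0, 0, 0, ⟨0, 0⟩, 0⟩ 0 0)) (.pos 31 .mp ⟨40313134, 0, 0, 0, 0, 94215771, 0, 0, 0, ⟨0, 0⟩, 0⟩ 0 0)) (.cut .d (-98304) (.cut .s 9994240 (.pos 31 .mp ⟨38133981, 0, 0, 0, 0, 93242247, 0, 0, 0, ⟨0, 0⟩, 0⟩ 0 0) (.pos 31 .mp ⟨38902394,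 0, 0, 0, 0, 95111988, 0, 0, 0, ⟨0, 0⟩, 0⟩ 0 0)) (.pos 31 .mp ⟨43145448, 0, 0, 0, 0, 81963654, 0, 0, 0, ⟨0, 0⟩, 0⟩ 0 0))) (.cut .l 850045 (.cut .v 16908288 (.cut .l 548055 (.cut .d (-32768) (.cut .d (-49152) (.pos 51 .mp ⟨39784501, 0, 0, 0, 0, 92834611, 0, 0, 0, ⟨0, 0⟩, 0⟩ 0 0) (.cut .s 9994240 (.cut .s 9977856 (.pos 51 .mp ⟨40634623, 0, 0, 0, 0, 86725498, 0, 0, 0, ⟨0, 0⟩, 0⟩ 0 0) (.pos 51 .mp ⟨41065425, 0, 0, 0, 0, 87533532, 0, 0, 0, ⟨0, 0⟩, 0⟩ 0 0)) (.pos 51 .mp ⟨40339532, 0, 0, 0, 0, 91069444, 0, 0, 0, ⟨0, 0⟩, 0⟩ 0 0))) (.cut .d (-16384) (.cut .d (-24576) (.cut .s 9994240 (.cut .s 9977856 (.pos 51 .mp ⟨39962264, 0, 0, 0, 0, 87202623, 0, 0, 0, ⟨0, 0⟩, 0⟩ 0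 0) (.pos 51 .mp ⟨40332722, 0, 0, 0, 0, 88079404, 0, 0, 0, ⟨0, 0⟩, 0⟩ 0 0)) (.pos 51 .mp ⟨41252365, 0, 0, 0, 0, 88477367, 0, 0, 0, ⟨0, 0⟩, 0⟩ 0 0)) (.pos 51 .mp ⟨41395262, 0, 0, 0, 0, 0, 0, 0, 0, ⟨0, 0⟩, 0⟩ 0 0)) (.pos 51 .mp ⟨39307616, 0, 0, 0, 0, 0, 0, 0, 0, ⟨0, 0⟩, 0⟩ 0 0))) (.pos 51 .mp ⟨42569099, 0, 0, 0, 0, 81378280, 0, 0, 0, ⟨0, 0⟩, 0⟩ 0 0)) (.pos 52 .mp ⟨104958994, 0, 0, 0, 0, 0, 0, 0, 0, ⟨0, 0⟩, 0⟩ 0 0)) (.pos 31 .mp ⟨0, 0, 0, 0, 0, 0, 0, 0, 0, ⟨0, 0⟩, 0⟩ 0 0))) (.cut .d (-65536) (.cut .l 850045 (.cut .s 10059776 (.pos 31 .mp ⟨41096734, 0, 0, 0, 0, 96130505, 0, 0, 0, ⟨0, 0⟩, 0⟩ 0 0) (.pos 31 .mp ⟨41889550, 0, 0, 0, 0, 98165747, 0, 0, 0, ⟨0, 0⟩, 0⟩ 0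 0)) (.cut .s 10059776 (.cut .v 16908288 (.pos 51 .mp ⟨0, 0, 0, 0, 0, 142104070, 0, 0, 0, ⟨0, 0⟩, 0⟩ 0 0) (.pos 52 .mp ⟨47838716, 0, 0, 0, 0, 84222104, 0, 0, 0, ⟨0, 0⟩, 0⟩ 0 0)) (.pos 31 .mp ⟨48231875, 0, 0, 0, 0, 85026569, 0, 0, 0, ⟨0, 0⟩, 0⟩ 0 0))) (.cut .v 16908288 (.cut .l 850045 (.cut .l 548055 (.cut .d (-32768) (.cut .s 10059776 (.pos 51 .mp ⟨40974770, 0, 0, 0, 0, 93252807, 0, 0, 0, ⟨0, 0⟩, 0⟩ 0 0) (.pos 51 .mp ⟨41932918, 0, 0, 0, 0, 94863827, 0, 0, 0, ⟨0, 0⟩, 0⟩ 0 0)) (.cut .d (-16384) (.cut .s 10059776 (.cut .s 10043392 (.pos 51 .mp ⟨42436697, 0, 0, 0, 0, 86820022, 0, 0, 0, ⟨0, 0⟩, 0⟩ 0 0) (.pos 51 .mp ⟨42830591, 0, 0, 0, 0, 87675317, 0, 0, 0, ⟨0, 0⟩,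 0⟩ 0 0)) (.pos 51 .mp ⟨43625474, 0, 0, 0, 0, 88351671, 0, 0, 0, ⟨0, 0⟩, 0⟩ 0 0)) (.pos 51 .mp ⟨40746063, 0, 0, 0, 0, 0, 0, 0, 0, ⟨0, 0⟩, 0⟩ 0 0))) (.pos 51 .mp ⟨44125045, 0, 0, 0, 0, 84736656, 0, 0, 0, ⟨0, 0⟩, 0⟩ 0 0)) (.pos 51 .mp ⟨0, 0, 0, 0, 0, 0, 0, 0, 0, ⟨0, 0⟩, 0⟩ 0 0)) (.pos 52 .mp ⟨107744287, 0, 0, 0, 0, 0, 0, 0, 0, ⟨0, 0⟩, 0⟩ 0 0))))) (.pos 32 .mp ⟨107653895, 0, 0, 0, 0, 0, 0, 0, 0, ⟨0, 0⟩, 0⟩ 0 0)))) (.pos 30 .mp ⟨111895470, 0, 0, 0, 0, 0, 0, 0, 0, ⟨0, 0⟩, 0⟩ 0 0)) (.pos 28 .mp ⟨120448328, 0, 0, 0, 0, 0, 0, 0, 0, ⟨0, 0⟩, 0⟩ 0 0)))))) (.void 26 ⟨100000, 0, 0, 0, 0, 0, 0, 0, 0, ⟨0, 0⟩, 0⟩ 0 0))) (.void 24 ⟨100000, 0, 0, 0, 0, 0, 0, 0, 0, ⟨0, 0⟩, 0⟩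 0 0))) (.void 22 ⟨100000, 0, 0, 0, 0, 0, 0, 0, 0, ⟨0, 0⟩, 0⟩ 0 0)) (.void 61 ⟨100000, 0, 0, 0, 0, 0, 0, 0, 0, ⟨0, 0⟩, 0⟩ 0 0)) (.void 70 ⟨100000, 0, 0, 0, 0, 0, 0, 0, 0, ⟨0, 0⟩, 0⟩ 0 0))) (.cut .v 16777216 (.cut .v 8388608 (.cut .v 4194304 (.cut .v 2097152 (.void 6 ⟨0, 0, 25058, 0, 0, 0, 0, 0, 74942, ⟨0, 0⟩, 2804900⟩ 0 0) (.pos 7 .pm ⟨0, 0, 0, 0, 0, 0, 0, 0, 1473312, ⟨0, 0⟩, 7053950⟩ 0 0)) (.cut .d 6320185 (.pos 5 .pm ⟨0, 0, 0, 0, 0, 0, 0, 0, 0, ⟨0, 0⟩, 0⟩ 0 0) (.cut .d 9480278 (.pos 5 .pm ⟨0, 0, 0, 0, 0, 0, 0, 0, 0, ⟨0, 0⟩, 0⟩ 0 0) (.cut .d 11060324 (.pos 5 .pm ⟨0, 49464679, 0, 0, 0, 0, 0, 0, 0, ⟨0, 0⟩, 0⟩ 0 0) (.pos 5 .pm ⟨0, 77227697, 0, 0, 0, 0, 0, 0, 2517649,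 ⟨0, 0⟩, 9975792⟩ 0 0))))) (.cut .d 6320185 (.pos 3 .pm ⟨0, 0, 0, 0, 0, 0, 0, 0, 0, ⟨0, 0⟩, 0⟩ 0 0) (.cut .d 9480278 (.pos 3 .pm ⟨0, 0, 0, 0, 0, 0, 0, 0, 0, ⟨0, 0⟩, 0⟩ 0 0) (.cut .d 11060324 (.cut .v 12582912 (.cut .s 9830400 (.pos 8 .pm ⟨0, 47020469, 0, 0, 0, 0, 0, 0, 0, ⟨0, 0⟩, 0⟩ 0 0) (.cut .d 10270301 (.pos 8 .pm ⟨0, 57646759, 0, 0, 0, 0, 0, 0, 0, ⟨0, 0⟩, 0⟩ 0 0) (.pos 8 .pm ⟨0, 73310432, 0, 0, 0, 0, 0, 0, 0, ⟨0, 0⟩, 0⟩ 0 0))) (.pos 9 .pm ⟨0, 65661906, 0, 0, 0, 0, 0, 0, 0, ⟨0, 0⟩, 0⟩ 0 0)) (.cut .v 12582912 (.cut .s 9830400 (.pos 8 .pm ⟨0, 73234428, 0, 0, 0, 0, 0, 0, 0, ⟨0, 0⟩, 0⟩ 0 0) (.void 8 ⟨0, 100000, 0, 0, 0, 0, 0, 0, 0, ⟨0, 0⟩, 0⟩ 0 0)) (.pos 9 .pm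 ⟨0, 103996029, 0, 0, 0, 0, 0, 0, 0, ⟨0, 0⟩, 0⟩ 0 0)))))) (.cut .d 6320185 (.cut .v 67108864 (.cut .d 3160092 (.cut .v 33554432 (.cut .d 1580046 (.cut .v 25165824 (.cut .v 20971520 (.pos 23 .pp ⟨58323276, 0, 0, 0, 0, 0, 0, 0, 0, ⟨0, 0⟩, 0⟩ 0 0) (.pos 24 .pp ⟨113777124, 0, 0, 0, 0, 0, 0, 0, 0, ⟨0, 0⟩, 0⟩ 0 0)) (.pos 22 .pp ⟨190881760, 0, 0, 0, 0, 0, 0, 0, 0, ⟨0, 0⟩, 0⟩ 0 0)) (.pos 20 .pp ⟨0, 0, 0, 0, 0, 0, 0, 0, 0, ⟨0, 0⟩, 0⟩ 0 0)) (.cut .d 1580046 (.cut .v 50331648 (.pos 64 .pp ⟨474164326, 0, 0, 0, 0, 0, 0, 0, 0, ⟨0, 0⟩, 0⟩ 0 0) (.void 65 ⟨100000, 0, 0, 0, 0, 0, 0, 0, 0, ⟨0, 0⟩, 0⟩ 0 0)) (.pos 61 .pp ⟨275228928, 0, 0, 0, 0, 0, 0, 0, 0, ⟨0, 0⟩, 0⟩ 0 0))) (.pos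 60 .pp ⟨0, 0, 0, 0, 0, 0, 0, 0, 0, ⟨0, 0⟩, 0⟩ 0 0)) (.cut .v 134217728 (.cut .d 3160092 (.cut .v 100663296 (.cut .v 83886080 (.pos 79 .pp ⟨1342316432, 0, 0, 0, 0, 0, 0, 0, 0, ⟨0, 0⟩, 0⟩ 0 0) (.void 80 ⟨43170, 56830, 0, 0, 0, 0, 0, 0, 0, ⟨0, 0⟩, 0⟩ 0 0)) (.void 76 ⟨43170, 56830, 0, 0, 0, 0, 0, 0, 0, ⟨0, 0⟩, 0⟩ 0 0)) (.pos 73 .pp ⟨0, 263171660, 0, 0, 0, 0, 6082800, 0, 0, ⟨0, 0⟩, 0⟩ 0 0)) (.void 74 ⟨41157, 58843, 0, 0, 0, 0, 0, 0, 0, ⟨0, 0⟩, 0⟩ 0 0))) (.pos 69 .pp ⟨0, 71619773, 0, 0, 0, 0, 0, 0, 0, ⟨0, 0⟩, 0⟩ 0 0)))),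
    by decide +kernel⟩

def covers13 : cell.Covers table row13.1 :=
  ⟨(.cut .d 0 (.cut .v 16777216 (.cut .d (-8388608) (.void 1 ⟨0, 0, 0, 0, 0, 100000, 0, 0, 0, ⟨0, 0⟩, 0⟩ 0 0) (.cut .d (-4194304) (.void 1 ⟨0, 0, 0, 0, 0, 100000, 0, 0, 0, ⟨0, 0⟩, 0⟩ 0 0) (.cut .d (-2097152) (.void 1 ⟨0, 0, 0, 0, 0, 100000, 0, 0, 0, ⟨0, 0⟩, 0⟩ 0 0) (.cut .d (-1048576) (.void 1 ⟨0, 0, 0, 0, 0, 100000, 0, 0, 0, ⟨0, 0⟩, 0⟩ 0 0) (.cut .d (-524288) (.void 1 ⟨0, 0, 0, 0, 0, 100000, 0, 0, 0, ⟨0, 0⟩, 0⟩ 0 0) (.cut .d (-262144) (.void 1 ⟨0, 0, 0, 0, 0, 100000, 0, 0, 0, ⟨0, 0⟩, 0⟩ 0 0) (.cut .v 8388608 (.cut .v 4194304 (.void 4 ⟨0, 0, 100000, 0, 0, 0, 0, 0, 0, ⟨0, 0⟩, 0⟩ 0 0) (.pos 5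 .mm ⟨0, 0, 0, 0, 0, 72862477, 0, 0, 0, ⟨0, 0⟩, 0⟩ 0 0)) (.cut .d (-131072) (.pos 3 .mm ⟨0, 0, 0, 0, 0, 188287555, 0, 0, 0, ⟨0, 0⟩, 0⟩ 0 0) (.cut .v 12582912 (.pos 8 .mm ⟨0, 0, 0, 0, 0, 101146381, 0, 0, 0, ⟨0, 0⟩, 0⟩ 0 0) (.cut .v 14680064 (.pos 12 .mm ⟨0, 0, 0, 0, 0, 132765876, 0, 0, 0, ⟨0, 0⟩, 0⟩ 0 0) (.cut .v 15728640 (.pos 14 .mm ⟨0, 0, 0, 0, 0, 149930828, 0, 0, 0, ⟨0, 0⟩, 0⟩ 0 0) (.cut .v 16252928 (.pos 16 .mm ⟨0, 0, 0, 0, 0, 158032000, 0, 0, 0, ⟨0, 0⟩, 0⟩ 0 0) (.cut .v 16515072 (.pos 18 .mm ⟨0, 0, 0, 0, 0, 162222248, 0, 0, 0, ⟨0, 0⟩, 0⟩ 0 0) (.cut .s 10289152 (.cut .s 10190848 (.pos 19 .mm ⟨0, 0, 0, 0, 0, 151283079, 0, 0, 0, ⟨0, 0⟩, 0⟩ 0 0) (.pos 19 .mm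 ⟨0, 0, 0, 0, 0, 160727282, 0, 0, 0, ⟨0, 0⟩, 0⟩ 0 0)) (.cut .s 10387456 (.pos 19 .mm ⟨0, 0, 0, 0, 0, 170670846, 0, 0, 0, ⟨0, 0⟩, 0⟩ 0 0) (.pos 19 .mm ⟨0, 0, 0, 0, 0, 181099819, 0, 0, 0, ⟨0, 0⟩, 0⟩ 0 0)))))))))))))))) (.cut .v 268435456 (.cut .v 67108864 (.cut .v 33554432 (.cut .v 25165824 (.cut .d (-8388608) (.void 21 ⟨0, 0, 0, 0, 0, 100000, 0, 0, 0, ⟨0, 0⟩, 0⟩ 0 0) (.cut .v 20971520 (.cut .d (-4194304) (.void 23 ⟨100000, 0, 0, 0, 0, 0, 0, 0, 0, ⟨0, 0⟩, 0⟩ 0 0) (.cut .v 18874368 (.cut .d (-2097152) (.void 25 ⟨100000, 0, 0, 0, 0, 0, 0, 0, 0, ⟨0, 0⟩, 0⟩ 0 0) (.cut .d (-1048576) (.void 25 ⟨100000, 0, 0, 0, 0, 0, 0, 0, 0, ⟨0, 0⟩, 0⟩ 0 0) (.cut .d (-524288) (.void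 25 ⟨100000, 0, 0, 0, 0, 0, 0, 0, 0, ⟨0, 0⟩, 0⟩ 0 0) (.cut .d (-262144) (.void 25 ⟨0, 0, 0, 0, 0, 100000, 0, 0, 0, ⟨0, 0⟩, 0⟩ 0 0) (.cut .v 17825792 (.cut .v 17301504 (.cut .d (-131072) (.cut .d (-196608) (.void 29 ⟨0, 0, 0, 0, 0, 100000, 0, 0, 0, ⟨0, 0⟩, 0⟩ 0 0) (.cut .d (-163840) (.void 29 ⟨0, 0, 0, 0, 0, 100000, 0, 0, 0, ⟨0, 0⟩, 0⟩ 0 0) (.cut .v 17039360 (.cut .l 850045 (.void 31 ⟨0, 0, 0, 0, 0, 100000, 0, 0, 0, ⟨0, 0⟩, 0⟩ 0 0) (.cut .l 1152035 (.void 31 ⟨0, 0, 0, 0, 0, 100000, 0, 0, 0, ⟨0, 0⟩, 0⟩ 0 0) (.cut .v 16908288 (.pos 51 .mp ⟨0, 0, 0, 0, 0, 180311935, 0, 0, 0, ⟨0, 0⟩, 0⟩ 0 0) (.cut .s 10289152 (.cut .s 10190848 (.pos 52 .mp ⟨44566595, 0, 0, 0, 0,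 103183292, 0, 0, 0, ⟨0, 0⟩, 0⟩ 0 0) (.cut .s 10240000 (.pos 52 .mp ⟨47364940, 0, 0, 0, 0, 104781363, 0, 0, 0, ⟨0, 0⟩, 0⟩ 0 0) (.pos 52 .mp ⟨48799544, 0, 0, 0, 0, 107598822, 0, 0, 0, ⟨0, 0⟩, 0⟩ 0 0))) (.cut .d (-147456) (.void 52 ⟨0, 0, 0, 0, 0, 100000, 0, 0, 0, ⟨0, 0⟩, 0⟩ 0 0) (.cut .s 10387456 (.cut .s 10338304 (.pos 52 .mp ⟨50258466, 0, 0, 0, 0, 109755533, 0, 0, 0, ⟨0, 0⟩, 0⟩ 0 0) (.pos 52 .mp ⟨51742249, 0, 0, 0, 0, 112757929, 0, 0, 0, ⟨0, 0⟩, 0⟩ 0 0)) (.pos 52 .mp ⟨53251452, 0, 0, 0, 0, 119532970, 0, 0, 0, ⟨0, 0⟩, 0⟩ 0 0))))))) (.pos 32 .mp ⟨139698343, 0, 0, 0, 0, 0, 0, 0, 0, ⟨0, 0⟩, 0⟩ 0 0)))) (.cut .s 10289152 (.cut .v 17039360 (.cut .s 10190848 (.cut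 .d (-65536) (.cut .l 850045 (.cut .s 10141696 (.pos 31 .mp ⟨42689024, 0, 0, 0, 0, 101622459, 0, 0, 0, ⟨0, 0⟩, 0⟩ 0 0) (.pos 31 .mp ⟨43934267, 0, 0, 0, 0, 104261071, 0, 0, 0, ⟨0, 0⟩, 0⟩ 0 0)) (.cut .d (-98304) (.cut .l 1152035 (.pos 31 .mp ⟨43349985, 0, 0, 0, 0, 104113107, 0, 0, 0, ⟨0, 0⟩, 0⟩ 0 0) (.pos 31 .mp ⟨48974336, 0, 0, 0, 0, 88214406, 0, 0, 0, ⟨0, 0⟩, 0⟩ 0 0)) (.pos 31 .mp ⟨48187829, 0, 0, 0, 0, 88324016, 0, 0, 0, ⟨0, 0⟩, 0⟩ 0 0))) (.cut .v 16908288 (.cut .l 850045 (.cut .l 548055 (.cut .d (-32768) (.cut .d (-49152) (.pos 51 .mp ⟨42891448, 0, 0, 0, 0, 104329695, 0, 0, 0, ⟨0, 0⟩, 0⟩ 0 0) (.cut .l 397060 (.cut .s 10141696 (.pos 51 .mp ⟨44262820, 0, 0,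 0, 0, 96033809, 0, 0, 0, ⟨0, 0⟩, 0⟩ 0 0) (.pos 51 .mp ⟨45195406, 0, 0, 0, 0, 99255741, 0, 0, 0, ⟨0, 0⟩, 0⟩ 0 0)) (.pos 51 .mp ⟨46451247, 0, 0, 0, 0, 91055362, 0, 0, 0, ⟨0, 0⟩, 0⟩ 0 0))) (.cut .d (-16384) (.cut .d (-24576) (.cut .s 10141696 (.pos 51 .mp ⟨44838921, 0, 0, 0, 0, 92673976, 0, 0, 0, ⟨0, 0⟩, 0⟩ 0 0) (.cut .s 10166272 (.pos 51 .mp ⟨44814869, 0, 0, 0, 0, 96764941, 0, 0, 0, ⟨0, 0⟩, 0⟩ 0 0) (.pos 51 .mp ⟨45490531, 0, 0, 0, 0, 97942888, 0, 0, 0, ⟨0, 0⟩, 0⟩ 0 0))) (.pos 51 .mp ⟨45332832, 0, 0, 0, 0, 87047260, 0, 0, 0, ⟨0, 0⟩, 0⟩ 0 0)) (.pos 51 .mp ⟨43876508, 0, 0, 0, 0, 0, 0, 0, 0, ⟨0, 0⟩, 0⟩ 0 0))) (.pos 51 .mp ⟨46831341, 0, 0, 0, 0, 88053940, 0, 0, 0,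 ⟨0, 0⟩, 0⟩ 0 0)) (.pos 51 .mp ⟨0, 0, 0, 0, 0, 0, 0, 0, 0, ⟨0, 0⟩, 0⟩ 0 0)) (.pos 52 .mp ⟨112717232, 0, 0, 0, 0, 0, 0, 0, 0, ⟨0, 0⟩, 0⟩ 0 0))) (.cut .d (-65536) (.cut .l 850045 (.cut .d (-98304) (.void 31 ⟨0, 0, 0, 0, 0, 100000, 0, 0, 0, ⟨0, 0⟩, 0⟩ 0 0) (.cut .v 16908288 (.cut .s 10240000 (.pos 51 .mp ⟨44630394, 0, 0, 0, 0, 105962596, 0, 0, 0, ⟨0, 0⟩, 0⟩ 0 0) (.pos 51 .mp ⟨45890915, 0, 0, 0, 0, 108860242, 0, 0, 0, ⟨0, 0⟩, 0⟩ 0 0)) (.pos 52 .mp ⟨75074851, 0, 0, 0, 0, 68073036, 0, 0, 0, ⟨0, 0⟩, 0⟩ 0 0))) (.cut .v 16908288 (.pos 51 .mp ⟨0, 0, 0, 0, 0, 162666238, 0, 0, 0, ⟨0, 0⟩, 0⟩ 0 0) (.cut .d (-98304) (.cut .l 1152035 (.cut .s 10240000 (.pos 52 .mp ⟨46563903,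 0, 0, 0, 0, 105216933, 0, 0, 0, ⟨0, 0⟩, 0⟩ 0 0) (.pos 52 .mp ⟨47934566, 0, 0, 0, 0, 108096445, 0, 0, 0, ⟨0, 0⟩, 0⟩ 0 0)) (.cut .s 10240000 (.pos 52 .mp ⟨51071041, 0, 0, 0, 0, 95092487, 0, 0, 0, ⟨0, 0⟩, 0⟩ 0 0) (.pos 52 .mp ⟨52588727, 0, 0, 0, 0, 97616750, 0, 0, 0, ⟨0, 0⟩, 0⟩ 0 0))) (.pos 52 .mp ⟨51661359, 0, 0, 0, 0, 94082220, 0, 0, 0, ⟨0, 0⟩, 0⟩ 0 0)))) (.cut .v 16908288 (.cut .l 850045 (.cut .d (-32768) (.cut .l 548055 (.cut .d (-49152) (.pos 51 .mp ⟨45348427, 0, 0, 0, 0, 109903352, 0, 0, 0, ⟨0, 0⟩, 0⟩ 0 0) (.cut .l 397060 (.cut .s 10240000 (.pos 51 .mp ⟨46200015, 0, 0, 0, 0, 102507354, 0, 0, 0, ⟨0, 0⟩, 0⟩ 0 0) (.pos 51 .mp ⟨46195681, 0, 0, 0, 0, 108659006,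 0, 0, 0, ⟨0, 0⟩, 0⟩ 0 0)) (.cut .s 10240000 (.pos 51 .mp ⟨47323261, 0, 0, 0, 0, 97504591, 0, 0, 0, ⟨0, 0⟩, 0⟩ 0 0) (.pos 51 .mp ⟨48786078, 0, 0, 0, 0, 99940918, 0, 0, 0, ⟨0, 0⟩, 0⟩ 0 0)))) (.cut .s 10240000 (.pos 51 .mp ⟨45306180, 0, 0, 0, 0, 100407578, 0, 0, 0, ⟨0, 0⟩, 0⟩ 0 0) (.pos 51 .mp ⟨47058465, 0, 0, 0, 0, 102436671, 0, 0, 0, ⟨0, 0⟩, 0⟩ 0 0))) (.cut .d (-16384) (.cut .v 16842752 (.cut .v 16809984 (.pos 83 .mp ⟨0, 0, 0, 0, 0, 157539956, 0, 0, 0, ⟨0, 0⟩, 0⟩ 0 0) (.cut .l 548055 (.cut .l 397060 (.cut .l 321562 (.cut .d (-24576) (.cut .s 10240000 (.pos 84 .mp ⟨44642120, 0, 0, 0, 0, 103065023, 0, 0, 0, ⟨0, 0⟩, 0⟩ 0 0) (.cut .s 10264576 (.pos 84 .mp ⟨47028408,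 0, 0, 0, 0, 102917371, 0, 0, 0, ⟨0, 0⟩, 0⟩ 0 0) (.pos 84 .mp ⟨47649542, 0, 0, 0, 0, 104356545, 0, 0, 0, ⟨0, 0⟩, 0⟩ 0 0))) (.cut .s 10240000 (.pos 84 .mp ⟨46412009, 0, 0, 0, 0, 96236534, 0, 0, 0, ⟨0, 0⟩, 0⟩ 0 0) (.pos 84 .mp ⟨47649542, 0, 0, 0, 0, 99041680, 0, 0, 0, ⟨0, 0⟩, 0⟩ 0 0))) (.pos 84 .mp ⟨47868672, 0, 0, 0, 0, 94772558, 0, 0, 0, ⟨0, 0⟩, 0⟩ 0 0)) (.pos 84 .mp ⟨0, 0, 0, 0, 0, 0, 0, 0, 0, ⟨0, 0⟩, 0⟩ 0 0)) (.pos 84 .mp ⟨0, 0, 0, 0, 0, 0, 0, 0, 0, ⟨0, 0⟩, 0⟩ 0 0))) (.pos 63 .mp ⟨116612807, 0, 0, 0, 0, 0, 0, 0, 0, ⟨0, 0⟩, 0⟩ 0 0)) (.pos 51 .mp ⟨46044812, 0, 0, 0, 0, 0, 0, 0, 0, ⟨0, 0⟩, 0⟩ 0 0))) (.pos 51 .mp ⟨0, 0, 0, 0, 0, 0, 0, 0, 0, ⟨0, 0⟩, 0⟩ 0 0)) (.pos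 52 .mp ⟨118313696, 0, 0, 0, 0, 0, 0, 0, 0, ⟨0, 0⟩, 0⟩ 0 0)))) (.pos 32 .mp ⟨122458417, 0, 0, 0, 0, 0, 0, 0, 0, ⟨0, 0⟩, 0⟩ 0 0)) (.cut .v 17039360 (.cut .s 10387456 (.cut .d (-65536) (.cut .l 850045 (.cut .d (-98304) (.void 31 ⟨0, 0, 0, 0, 0, 100000, 0, 0, 0, ⟨0, 0⟩, 0⟩ 0 0) (.cut .v 16908288 (.cut .s 10338304 (.pos 51 .mp ⟨47170912, 0, 0, 0, 0, 111976756, 0, 0, 0, ⟨0, 0⟩, 0⟩ 0 0) (.pos 51 .mp ⟨48470831, 0, 0, 0, 0, 115247344, 0, 0, 0, ⟨0, 0⟩, 0⟩ 0 0)) (.pos 52 .mp ⟨80727531, 0, 0, 0, 0, 69824412, 0, 0, 0, ⟨0, 0⟩, 0⟩ 0 0))) (.cut .v 16908288 (.pos 51 .mp ⟨0, 0, 0, 0, 0, 172616889, 0, 0, 0, ⟨0, 0⟩, 0⟩ 0 0) (.cut .s 10338304 (.cut .s 10313728 (.pos 52 .mp ⟨55730471,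 0, 0, 0, 0, 97626970, 0, 0, 0, ⟨0, 0⟩, 0⟩ 0 0) (.cut .s 10326016 (.pos 52 .mp ⟨55423260, 0, 0, 0, 0, 100124529, 0, 0, 0, ⟨0, 0⟩, 0⟩ 0 0) (.pos 52 .mp ⟨55790190, 0, 0, 0, 0, 100863991, 0, 0, 0, ⟨0, 0⟩, 0⟩ 0 0))) (.cut .s 10362880 (.pos 52 .mp ⟨57352156, 0, 0, 0, 0, 100340289, 0, 0, 0, ⟨0, 0⟩, 0⟩ 0 0) (.pos 52 .mp ⟨58174500, 0, 0, 0, 0, 101740719, 0, 0, 0, ⟨0, 0⟩, 0⟩ 0 0))))) (.cut .l 850045 (.cut .v 16908288 (.cut .d (-32768) (.cut .l 548055 (.cut .d (-49152) (.pos 51 .mp ⟨47882433, 0, 0, 0, 0, 116166568, 0, 0, 0, ⟨0, 0⟩, 0⟩ 0 0) (.cut .l 397060 (.cut .s 10338304 (.pos 51 .mp ⟨47440440, 0, 0, 0, 0, 111736477, 0, 0, 0, ⟨0, 0⟩, 0⟩ 0 0) (.pos 51 .mp ⟨48704337,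 0, 0, 0, 0, 114995021, 0, 0, 0, ⟨0, 0⟩, 0⟩ 0 0)) (.cut .s 10338304 (.pos 51 .mp ⟨50169208, 0, 0, 0, 0, 102695884, 0, 0, 0, ⟨0, 0⟩, 0⟩ 0 0) (.pos 51 .mp ⟨51461153, 0, 0, 0, 0, 105793225, 0, 0, 0, ⟨0, 0⟩, 0⟩ 0 0)))) (.cut .s 10338304 (.pos 51 .mp ⟨48577878, 0, 0, 0, 0, 105003394, 0, 0, 0, ⟨0, 0⟩, 0⟩ 0 0) (.pos 51 .mp ⟨49831010, 0, 0, 0, 0, 108165866, 0, 0, 0, ⟨0, 0⟩, 0⟩ 0 0))) (.cut .d (-16384) (.cut .v 16842752 (.cut .v 16809984 (.pos 83 .mp ⟨0, 0, 0, 0, 0, 167109636, 0, 0, 0, ⟨0, 0⟩, 0⟩ 0 0) (.cut .l 548055 (.cut .l 397060 (.cut .l 321562 (.cut .d (-24576) (.cut .s 10338304 (.cut .s 10313728 (.pos 84 .mp ⟨48275465, 0, 0, 0, 0, 105839599, 0, 0, 0, ⟨0, 0⟩, 0⟩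 0 0) (.pos 84 .mp ⟨48906231, 0, 0, 0, 0, 107367104, 0, 0, 0, ⟨0, 0⟩, 0⟩ 0 0)) (.pos 84 .mp ⟨48311590, 0, 0, 0, 0, 112247783, 0, 0, 0, ⟨0, 0⟩, 0⟩ 0 0)) (.cut .s 10338304 (.pos 84 .mp ⟨48906231, 0, 0, 0, 0, 101929790, 0, 0, 0, ⟨0, 0⟩, 0⟩ 0 0) (.pos 84 .mp ⟨50182515, 0, 0, 0, 0, 104898354, 0, 0, 0, ⟨0, 0⟩, 0⟩ 0 0))) (.pos 84 .mp ⟨50435103, 0, 0, 0, 0, 100330926, 0, 0, 0, ⟨0, 0⟩, 0⟩ 0 0)) (.pos 84 .mp ⟨0, 0, 0, 0, 0, 0, 0, 0, 0, ⟨0, 0⟩, 0⟩ 0 0)) (.pos 84 .mp ⟨0, 0, 0, 0, 0, 0, 0, 0, 0, ⟨0, 0⟩, 0⟩ 0 0))) (.pos 63 .mp ⟨122584635, 0, 0, 0, 0, 0, 0, 0, 0, ⟨0, 0⟩, 0⟩ 0 0)) (.pos 51 .mp ⟨48275602, 0, 0, 0, 0, 0, 0, 0, 0, ⟨0, 0⟩, 0⟩ 0 0))) (.pos 52 .mp ⟨126720659, 0,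 0, 0, 0, 0, 0, 0, 0, ⟨0, 0⟩, 0⟩ 0 0)) (.pos 31 .mp ⟨0, 0, 0, 0, 0, 0, 0, 0, 0, ⟨0, 0⟩, 0⟩ 0 0))) (.cut .d (-65536) (.cut .l 850045 (.cut .s 10436608 (.pos 31 .mp ⟨50454233, 0, 0, 0, 0, 120128409, 0, 0, 0, ⟨0, 0⟩, 0⟩ 0 0) (.pos 31 .mp ⟨51820149, 0, 0, 0, 0, 123705708, 0, 0, 0, ⟨0, 0⟩, 0⟩ 0 0)) (.cut .v 16908288 (.pos 51 .mp ⟨0, 0, 0, 0, 0, 183055912, 0, 0, 0, ⟨0, 0⟩, 0⟩ 0 0) (.cut .d (-98304) (.cut .l 1152035 (.pos 52 .mp ⟨52182250, 0, 0, 0, 0, 121498391, 0, 0, 0, ⟨0, 0⟩, 0⟩ 0 0) (.cut .s 10436608 (.pos 52 .mp ⟨57308156, 0, 0, 0, 0, 105895504, 0, 0, 0, ⟨0, 0⟩, 0⟩ 0 0) (.pos 52 .mp ⟨58938845, 0, 0, 0, 0, 108888813, 0, 0, 0, ⟨0, 0⟩, 0⟩ 0 0))) (.pos 52 .mp ⟨57726259,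 0, 0, 0, 0, 104954287, 0, 0, 0, ⟨0, 0⟩, 0⟩ 0 0)))) (.cut .l 850045 (.cut .v 16908288 (.cut .d (-32768) (.cut .l 548055 (.cut .d (-49152) (.pos 51 .mp ⟨50496993, 0, 0, 0, 0, 123155321, 0, 0, 0, ⟨0, 0⟩, 0⟩ 0 0) (.cut .s 10436608 (.cut .s 10412032 (.pos 51 .mp ⟨50489211, 0, 0, 0, 0, 113822354, 0, 0, 0, ⟨0, 0⟩, 0⟩ 0 0) (.pos 51 .mp ⟨51233747, 0, 0, 0, 0, 115382901, 0, 0, 0, ⟨0, 0⟩, 0⟩ 0 0)) (.cut .s 10461184 (.pos 51 .mp ⟨52017530, 0, 0, 0, 0, 116920131, 0, 0, 0, ⟨0, 0⟩, 0⟩ 0 0) (.pos 51 .mp ⟨52841657, 0, 0, 0, 0, 118432120, 0, 0, 0, ⟨0, 0⟩, 0⟩ 0 0)))) (.cut .s 10436608 (.pos 51 .mp ⟨50782056, 0, 0, 0, 0, 111986601, 0, 0, 0, ⟨0, 0⟩, 0⟩ 0 0) (.pos 51 .mp ⟨49520608,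 0, 0, 0, 0, 119605587, 0, 0, 0, ⟨0, 0⟩, 0⟩ 0 0))) (.cut .d (-16384) (.cut .v 16842752 (.cut .v 16809984 (.pos 83 .mp ⟨0, 0, 0, 0, 0, 177152715, 0, 0, 0, ⟨0, 0⟩, 0⟩ 0 0) (.cut .d (-24576) (.cut .s 10436608 (.cut .s 10412032 (.pos 84 .mp ⟨50694913, 0, 0, 0, 0, 112498174, 0, 0, 0, ⟨0, 0⟩, 0⟩ 0 0) (.pos 84 .mp ⟨51292036, 0, 0, 0, 0, 114321074, 0, 0, 0, ⟨0, 0⟩, 0⟩ 0 0)) (.pos 84 .mp ⟨53728207, 0, 0, 0, 0, 113694049, 0, 0, 0, ⟨0, 0⟩, 0⟩ 0 0)) (.pos 84 .mp ⟨52795703, 0, 0, 0, 0, 106406068, 0, 0, 0, ⟨0, 0⟩, 0⟩ 0 0))) (.pos 63 .mp ⟨129078393, 0, 0, 0, 0, 0, 0, 0, 0, ⟨0, 0⟩, 0⟩ 0 0)) (.pos 51 .mp ⟨50571658, 0, 0, 0, 0, 0, 0, 0, 0, ⟨0, 0⟩, 0⟩ 0 0))) (.pos 52 .mp ⟨133481257,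 0, 0, 0, 0, 0, 0, 0, 0, ⟨0, 0⟩, 0⟩ 0 0)) (.pos 31 .mp ⟨0, 0, 0, 0, 0, 0, 0, 0, 0, ⟨0, 0⟩, 0⟩ 0 0)))) (.pos 32 .mp ⟨135486202, 0, 0, 0, 0, 0, 0, 0, 0, ⟨0, 0⟩, 0⟩ 0 0)))) (.pos 30 .mp ⟨142798919, 0, 0, 0, 0, 0, 0, 0, 0, ⟨0, 0⟩, 0⟩ 0 0)) (.pos 28 .mp ⟨152797761, 0, 0, 0, 0, 0, 0, 0, 0, ⟨0, 0⟩, 0⟩ 0 0)))))) (.void 26 ⟨100000, 0, 0, 0, 0, 0, 0, 0, 0, ⟨0, 0⟩, 0⟩ 0 0))) (.void 24 ⟨100000, 0, 0, 0, 0, 0, 0, 0, 0, ⟨0, 0⟩, 0⟩ 0 0))) (.void 22 ⟨100000, 0, 0, 0, 0, 0, 0, 0, 0, ⟨0, 0⟩, 0⟩ 0 0)) (.void 61 ⟨100000, 0, 0, 0, 0, 0, 0, 0, 0, ⟨0, 0⟩, 0⟩ 0 0)) (.void 70 ⟨100000, 0, 0, 0, 0, 0, 0, 0, 0, ⟨0, 0⟩, 0⟩ 0 0)) (.void 87 ⟨93236, 3331, 0, 3433, 0, 0, 0, 0, 0, ⟨0, 0⟩, 0⟩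 0 0))) (.cut .v 16777216 (.cut .v 8388608 (.cut .v 4194304 (.cut .v 2097152 (.void 6 ⟨0, 0, 25058, 0, 0, 0, 0, 0, 74942, ⟨0, 0⟩, 2804900⟩ 0 0) (.pos 7 .pm ⟨0, 0, 0, 0, 0, 0, 0, 0, 4280675, ⟨0, 0⟩, 7053950⟩ 0 0)) (.cut .d 5556092 (.pos 5 .pm ⟨0, 0, 0, 0, 0, 0, 0, 0, 0, ⟨0, 0⟩, 0⟩ 0 0) (.cut .d 8334138 (.pos 5 .pm ⟨0, 0, 0, 0, 0, 0, 0, 0, 0, ⟨0, 0⟩, 0⟩ 0 0) (.cut .d 9723161 (.cut .d 9028649 (.pos 5 .pm ⟨0, 0, 0, 0, 0, 0, 0, 0, 0, ⟨0, 0⟩, 0⟩ 0 0) (.pos 5 .pm ⟨0, 63503607, 0, 0, 0, 0, 0, 0, 0, ⟨0, 0⟩, 0⟩ 0 0)) (.pos 5 .pm ⟨0, 88793048, 0, 0, 0, 0, 0, 0, 0, ⟨0, 0⟩, 0⟩ 0 0))))) (.cut .d 5556092 (.pos 3 .pm ⟨0, 0, 0, 0, 0, 0, 0, 0, 0, ⟨0, 0⟩, 0⟩ 0 0) (.cut .d 8334138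 (.pos 3 .pm ⟨0, 0, 0, 0, 0, 0, 0, 0, 0, ⟨0, 0⟩, 0⟩ 0 0) (.cut .v 12582912 (.cut .d 9723161 (.cut .v 10485760 (.cut .s 10289152 (.pos 10 .pm ⟨0, 54347201, 0, 0, 0, 0, 0, 0, 0, ⟨0, 0⟩, 0⟩ 0 0) (.pos 10 .pm ⟨0, 69501211, 0, 0, 0, 0, 0, 0, 0, ⟨0, 0⟩, 0⟩ 0 0)) (.pos 11 .pm ⟨0, 70974220, 0, 0, 0, 0, 0, 0, 0, ⟨0, 0⟩, 0⟩ 0 0)) (.cut .s 10289152 (.pos 8 .pm ⟨0, 88758936, 0, 0, 0, 0, 0, 0, 0, ⟨0, 0⟩, 0⟩ 0 0) (.pos 8 .pm ⟨0, 113874840, 0, 0, 0, 0, 0, 0, 0, ⟨0, 0⟩, 0⟩ 0 0))) (.pos 9 .pm ⟨0, 104579513, 0, 0, 0, 0, 0, 0, 0, ⟨0, 0⟩, 0⟩ 0 0))))) (.cut .v 268435456 (.cut .d 5556092 (.cut .v 67108864 (.cut .d 2778046 (.cut .v 33554432 (.cut .d 1389023 (.cut .v 25165824 (.cut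 .v 20971520 (.pos 23 .pp ⟨74065151, 0, 0, 0, 0, 0, 0, 0, 0, ⟨0, 0⟩, 0⟩ 0 0) (.pos 24 .pp ⟨148077994, 0, 0, 0, 0, 0, 0, 0, 0, ⟨0, 0⟩, 0⟩ 0 0)) (.pos 22 .pp ⟨242273497, 0, 0, 0, 0, 0, 0, 0, 0, ⟨0, 0⟩, 0⟩ 0 0)) (.pos 20 .pp ⟨0, 0, 0, 0, 0, 0, 0, 0, 0, ⟨0, 0⟩, 0⟩ 0 0)) (.cut .d 1389023 (.cut .v 50331648 (.pos 64 .pp ⟨584303002, 0, 0, 0, 0, 0, 0, 0, 0, ⟨0, 0⟩, 0⟩ 0 0) (.void 65 ⟨100000, 0, 0, 0, 0, 0, 0, 0, 0, ⟨0, 0⟩, 0⟩ 0 0)) (.cut .v 50331648 (.pos 64 .pp ⟨219673193, 0, 0, 0, 0, 0, 0, 0, 0, ⟨0, 0⟩, 0⟩ 0 0) (.pos 65 .pp ⟨661337615, 0, 0, 0, 0, 0, 0, 0, 0, ⟨0, 0⟩, 0⟩ 0 0)))) (.pos 60 .pp ⟨0, 0, 0, 0, 0, 0, 0, 0, 0, ⟨0, 0⟩, 0⟩ 0 0)) (.cut .v 134217728 (.cut .d 2778046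 (.cut .v 100663296 (.cut .v 83886080 (.pos 79 .pp ⟨1618517707, 0, 0, 0, 0, 0, 0, 0, 0, ⟨0, 0⟩, 0⟩ 0 0) (.pos 80 .pp ⟨2863007454, 1409773509, 0, 0, 0, 0, 0, 0, 0, ⟨0, 0⟩, 0⟩ 0 0)) (.void 76 ⟨42490, 57510, 0, 0, 0, 0, 0, 0, 0, ⟨0, 0⟩, 0⟩ 0 0)) (.pos 73 .pp ⟨0, 348029310, 0, 0, 0, 0, 5178225, 0, 0, ⟨0, 0⟩, 0⟩ 0 0)) (.void 74 ⟨40700, 59300, 0, 0, 0, 0, 0, 0, 0, ⟨0, 0⟩, 0⟩ 0 0))) (.pos 69 .pp ⟨0, 84699593, 0, 0, 0, 0, 0, 0, 0, ⟨0, 0⟩, 0⟩ 0 0)) (.void 87 ⟨0, 0, 0, 100000, 0, 0, 0, 0, 0, ⟨0, 0⟩, 0⟩ 0 0)))),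
    by decide +kernel⟩

def covers14 : cell.Covers table row14.1 :=
  ⟨(.cut .d 0 (.cut .v 16777216 (.cut .d (-8388608) (.void 1 ⟨0, 0, 0, 0, 0, 100000, 0, 0, 0, ⟨0, 0⟩, 0⟩ 0 0) (.cut .d (-4194304) (.void 1 ⟨0, 0, 0, 0, 0, 100000, 0, 0, 0, ⟨0, 0⟩, 0⟩ 0 0) (.cut .d (-2097152) (.void 1 ⟨0, 0, 0, 0, 0, 100000, 0, 0, 0, ⟨0, 0⟩, 0⟩ 0 0) (.cut .d (-1048576) (.void 1 ⟨0, 0, 0, 0, 0, 100000, 0, 0, 0, ⟨0, 0⟩, 0⟩ 0 0) (.cut .d (-524288) (.void 1 ⟨0, 0, 0, 0, 0, 100000, 0, 0, 0, ⟨0, 0⟩, 0⟩ 0 0) (.cut .d (-262144) (.void 1 ⟨0, 0, 0, 0, 0, 100000, 0, 0, 0, ⟨0, 0⟩, 0⟩ 0 0) (.cut .v 8388608 (.cut .v 4194304 (.void 4 ⟨0, 0, 100000, 0, 0, 0, 0, 0, 0, ⟨0, 0⟩, 0⟩ 0 0) (.pos 5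 .mm ⟨0, 0, 0, 0, 0, 93867336, 0, 0, 0, ⟨0, 0⟩, 0⟩ 0 0)) (.cut .d (-131072) (.pos 3 .mm ⟨0, 0, 0, 0, 0, 242152804, 0, 0, 0, ⟨0, 0⟩, 0⟩ 0 0) (.cut .v 12582912 (.pos 8 .mm ⟨0, 0, 0, 0, 0, 134441400, 0, 0, 0, ⟨0, 0⟩, 0⟩ 0 0) (.cut .v 14680064 (.pos 12 .mm ⟨0, 0, 0, 0, 0, 172785445, 0, 0, 0, ⟨0, 0⟩, 0⟩ 0 0) (.cut .v 15728640 (.pos 14 .mm ⟨0, 0, 0, 0, 0, 191423008, 0, 0, 0, ⟨0, 0⟩, 0⟩ 0 0) (.cut .v 16252928 (.pos 16 .mm ⟨0, 0, 0, 0, 0, 201278309, 0, 0, 0, ⟨0, 0⟩, 0⟩ 0 0) (.cut .v 16515072 (.pos 18 .mm ⟨0, 0, 0, 0, 0, 206359918, 0, 0, 0, ⟨0, 0⟩, 0⟩ 0 0) (.cut .s 10682368 (.cut .s 10584064 (.pos 19 .mm ⟨0, 0, 0, 0, 0, 192387396, 0, 0, 0, ⟨0, 0⟩, 0⟩ 0 0) (.pos 19 .mm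 ⟨0, 0, 0, 0, 0, 203952121, 0, 0, 0, ⟨0, 0⟩, 0⟩ 0 0)) (.cut .s 10780672 (.pos 19 .mm ⟨0, 0, 0, 0, 0, 216116269, 0, 0, 0, ⟨0, 0⟩, 0⟩ 0 0) (.pos 19 .mm ⟨0, 0, 0, 0, 0, 228863688, 0, 0, 0, ⟨0, 0⟩, 0⟩ 0 0)))))))))))))))) (.cut .v 268435456 (.cut .v 67108864 (.cut .v 33554432 (.cut .v 25165824 (.cut .d (-8388608) (.void 21 ⟨0, 0, 0, 0, 0, 100000, 0, 0, 0, ⟨0, 0⟩, 0⟩ 0 0) (.cut .v 20971520 (.cut .d (-4194304) (.void 23 ⟨100000, 0, 0, 0, 0, 0, 0, 0, 0, ⟨0, 0⟩, 0⟩ 0 0) (.cut .d (-2097152) (.void 23 ⟨100000, 0, 0, 0, 0, 0, 0, 0, 0, ⟨0, 0⟩, 0⟩ 0 0) (.cut .d (-1048576) (.void 23 ⟨100000, 0, 0, 0, 0, 0, 0, 0, 0, ⟨0, 0⟩, 0⟩ 0 0) (.cut .d (-524288) (.void 23 ⟨100000, 0, 0,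 0, 0, 0, 0, 0, 0, ⟨0, 0⟩, 0⟩ 0 0) (.cut .d (-262144) (.void 23 ⟨0, 0, 0, 0, 0, 100000, 0, 0, 0, ⟨0, 0⟩, 0⟩ 0 0) (.cut .v 18874368 (.cut .v 17825792 (.cut .v 17301504 (.cut .d (-131072) (.cut .s 10682368 (.cut .v 17039360 (.cut .s 10584064 (.pos 31 .mp ⟨56114337, 0, 0, 0, 0, 133680877, 0, 0, 0, ⟨0, 0⟩, 0⟩ 0 0) (.pos 31 .mp ⟨58848908, 0, 0, 0, 0, 141876941, 0, 0, 0, ⟨0, 0⟩, 0⟩ 0 0)) (.pos 32 .mp ⟨171130090, 0, 0, 0, 0, 0, 0, 0, 0, ⟨0, 0⟩, 0⟩ 0 0)) (.void 29 ⟨0, 0, 0, 0, 0, 100000, 0, 0, 0, ⟨0, 0⟩, 0⟩ 0 0)) (.cut .s 10682368 (.cut .v 17039360 (.cut .d (-65536) (.cut .l 850045 (.cut .d (-98304) (.void 31 ⟨0, 0, 0, 0, 0, 100000, 0, 0, 0, ⟨0, 0⟩, 0⟩ 0 0) (.cut .d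 (-81920) (.void 31 ⟨0, 0, 0, 0, 0, 100000, 0, 0, 0, ⟨0, 0⟩, 0⟩ 0 0) (.cut .v 16908288 (.cut .s 10584064 (.pos 51 .mp ⟨52495853, 0, 0, 0, 0, 130875024, 0, 0, 0, ⟨0, 0⟩, 0⟩ 0 0) (.pos 51 .mp ⟨55340129, 0, 0, 0, 0, 137960408, 0, 0, 0, ⟨0, 0⟩, 0⟩ 0 0)) (.pos 52 .mp ⟨119885167, 0, 0, 0, 0, 43880414, 0, 0, 0, ⟨0, 0⟩, 0⟩ 0 0)))) (.cut .s 10584064 (.cut .v 16908288 (.pos 51 .mp ⟨0, 0, 0, 0, 0, 196093384, 0, 0, 0, ⟨0, 0⟩, 0⟩ 0 0) (.cut .s 10534912 (.cut .s 10510336 (.pos 52 .mp ⟨62420835, 0, 0, 0, 0, 109440141, 0, 0, 0, ⟨0, 0⟩, 0⟩ 0 0) (.pos 52 .mp ⟨63305506, 0, 0, 0, 0, 110807456, 0, 0, 0, ⟨0, 0⟩, 0⟩ 0 0)) (.cut .s 10559488 (.pos 52 .mp ⟨64197950, 0, 0, 0, 0, 112212540,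 0, 0, 0, ⟨0, 0⟩, 0⟩ 0 0) (.cut .s 10571776 (.pos 52 .mp ⟨63793075, 0, 0, 0, 0, 114929546, 0, 0, 0, ⟨0, 0⟩, 0⟩ 0 0) (.pos 52 .mp ⟨64075507, 0, 0, 0, 0, 115919785, 0, 0, 0, ⟨0, 0⟩, 0⟩ 0 0))))) (.cut .v 16908288 (.pos 51 .mp ⟨0, 0, 0, 0, 0, 207689657, 0, 0, 0, ⟨0, 0⟩, 0⟩ 0 0) (.cut .s 10633216 (.cut .d (-98304) (.cut .s 10608640 (.pos 52 .mp ⟨55552808, 0, 0, 0, 0, 132184499, 0, 0, 0, ⟨0, 0⟩, 0⟩ 0 0) (.pos 52 .mp ⟨56315100, 0, 0, 0, 0, 133956662, 0, 0, 0, ⟨0, 0⟩, 0⟩ 0 0)) (.pos 52 .mp ⟨62642026, 0, 0, 0, 0, 119391250, 0, 0, 0, ⟨0, 0⟩, 0⟩ 0 0)) (.cut .d (-98304) (.cut .s 10657792 (.pos 52 .mp ⟨57082450, 0, 0, 0, 0, 135777089, 0, 0, 0, ⟨0, 0⟩, 0⟩ 0 0) (.cut .s 10670080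 (.pos 52 .mp ⟨57854921, 0, 0, 0, 0, 136672697, 0, 0, 0, ⟨0, 0⟩, 0⟩ 0 0) (.pos 52 .mp ⟨58243098, 0, 0, 0, 0, 137620522, 0, 0, 0, ⟨0, 0⟩, 0⟩ 0 0))) (.pos 52 .mp ⟨64332586, 0, 0, 0, 0, 122605450, 0, 0, 0, ⟨0, 0⟩, 0⟩ 0 0)))))) (.cut .l 850045 (.cut .v 16908288 (.cut .s 10584064 (.cut .d (-32768) (.cut .s 10534912 (.cut .s 10510336 (.pos 51 .mp ⟨52391492, 0, 0, 0, 0, 121896081, 0, 0, 0, ⟨0, 0⟩, 0⟩ 0 0) (.pos 51 .mp ⟨52622742, 0, 0, 0, 0, 124222591, 0, 0, 0, ⟨0, 0⟩, 0⟩ 0 0)) (.cut .l 548055 (.cut .s 10559488 (.pos 51 .mp ⟨54597799, 0, 0, 0, 0, 124398183, 0, 0, 0, ⟨0, 0⟩, 0⟩ 0 0) (.pos 51 .mp ⟨55080619, 0, 0, 0, 0, 126478316, 0, 0, 0, ⟨0, 0⟩, 0⟩ 0 0)) (.pos 51 .mp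 ⟨50480137, 0, 0, 0, 0, 130043455, 0, 0, 0, ⟨0, 0⟩, 0⟩ 0 0))) (.cut .d (-16384) (.cut .l 548055 (.cut .v 16842752 (.cut .v 16809984 (.pos 83 .mp ⟨0, 0, 0, 0, 0, 190201479, 0, 0, 0, ⟨0, 0⟩, 0⟩ 0 0) (.cut .l 397060 (.cut .l 321562 (.cut .d (-24576) (.pos 84 .mp ⟨52152812, 0, 0, 0, 0, 128196453, 0, 0, 0, ⟨0, 0⟩, 0⟩ 0 0) (.cut .s 10534912 (.pos 84 .mp ⟨54142186, 0, 0, 0, 0, 116757900, 0, 0, 0, ⟨0, 0⟩, 0⟩ 0 0) (.cut .s 10559488 (.pos 84 .mp ⟨54821565, 0, 0, 0, 0, 119813988, 0, 0, 0, ⟨0, 0⟩, 0⟩ 0 0) (.pos 84 .mp ⟨55505404, 0, 0, 0, 0, 121534345, 0, 0, 0, ⟨0, 0⟩, 0⟩ 0 0)))) (.pos 84 .mp ⟨55836555, 0, 0, 0, 0, 115538487, 0, 0, 0, ⟨0, 0⟩, 0⟩ 0 0)) (.pos 84 .mp ⟨0, 0,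 0, 0, 0, 0, 0, 0, 0, ⟨0, 0⟩, 0⟩ 0 0))) (.pos 63 .mp ⟨138171655, 0, 0, 0, 0, 0, 0, 0, 0, ⟨0, 0⟩, 0⟩ 0 0)) (.pos 51 .mp ⟨0, 0, 0, 0, 0, 0, 0, 0, 0, ⟨0, 0⟩, 0⟩ 0 0)) (.pos 51 .mp ⟨54685819, 0, 0, 0, 0, 0, 0, 0, 0, ⟨0, 0⟩, 0⟩ 0 0))) (.cut .d (-32768) (.cut .s 10633216 (.cut .l 548055 (.cut .s 10608640 (.pos 51 .mp ⟨55602241, 0, 0, 0, 0, 128545245, 0, 0, 0, ⟨0, 0⟩, 0⟩ 0 0) (.pos 51 .mp ⟨56163983, 0, 0, 0, 0, 130596698, 0, 0, 0, ⟨0, 0⟩, 0⟩ 0 0)) (.pos 51 .mp ⟨51500831, 0, 0, 0, 0, 134115329, 0, 0, 0, ⟨0, 0⟩, 0⟩ 0 0)) (.cut .l 548055 (.cut .s 10657792 (.pos 51 .mp ⟨56767169, 0, 0, 0, 0, 132630379, 0, 0, 0, ⟨0, 0⟩, 0⟩ 0 0) (.pos 51 .mp ⟨57413134, 0, 0, 0, 0, 134643969,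 0, 0, 0, ⟨0, 0⟩, 0⟩ 0 0)) (.pos 51 .mp ⟨52682211, 0, 0, 0, 0, 138122647, 0, 0, 0, ⟨0, 0⟩, 0⟩ 0 0))) (.cut .d (-16384) (.cut .l 548055 (.cut .l 397060 (.cut .v 16842752 (.cut .v 16809984 (.pos 83 .mp ⟨0, 0, 0, 0, 0, 201334886, 0, 0, 0, ⟨0, 0⟩, 0⟩ 0 0) (.cut .s 10633216 (.cut .l 321562 (.cut .d (-24576) (.pos 84 .mp ⟨56407533, 0, 0, 0, 0, 128260043, 0, 0, 0, ⟨0, 0⟩, 0⟩ 0 0) (.cut .s 10608640 (.pos 84 .mp ⟨56193760, 0, 0, 0, 0, 123282521, 0, 0, 0, ⟨0, 0⟩, 0⟩ 0 0) (.cut .s 10620928 (.pos 84 .mp ⟨56539650, 0, 0, 0, 0, 124979182, 0, 0, 0, ⟨0, 0⟩, 0⟩ 0 0) (.pos 84 .mp ⟨56886690, 0, 0, 0, 0, 125885606, 0, 0, 0, ⟨0, 0⟩, 0⟩ 0 0)))) (.pos 84 .mp ⟨57240349, 0, 0, 0, 0,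 122478107, 0, 0, 0, ⟨0, 0⟩, 0⟩ 0 0)) (.cut .l 321562 (.cut .d (-24576) (.pos 84 .mp ⟨57413824, 0, 0, 0, 0, 132548177, 0, 0, 0, ⟨0, 0⟩, 0⟩ 0 0) (.cut .d (-20480) (.cut .s 10657792 (.pos 84 .mp ⟨56364288, 0, 0, 0, 0, 130732948, 0, 0, 0, ⟨0, 0⟩, 0⟩ 0 0) (.pos 84 .mp ⟨57051803, 0, 0, 0, 0, 132569425, 0, 0, 0, ⟨0, 0⟩, 0⟩ 0 0)) (.pos 84 .mp ⟨57743825, 0, 0, 0, 0, 0, 0, 0, 0, ⟨0, 0⟩, 0⟩ 0 0))) (.pos 84 .mp ⟨58663356, 0, 0, 0, 0, 126005799, 0, 0, 0, ⟨0, 0⟩, 0⟩ 0 0)))) (.pos 63 .mp ⟨147832468, 0, 0, 0, 0, 0, 0, 0, 0, ⟨0, 0⟩, 0⟩ 0 0)) (.pos 51 .mp ⟨58155594, 0, 0, 0, 0, 0, 0, 0, 0, ⟨0, 0⟩, 0⟩ 0 0)) (.pos 51 .mp ⟨0, 0, 0, 0, 0, 0, 0, 0, 0, ⟨0, 0⟩, 0⟩ 0 0)) (.pos 51 .mp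 ⟨57400172, 0, 0, 0, 0, 0, 0, 0, 0, ⟨0, 0⟩, 0⟩ 0 0)))) (.pos 52 .mp ⟨147192484, 0, 0, 0, 0, 0, 0, 0, 0, ⟨0, 0⟩, 0⟩ 0 0)) (.pos 31 .mp ⟨59080312, 0, 0, 0, 0, 0, 0, 0, 0, ⟨0, 0⟩, 0⟩ 0 0))) (.pos 32 .mp ⟨151146830, 0, 0, 0, 0, 0, 0, 0, 0, ⟨0, 0⟩, 0⟩ 0 0)) (.cut .v 17039360 (.cut .d (-65536) (.cut .l 850045 (.cut .s 10780672 (.cut .s 10731520 (.pos 31 .mp ⟨59080312, 0, 0, 0, 0, 142495971, 0, 0, 0, ⟨0, 0⟩, 0⟩ 0 0) (.pos 31 .mp ⟨60598792, 0, 0, 0, 0, 146650573, 0, 0, 0, ⟨0, 0⟩, 0⟩ 0 0)) (.pos 31 .mp ⟨62138561, 0, 0, 0, 0, 157088683, 0, 0, 0, ⟨0, 0⟩, 0⟩ 0 0)) (.cut .s 10780672 (.cut .v 16908288 (.pos 51 .mp ⟨0, 0, 0, 0, 0, 219889315, 0, 0, 0, ⟨0, 0⟩, 0⟩ 0 0) (.cut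 .s 10731520 (.cut .d (-98304) (.cut .s 10706944 (.pos 52 .mp ⟨58632579, 0, 0, 0, 0, 139563583, 0, 0, 0, ⟨0, 0⟩, 0⟩ 0 0) (.pos 52 .mp ⟨59415488, 0, 0, 0, 0, 141530072, 0, 0, 0, ⟨0, 0⟩, 0⟩ 0 0)) (.pos 52 .mp ⟨66050399, 0, 0, 0, 0, 125997571, 0, 0, 0, ⟨0, 0⟩, 0⟩ 0 0)) (.cut .d (-98304) (.cut .s 10756096 (.pos 52 .mp ⟨60203716, 0, 0, 0, 0, 143545669, 0, 0, 0, ⟨0, 0⟩, 0⟩ 0 0) (.pos 52 .mp ⟨60997331, 0, 0, 0, 0, 145610581, 0, 0, 0, ⟨0, 0⟩, 0⟩ 0 0)) (.pos 52 .mp ⟨67796135, 0, 0, 0, 0, 129568928, 0, 0, 0, ⟨0, 0⟩, 0⟩ 0 0)))) (.cut .v 16908288 (.pos 51 .mp ⟨0, 0, 0, 0, 0, 232676827, 0, 0, 0, ⟨0, 0⟩, 0⟩ 0 0) (.cut .s 10829824 (.cut .s 10805248 (.cut .d (-98304) (.pos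 52 .mp ⟨61796402, 0, 0, 0, 0, 147725014, 0, 0, 0, ⟨0, 0⟩, 0⟩ 0 0) (.pos 52 .mp ⟨68679691, 0, 0, 0, 0, 133870722, 0, 0, 0, ⟨0, 0⟩, 0⟩ 0 0)) (.pos 52 .mp ⟨74554815, 0, 0, 0, 0, 130141779, 0, 0, 0, ⟨0, 0⟩, 0⟩ 0 0)) (.cut .d (-98304) (.pos 52 .mp ⟨63411192, 0, 0, 0, 0, 154182941, 0, 0, 0, ⟨0, 0⟩, 0⟩ 0 0) (.pos 52 .mp ⟨71374178, 0, 0, 0, 0, 137254464, 0, 0, 0, ⟨0, 0⟩, 0⟩ 0 0)))))) (.cut .l 850045 (.cut .v 16908288 (.cut .s 10780672 (.cut .d (-32768) (.cut .s 10731520 (.cut .l 548055 (.cut .s 10706944 (.pos 51 .mp ⟨58103222, 0, 0, 0, 0, 136635124, 0, 0, 0, ⟨0, 0⟩, 0⟩ 0 0) (.pos 51 .mp ⟨58838783, 0, 0, 0, 0, 138601474, 0, 0, 0, ⟨0, 0⟩, 0⟩ 0 0)) (.pos 51 .mp ⟨54034775,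 0, 0, 0, 0, 142047173, 0, 0, 0, ⟨0, 0⟩, 0⟩ 0 0)) (.cut .l 548055 (.cut .s 10756096 (.pos 51 .mp ⟨59621181, 0, 0, 0, 0, 140540625, 0, 0, 0, ⟨0, 0⟩, 0⟩ 0 0) (.pos 51 .mp ⟨60451786, 0, 0, 0, 0, 142450156, 0, 0, 0, ⟨0, 0⟩, 0⟩ 0 0)) (.pos 51 .mp ⟨55569170, 0, 0, 0, 0, 145870269, 0, 0, 0, ⟨0, 0⟩, 0⟩ 0 0))) (.cut .d (-16384) (.cut .l 548055 (.cut .l 397060 (.cut .v 16842752 (.cut .v 16809984 (.pos 83 .mp ⟨0, 0, 0, 0, 0, 213051098, 0, 0, 0, ⟨0, 0⟩, 0⟩ 0 0) (.cut .s 10731520 (.cut .l 321562 (.cut .d (-24576) (.pos 84 .mp ⟨57577730, 0, 0, 0, 0, 138879191, 0, 0, 0, ⟨0, 0⟩, 0⟩ 0 0) (.cut .d (-20480) (.cut .s 10706944 (.pos 84 .mp ⟨57743825, 0, 0, 0, 0, 134432288, 0, 0,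 0, ⟨0, 0⟩, 0⟩ 0 0) (.pos 84 .mp ⟨58440411, 0, 0, 0, 0, 136321189, 0, 0, 0, ⟨0, 0⟩, 0⟩ 0 0)) (.pos 84 .mp ⟨59141620, 0, 0, 0, 0, 0, 0, 0, 0, ⟨0, 0⟩, 0⟩ 0 0))) (.pos 84 .mp ⟨56493406, 0, 0, 0, 0, 135182941, 0, 0, 0, ⟨0, 0⟩, 0⟩ 0 0)) (.cut .d (-24576) (.pos 84 .mp ⟨58252403, 0, 0, 0, 0, 142756025, 0, 0, 0, ⟨0, 0⟩, 0⟩ 0 0) (.cut .s 10756096 (.pos 84 .mp ⟨60421986, 0, 0, 0, 0, 134335389, 0, 0, 0, ⟨0, 0⟩, 0⟩ 0 0) (.pos 84 .mp ⟨61143598, 0, 0, 0, 0, 136268107, 0, 0, 0, ⟨0, 0⟩, 0⟩ 0 0))))) (.pos 63 .mp ⟨155116905, 0, 0, 0, 0, 0, 0, 0, 0, ⟨0, 0⟩, 0⟩ 0 0)) (.pos 51 .mp ⟨61037593, 0, 0, 0, 0, 0, 0, 0, 0, ⟨0, 0⟩, 0⟩ 0 0)) (.pos 51 .mp ⟨0, 0, 0, 0, 0, 0, 0, 0, 0, ⟨0, 0⟩,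 0⟩ 0 0)) (.pos 51 .mp ⟨60130757, 0, 0, 0, 0, 0, 0, 0, 0, ⟨0, 0⟩, 0⟩ 0 0))) (.cut .d (-32768) (.cut .s 10829824 (.cut .s 10805248 (.pos 51 .mp ⟨59229841, 0, 0, 0, 0, 147027423, 0, 0, 0, ⟨0, 0⟩, 0⟩ 0 0) (.pos 51 .mp ⟨60256510, 0, 0, 0, 0, 148753563, 0, 0, 0, ⟨0, 0⟩, 0⟩ 0 0)) (.cut .s 10854400 (.pos 51 .mp ⟨61363890, 0, 0, 0, 0, 150405554, 0, 0, 0, ⟨0, 0⟩, 0⟩ 0 0) (.pos 51 .mp ⟨62554289, 0, 0, 0, 0, 151979460, 0, 0, 0, ⟨0, 0⟩, 0⟩ 0 0))) (.cut .d (-16384) (.cut .l 548055 (.cut .v 16842752 (.cut .s 10829824 (.cut .s 10805248 (.pos 62 .mp ⟨59762072, 0, 0, 0, 0, 142981509, 0, 0, 0, ⟨0, 0⟩, 0⟩ 0 0) (.pos 62 .mp ⟨60462967, 0, 0, 0, 0, 145053326, 0, 0, 0, ⟨0, 0⟩, 0⟩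 0 0)) (.pos 62 .mp ⟨60857969, 0, 0, 0, 0, 149633640, 0, 0, 0, ⟨0, 0⟩, 0⟩ 0 0)) (.pos 63 .mp ⟨159827593, 0, 0, 0, 0, 0, 0, 0, 0, ⟨0, 0⟩, 0⟩ 0 0)) (.pos 51 .mp ⟨0, 0, 0, 0, 0, 0, 0, 0, 0, ⟨0, 0⟩, 0⟩ 0 0)) (.pos 51 .mp ⟨62727753, 0, 0, 0, 0, 0, 0, 0, 0, ⟨0, 0⟩, 0⟩ 0 0)))) (.pos 52 .mp ⟨162251383, 0, 0, 0, 0, 0, 0, 0, 0, ⟨0, 0⟩, 0⟩ 0 0)) (.pos 31 .mp ⟨65284175, 0, 0, 0, 0, 0, 0, 0, 0, ⟨0, 0⟩, 0⟩ 0 0))) (.pos 32 .mp ⟨166544194, 0, 0, 0, 0, 0, 0, 0, 0, ⟨0, 0⟩, 0⟩ 0 0)))) (.pos 30 .mp ⟨175711501, 0, 0, 0, 0, 0, 0, 0, 0, ⟨0, 0⟩, 0⟩ 0 0)) (.pos 28 .mp ⟨187218888, 0, 0, 0, 0, 0, 0, 0, 0, ⟨0, 0⟩, 0⟩ 0 0)) (.void 26 ⟨100000, 0, 0, 0, 0, 0, 0, 0, 0, ⟨0, 0⟩, 0⟩ 0 0)))))))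 (.void 24 ⟨100000, 0, 0, 0, 0, 0, 0, 0, 0, ⟨0, 0⟩, 0⟩ 0 0))) (.void 22 ⟨100000, 0, 0, 0, 0, 0, 0, 0, 0, ⟨0, 0⟩, 0⟩ 0 0)) (.void 61 ⟨100000, 0, 0, 0, 0, 0, 0, 0, 0, ⟨0, 0⟩, 0⟩ 0 0)) (.void 70 ⟨100000, 0, 0, 0, 0, 0, 0, 0, 0, ⟨0, 0⟩, 0⟩ 0 0)) (.void 87 ⟨96114, 0, 0, 3886, 0, 0, 0, 0, 0, ⟨0, 0⟩, 0⟩ 0 0))) (.cut .v 16777216 (.cut .v 8388608 (.cut .v 4194304 (.cut .v 2097152 (.pos 6 .pm ⟨0, 0, 36719209, 0, 0, 0, 0, 0, 77442979, ⟨0, 0⟩, 2804900⟩ 0 0) (.pos 7 .pm ⟨0, 7170308, 0, 0, 0, 0, 0, 0, 0, ⟨0, 0⟩, 0⟩ 0 0)) (.cut .d 5033166 (.pos 5 .pm ⟨0, 0, 0, 0, 0, 0, 0, 0, 0, ⟨0, 0⟩, 0⟩ 0 0) (.cut .d 7549749 (.pos 5 .pm ⟨0, 0, 0, 0, 0, 0, 0, 0, 0, ⟨0, 0⟩, 0⟩ 0 0) (.cut .d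 8808040 (.cut .d 8178894 (.pos 5 .pm ⟨0, 0, 0, 0, 0, 0, 0, 0, 0, ⟨0, 0⟩, 0⟩ 0 0) (.cut .s 10682368 (.pos 5 .pm ⟨0, 0, 0, 0, 0, 0, 0, 0, 0, ⟨0, 0⟩, 0⟩ 0 0) (.cut .d 8493467 (.pos 5 .pm ⟨0, 33264550, 0, 0, 0, 0, 0, 0, 0, ⟨0, 0⟩, 0⟩ 0 0) (.pos 5 .pm ⟨0, 84091168, 0, 0, 0, 0, 0, 0, 0, ⟨0, 0⟩, 0⟩ 0 0)))) (.cut .d 9437186 (.cut .s 10682368 (.pos 5 .pm ⟨0, 81276668, 0, 0, 0, 0, 0, 0, 0, ⟨0, 0⟩, 0⟩ 0 0) (.pos 5 .pm ⟨0, 104669819, 0, 0, 0, 0, 0, 0, 0, ⟨0, 0⟩, 0⟩ 0 0)) (.pos 5 .pm ⟨0, 220482619, 0, 0, 0, 0, 0, 0, 0, ⟨0, 0⟩, 0⟩ 0 0)))))) (.cut .d 5033166 (.pos 3 .pm ⟨0, 0, 0, 0, 0, 0, 0, 0, 0, ⟨0, 0⟩, 0⟩ 0 0) (.cut .d 7549749 (.pos 3 .pm ⟨0, 0, 0, 0, 0, 0, 0, 0, 0, ⟨0,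 0⟩, 0⟩ 0 0) (.cut .v 12582912 (.cut .d 8808040 (.cut .s 10682368 (.pos 8 .pm ⟨0, 63861246, 0, 0, 0, 0, 0, 0, 0, ⟨0, 0⟩, 0⟩ 0 0) (.cut .d 8178894 (.pos 8 .pm ⟨0, 0, 0, 0, 0, 0, 0, 0, 0, ⟨0, 0⟩, 0⟩ 0 0) (.pos 8 .pm ⟨0, 92277977, 0, 0, 0, 0, 0, 0, 0, ⟨0, 0⟩, 0⟩ 0 0))) (.cut .s 10682368 (.cut .d 9437186 (.pos 8 .pm ⟨0, 94232705, 0, 0, 0, 0, 0, 0, 0, ⟨0, 0⟩, 0⟩ 0 0) (.void 8 ⟨0, 100000, 0, 0, 0, 0, 0, 0, 0, ⟨0, 0⟩, 0⟩ 0 0)) (.pos 8 .pm ⟨0, 132108548, 0, 0, 0, 0, 0, 0, 0, ⟨0, 0⟩, 0⟩ 0 0))) (.pos 9 .pm ⟨0, 127974595, 0, 0, 0, 0, 0, 0, 0, ⟨0, 0⟩, 0⟩ 0 0))))) (.cut .v 268435456 (.cut .d 5033166 (.cut .v 67108864 (.cut .d 2516583 (.cut .v 33554432 (.cut .d 1258291 (.cut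 .v 25165824 (.cut .v 20971520 (.pos 23 .pp ⟨91322503, 0, 0, 0, 0, 0, 0, 0, 0, ⟨0, 0⟩, 0⟩ 0 0) (.pos 24 .pp ⟨181507943, 0, 0, 0, 0, 0, 0, 0, 0, ⟨0, 0⟩, 0⟩ 0 0)) (.pos 22 .pp ⟨295314077, 0, 0, 0, 0, 0, 0, 0, 0, ⟨0, 0⟩, 0⟩ 0 0)) (.pos 20 .pp ⟨0, 0, 0, 0, 0, 0, 0, 0, 0, ⟨0, 0⟩, 0⟩ 0 0)) (.cut .d 1258291 (.cut .v 50331648 (.pos 64 .pp ⟨703005423, 0, 0, 0, 0, 0, 0, 0, 0, ⟨0, 0⟩, 0⟩ 0 0) (.void 65 ⟨100000, 0, 0, 0, 0, 0, 0, 0, 0, ⟨0, 0⟩, 0⟩ 0 0)) (.cut .v 50331648 (.pos 64 .pp ⟨289234520, 0, 0, 0, 0, 0, 0, 0, 0, ⟨0, 0⟩, 0⟩ 0 0) (.pos 65 .pp ⟨797368219, 0, 0, 0, 0, 0, 0, 0, 0, ⟨0, 0⟩, 0⟩ 0 0)))) (.pos 60 .pp ⟨0, 0, 0, 0, 0, 0, 0, 0, 0, ⟨0, 0⟩, 0⟩ 0 0)) (.cut .v 134217728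 (.cut .d 2516583 (.cut .v 100663296 (.cut .v 83886080 (.pos 79 .pp ⟨1910265648, 0, 0, 0, 0, 0, 0, 0, 0, ⟨0, 0⟩, 0⟩ 0 0) (.pos 80 .pp ⟨3381666636, 1730349592, 0, 0, 0, 0, 0, 0, 0, ⟨0, 0⟩, 0⟩ 0 0)) (.void 76 ⟨41769, 58231, 0, 0, 0, 0, 0, 0, 0, ⟨0, 0⟩, 0⟩ 0 0)) (.pos 73 .pp ⟨0, 435229203, 0, 0, 0, 0, 4389091, 0, 0, ⟨0, 0⟩, 0⟩ 0 0)) (.void 74 ⟨40138, 59862, 0, 0, 0, 0, 0, 0, 0, ⟨0, 0⟩, 0⟩ 0 0))) (.pos 69 .pp ⟨0, 102406201, 0, 0, 0, 0, 0, 0, 0, ⟨0, 0⟩, 0⟩ 0 0)) (.void 87 ⟨0, 0, 0, 100000, 0, 0, 0, 0, 0, ⟨0, 0⟩, 0⟩ 0 0)))),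
    by decide +kernel⟩

def covers15 : cell.Covers table row15.1 :=
  ⟨(.cut .d 0 (.cut .v 16777216 (.cut .d (-8388608) (.void 1 ⟨0, 0, 0, 0, 0, 100000, 0, 0, 0, ⟨0, 0⟩, 0⟩ 0 0) (.cut .d (-4194304) (.void 1 ⟨0, 0, 0, 0, 0, 100000, 0, 0, 0, ⟨0, 0⟩, 0⟩ 0 0) (.cut .d (-2097152) (.void 1 ⟨0, 0, 0, 0, 0, 100000, 0, 0, 0, ⟨0, 0⟩, 0⟩ 0 0) (.cut .d (-1048576) (.void 1 ⟨0, 0, 0, 0, 0, 100000, 0, 0, 0, ⟨0, 0⟩, 0⟩ 0 0) (.cut .d (-524288) (.void 1 ⟨0, 0, 0, 0, 0, 100000, 0, 0, 0, ⟨0, 0⟩, 0⟩ 0 0) (.cut .d (-262144) (.void 1 ⟨0, 0, 0, 0, 0, 100000, 0, 0, 0, ⟨0, 0⟩, 0⟩ 0 0) (.cut .d (-131072) (.void 1 ⟨0, 0, 0, 0, 0, 100000, 0, 0, 0, ⟨0, 0⟩, 0⟩ 0 0) (.cut .v 8388608 (.cut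 .v 4194304 (.void 4 ⟨0, 0, 100000, 0, 0, 0, 0, 0, 0, ⟨0, 0⟩, 0⟩ 0 0) (.pos 5 .mm ⟨0, 0, 0, 0, 0, 122143693, 0, 0, 0, ⟨0, 0⟩, 0⟩ 0 0)) (.cut .v 12582912 (.pos 8 .mm ⟨0, 0, 0, 0, 0, 180736240, 0, 0, 0, ⟨0, 0⟩, 0⟩ 0 0) (.cut .v 14680064 (.pos 12 .mm ⟨0, 0, 0, 0, 0, 223951860, 0, 0, 0, ⟨0, 0⟩, 0⟩ 0 0) (.cut .v 15728640 (.pos 14 .mm ⟨0, 0, 0, 0, 0, 247255629, 0, 0, 0, ⟨0, 0⟩, 0⟩ 0 0) (.cut .v 16252928 (.pos 16 .mm ⟨0, 0, 0, 0, 0, 259655746, 0, 0, 0, ⟨0, 0⟩, 0⟩ 0 0) (.cut .s 11108352 (.cut .s 10993664 (.pos 17 .mm ⟨0, 0, 0, 0, 0, 244699731, 0, 0, 0, ⟨0, 0⟩, 0⟩ 0 0) (.pos 17 .mm ⟨0, 0, 0, 0, 0, 261347276, 0, 0, 0, ⟨0, 0⟩, 0⟩ 0 0)) (.cut .s 11223040 (.pos 17 .mm ⟨0,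 0, 0, 0, 0, 278991933, 0, 0, 0, ⟨0, 0⟩, 0⟩ 0 0) (.pos 17 .mm ⟨0, 0, 0, 0, 0, 297603639, 0, 0, 0, ⟨0, 0⟩, 0⟩ 0 0))))))))))))))) (.cut .v 268435456 (.cut .v 67108864 (.cut .v 33554432 (.cut .v 25165824 (.cut .d (-8388608) (.void 21 ⟨0, 0, 0, 0, 0, 100000, 0, 0, 0, ⟨0, 0⟩, 0⟩ 0 0) (.cut .d (-4194304) (.void 21 ⟨100000, 0, 0, 0, 0, 0, 0, 0, 0, ⟨0, 0⟩, 0⟩ 0 0) (.cut .v 20971520 (.cut .d (-2097152) (.void 23 ⟨100000, 0, 0, 0, 0, 0, 0, 0, 0, ⟨0, 0⟩, 0⟩ 0 0) (.cut .d (-1048576) (.void 23 ⟨100000, 0, 0, 0, 0, 0, 0, 0, 0, ⟨0, 0⟩, 0⟩ 0 0) (.cut .d (-524288) (.void 23 ⟨100000, 0, 0, 0, 0, 0, 0, 0, 0, ⟨0, 0⟩, 0⟩ 0 0) (.cut .d (-262144) (.void 23 ⟨100000, 0, 0, 0, 0, 0,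 0, 0, 0, ⟨0, 0⟩, 0⟩ 0 0) (.cut .d (-131072) (.void 23 ⟨0, 0, 0, 0, 0, 100000, 0, 0, 0, ⟨0, 0⟩, 0⟩ 0 0) (.cut .v 18874368 (.cut .v 17825792 (.cut .v 17301504 (.cut .s 11108352 (.cut .v 17039360 (.cut .d (-65536) (.cut .l 850045 (.cut .s 10993664 (.pos 31 .mp ⟨67003407, 0, 0, 0, 0, 166919344, 0, 0, 0, ⟨0, 0⟩, 0⟩ 0 0) (.pos 31 .mp ⟨69760124, 0, 0, 0, 0, 179764276, 0, 0, 0, ⟨0, 0⟩, 0⟩ 0 0)) (.cut .s 10993664 (.cut .v 16908288 (.pos 51 .mp ⟨0, 0, 0, 0, 0, 251208041, 0, 0, 0, ⟨0, 0⟩, 0⟩ 0 0) (.cut .d (-98304) (.cut .s 10936320 (.pos 52 .mp ⟨65055398, 0, 0, 0, 0, 160940384, 0, 0, 0, ⟨0, 0⟩, 0⟩ 0 0) (.cut .s 10964992 (.pos 52 .mp ⟨67092204, 0, 0, 0, 0, 162468069, 0,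 0, 0, ⟨0, 0⟩, 0⟩ 0 0) (.pos 52 .mp ⟨68120240, 0, 0, 0, 0, 164962320, 0, 0, 0, ⟨0, 0⟩, 0⟩ 0 0))) (.cut .s 10936320 (.pos 52 .mp ⟨73579117, 0, 0, 0, 0, 142513090, 0, 0, 0, ⟨0, 0⟩, 0⟩ 0 0) (.cut .s 10964992 (.pos 52 .mp ⟨74691960, 0, 0, 0, 0, 146530025, 0, 0, 0, ⟨0, 0⟩, 0⟩ 0 0) (.pos 52 .mp ⟨75813963, 0, 0, 0, 0, 148639410, 0, 0, 0, ⟨0, 0⟩, 0⟩ 0 0))))) (.cut .v 16908288 (.pos 51 .mp ⟨0, 0, 0, 0, 0, 267327688, 0, 0, 0, ⟨0, 0⟩, 0⟩ 0 0) (.cut .d (-98304) (.cut .d (-114688) (.pos 52 .mp ⟨71962964, 0, 0, 0, 0, 178232288, 0, 0, 0, ⟨0, 0⟩, 0⟩ 0 0) (.cut .l 1152035 (.void 52 ⟨0, 0, 0, 0, 0, 100000, 0, 0, 0, ⟨0, 0⟩, 0⟩ 0 0) (.cut .s 11051008 (.cut .s 11022336 (.pos 52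 .mp ⟨69154842, 0, 0, 0, 0, 166192435, 0, 0, 0, ⟨0, 0⟩, 0⟩ 0 0) (.pos 52 .mp ⟨70196119, 0, 0, 0, 0, 168658125, 0, 0, 0, ⟨0, 0⟩, 0⟩ 0 0)) (.cut .s 11079680 (.pos 52 .mp ⟨71244181, 0, 0, 0, 0, 171209097, 0, 0, 0, ⟨0, 0⟩, 0⟩ 0 0) (.pos 52 .mp ⟨72299144, 0, 0, 0, 0, 173845804, 0, 0, 0, ⟨0, 0⟩, 0⟩ 0 0))))) (.cut .v 16973824 (.cut .s 11051008 (.cut .s 11022336 (.pos 71 .mp ⟨76409565, 0, 0, 0, 0, 151599383, 0, 0, 0, ⟨0, 0⟩, 0⟩ 0 0) (.pos 71 .mp ⟨77540850, 0, 0, 0, 0, 153884109, 0, 0, 0, ⟨0, 0⟩, 0⟩ 0 0)) (.cut .s 11079680 (.pos 71 .mp ⟨78681643, 0, 0, 0, 0, 156249678, 0, 0, 0, ⟨0, 0⟩, 0⟩ 0 0) (.pos 71 .mp ⟨79832094, 0, 0, 0, 0, 158696471, 0, 0, 0, ⟨0, 0⟩, 0⟩ 0 0)))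 (.pos 72 .mp ⟨182377129, 0, 0, 0, 0, 0, 0, 0, 0, ⟨0, 0⟩, 0⟩ 0 0)))))) (.cut .l 850045 (.cut .v 16908288 (.cut .s 10993664 (.cut .d (-32768) (.cut .s 10936320 (.cut .s 10907648 (.pos 51 .mp ⟨63623157, 0, 0, 0, 0, 154292946, 0, 0, 0, ⟨0, 0⟩, 0⟩ 0 0) (.pos 51 .mp ⟨63626588, 0, 0, 0, 0, 158021652, 0, 0, 0, ⟨0, 0⟩, 0⟩ 0 0)) (.cut .s 10964992 (.pos 51 .mp ⟨63731091, 0, 0, 0, 0, 161683876, 0, 0, 0, ⟨0, 0⟩, 0⟩ 0 0) (.cut .s 10979328 (.pos 51 .mp ⟨66307415, 0, 0, 0, 0, 160245114, 0, 0, 0, ⟨0, 0⟩, 0⟩ 0 0) (.pos 51 .mp ⟨66474594, 0, 0, 0, 0, 161961746, 0, 0, 0, ⟨0, 0⟩, 0⟩ 0 0)))) (.cut .d (-16384) (.cut .l 548055 (.cut .l 397060 (.cut .v 16842752 (.cut .v 16809984 (.pos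 83 .mp ⟨0, 0, 0, 0, 0, 243661216, 0, 0, 0, ⟨0, 0⟩, 0⟩ 0 0) (.cut .s 10936320 (.cut .s 10907648 (.pos 84 .mp ⟨62822676, 0, 0, 0, 0, 152528152, 0, 0, 0, ⟨0, 0⟩, 0⟩ 0 0) (.pos 84 .mp ⟨63675380, 0, 0, 0, 0, 155056517, 0, 0, 0, ⟨0, 0⟩, 0⟩ 0 0)) (.cut .s 10964992 (.pos 84 .mp ⟨64532728, 0, 0, 0, 0, 157636933, 0, 0, 0, ⟨0, 0⟩, 0⟩ 0 0) (.cut .s 10979328 (.pos 84 .mp ⟨65394802, 0, 0, 0, 0, 158519596, 0, 0, 0, ⟨0, 0⟩, 0⟩ 0 0) (.pos 84 .mp ⟨65827637, 0, 0, 0, 0, 159851900, 0, 0, 0, ⟨0, 0⟩, 0⟩ 0 0))))) (.pos 63 .mp ⟨179928547, 0, 0, 0, 0, 0, 0, 0, 0, ⟨0, 0⟩, 0⟩ 0 0)) (.pos 51 .mp ⟨67609029, 0, 0, 0, 0, 143205461, 0, 0, 0, ⟨0, 0⟩, 0⟩ 0 0)) (.pos 51 .mp ⟨0, 0, 0, 0, 0, 0,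 0, 0, 0, ⟨0, 0⟩, 0⟩ 0 0)) (.pos 51 .mp ⟨66503967, 0, 0, 0, 0, 0, 0, 0, 0, ⟨0, 0⟩, 0⟩ 0 0))) (.cut .d (-32768) (.cut .s 11051008 (.cut .l 548055 (.cut .s 11022336 (.pos 51 .mp ⟨65955888, 0, 0, 0, 0, 168009112, 0, 0, 0, ⟨0, 0⟩, 0⟩ 0 0) (.pos 51 .mp ⟨66848595, 0, 0, 0, 0, 170600743, 0, 0, 0, ⟨0, 0⟩, 0⟩ 0 0)) (.cut .s 11022336 (.pos 51 .mp ⟨63288733, 0, 0, 0, 0, 169075754, 0, 0, 0, ⟨0, 0⟩, 0⟩ 0 0) (.pos 51 .mp ⟨63934178, 0, 0, 0, 0, 172157522, 0, 0, 0, ⟨0, 0⟩, 0⟩ 0 0))) (.cut .l 548055 (.cut .s 11079680 (.pos 51 .mp ⟨67746329, 0, 0, 0, 0, 173304717, 0, 0, 0, ⟨0, 0⟩, 0⟩ 0 0) (.pos 51 .mp ⟨68649180, 0, 0, 0, 0, 176122959, 0, 0, 0, ⟨0, 0⟩, 0⟩ 0 0)) (.cut .s 11079680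 (.pos 51 .mp ⟨64655399, 0, 0, 0, 0, 175198196, 0, 0, 0, ⟨0, 0⟩, 0⟩ 0 0) (.pos 51 .mp ⟨65455147, 0, 0, 0, 0, 178192887, 0, 0, 0, ⟨0, 0⟩, 0⟩ 0 0)))) (.cut .d (-16384) (.cut .l 548055 (.cut .l 397060 (.cut .v 16842752 (.cut .v 16809984 (.pos 83 .mp ⟨0, 0, 0, 0, 0, 259615237, 0, 0, 0, ⟨0, 0⟩, 0⟩ 0 0) (.cut .s 11051008 (.cut .d (-24576) (.pos 84 .mp ⟨65986042, 0, 0, 0, 0, 168348007, 0, 0, 0, ⟨0, 0⟩, 0⟩ 0 0) (.cut .l 321562 (.cut .v 16826368 (.cut .v 16818176 (.pos 94 .mp ⟨0, 0, 0, 0, 0, 251574881, 0, 0, 0, ⟨0, 0⟩, 0⟩ 0 0) (.cut .l 283813 (.cut .d (-20480) (.pos 95 .mp ⟨66476319, 0, 0, 0, 0, 168014840, 0, 0, 0, ⟨0, 0⟩, 0⟩ 0 0) (.cut .s 11022336 (.pos 95 .mp ⟨67775718,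 0, 0, 0, 0, 158467351, 0, 0, 0, ⟨0, 0⟩, 0⟩ 0 0) (.pos 95 .mp ⟨68666981, 0, 0, 0, 0, 161009292, 0, 0, 0, ⟨0, 0⟩, 0⟩ 0 0))) (.pos 95 .mp ⟨65788095, 0, 0, 0, 0, 162490023, 0, 0, 0, ⟨0, 0⟩, 0⟩ 0 0))) (.pos 89 .mp ⟨122388005, 0, 0, 0, 0, 85392088, 0, 0, 0, ⟨0, 0⟩, 0⟩ 0 0)) (.pos 84 .mp ⟨68599982, 0, 0, 0, 0, 0, 0, 0, 0, ⟨0, 0⟩, 0⟩ 0 0))) (.cut .s 11079680 (.cut .d (-24576) (.pos 84 .mp ⟨67751201, 0, 0, 0, 0, 171552808, 0, 0, 0, ⟨0, 0⟩, 0⟩ 0 0) (.cut .d (-20480) (.pos 84 .mp ⟨69821240, 0, 0, 0, 0, 166215651, 0, 0, 0, ⟨0, 0⟩, 0⟩ 0 0) (.cut .s 11065344 (.pos 84 .mp ⟨69177977, 0, 0, 0, 0, 163034517, 0, 0, 0, ⟨0, 0⟩, 0⟩ 0 0) (.pos 84 .mp ⟨69627525, 0, 0, 0, 0, 164381005,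 0, 0, 0, ⟨0, 0⟩, 0⟩ 0 0)))) (.cut .d (-24576) (.pos 84 .mp ⟨68641342, 0, 0, 0, 0, 174333564, 0, 0, 0, ⟨0, 0⟩, 0⟩ 0 0) (.cut .d (-20480) (.pos 84 .mp ⟨70901586, 0, 0, 0, 0, 168655260, 0, 0, 0, ⟨0, 0⟩, 0⟩ 0 0) (.cut .s 11094016 (.pos 84 .mp ⟨70078446, 0, 0, 0, 0, 165739379, 0, 0, 0, ⟨0, 0⟩, 0⟩ 0 0) (.pos 84 .mp ⟨70530752, 0, 0, 0, 0, 167109559, 0, 0, 0, ⟨0, 0⟩, 0⟩ 0 0))))))) (.pos 63 .mp ⟨189361164, 0, 0, 0, 0, 0, 0, 0, 0, ⟨0, 0⟩, 0⟩ 0 0)) (.pos 51 .mp ⟨71303230, 0, 0, 0, 0, 152267853, 0, 0, 0, ⟨0, 0⟩, 0⟩ 0 0)) (.pos 51 .mp ⟨0, 0, 0, 0, 0, 0, 0, 0, 0, ⟨0, 0⟩, 0⟩ 0 0)) (.pos 51 .mp ⟨70038388, 0, 0, 0, 0, 0, 0, 0, 0, ⟨0, 0⟩, 0⟩ 0 0)))) (.cut .s 10993664 (.pos 52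 .mp ⟨174325904, 0, 0, 0, 0, 0, 0, 0, 0, ⟨0, 0⟩, 0⟩ 0 0) (.pos 52 .mp ⟨184132129, 0, 0, 0, 0, 0, 0, 0, 0, ⟨0, 0⟩, 0⟩ 0 0))) (.pos 31 .mp ⟨73174747, 0, 0, 0, 0, 0, 0, 0, 0, ⟨0, 0⟩, 0⟩ 0 0))) (.pos 32 .mp ⟨186792369, 0, 0, 0, 0, 0, 0, 0, 0, ⟨0, 0⟩, 0⟩ 0 0)) (.cut .v 17039360 (.cut .d (-65536) (.cut .l 850045 (.pos 31 .mp ⟨73174747, 0, 0, 0, 0, 210667534, 0, 0, 0, ⟨0, 0⟩, 0⟩ 0 0) (.cut .s 11223040 (.cut .v 16908288 (.pos 51 .mp ⟨0, 0, 0, 0, 0, 284879123, 0, 0, 0, ⟨0, 0⟩, 0⟩ 0 0) (.cut .d (-98304) (.cut .d (-114688) (.void 52 ⟨0, 0, 0, 0, 0, 100000, 0, 0, 0, ⟨0, 0⟩, 0⟩ 0 0) (.cut .l 1152035 (.void 52 ⟨0, 0, 0, 0, 0, 100000, 0, 0, 0, ⟨0, 0⟩, 0⟩ 0 0) (.cut .s 11165696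 (.cut .s 11137024 (.pos 52 .mp ⟨73361122, 0, 0, 0, 0, 176568695, 0, 0, 0, ⟨0, 0⟩, 0⟩ 0 0) (.pos 52 .mp ⟨74430235, 0, 0, 0, 0, 179378219, 0, 0, 0, ⟨0, 0⟩, 0⟩ 0 0)) (.pos 52 .mp ⟨75506602, 0, 0, 0, 0, 184809612, 0, 0, 0, ⟨0, 0⟩, 0⟩ 0 0)))) (.cut .v 16973824 (.cut .s 11165696 (.cut .s 11137024 (.pos 71 .mp ⟨80992355, 0, 0, 0, 0, 161224865, 0, 0, 0, ⟨0, 0⟩, 0⟩ 0 0) (.pos 71 .mp ⟨82162583, 0, 0, 0, 0, 163835234, 0, 0, 0, ⟨0, 0⟩, 0⟩ 0 0)) (.cut .s 11194368 (.pos 71 .mp ⟨83342938, 0, 0, 0, 0, 166527946, 0, 0, 0, ⟨0, 0⟩, 0⟩ 0 0) (.pos 71 .mp ⟨84533582, 0, 0, 0, 0, 169303366, 0, 0, 0, ⟨0, 0⟩, 0⟩ 0 0))) (.pos 72 .mp ⟨192319988, 0, 0, 0, 0, 0, 0, 0, 0, ⟨0, 0⟩, 0⟩ 0 0))))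 (.cut .v 16908288 (.pos 51 .mp ⟨0, 0, 0, 0, 0, 303876349, 0, 0, 0, ⟨0, 0⟩, 0⟩ 0 0) (.cut .d (-98304) (.cut .s 11280384 (.pos 52 .mp ⟨77681597, 0, 0, 0, 0, 193355949, 0, 0, 0, ⟨0, 0⟩, 0⟩ 0 0) (.pos 52 .mp ⟨79887122, 0, 0, 0, 0, 199986773, 0, 0, 0, ⟨0, 0⟩, 0⟩ 0 0)) (.cut .s 11280384 (.cut .s 11251712 (.pos 52 .mp ⟨86348656, 0, 0, 0, 0, 171264597, 0, 0, 0, ⟨0, 0⟩, 0⟩ 0 0) (.pos 52 .mp ⟨87570590, 0, 0, 0, 0, 174189813, 0, 0, 0, ⟨0, 0⟩, 0⟩ 0 0)) (.pos 52 .mp ⟨90047328, 0, 0, 0, 0, 176959958, 0, 0, 0, ⟨0, 0⟩, 0⟩ 0 0)))))) (.cut .l 850045 (.cut .s 11223040 (.cut .v 16908288 (.cut .d (-32768) (.cut .s 11165696 (.cut .v 16842752 (.pos 62 .mp ⟨0, 0, 0, 0, 0, 284763037,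 0, 0, 0, ⟨0, 0⟩, 0⟩ 0 0) (.cut .s 11137024 (.cut .s 11122688 (.pos 63 .mp ⟨70921472, 0, 0, 0, 0, 174211367, 0, 0, 0, ⟨0, 0⟩, 0⟩ 0 0) (.pos 63 .mp ⟨71412657, 0, 0, 0, 0, 175646234, 0, 0, 0, ⟨0, 0⟩, 0⟩ 0 0)) (.cut .s 11151360 (.pos 63 .mp ⟨71951581, 0, 0, 0, 0, 177031602, 0, 0, 0, ⟨0, 0⟩, 0⟩ 0 0) (.pos 63 .mp ⟨72539121, 0, 0, 0, 0, 178366002, 0, 0, 0, ⟨0, 0⟩, 0⟩ 0 0)))) (.cut .l 548055 (.pos 51 .mp ⟨71389335, 0, 0, 0, 0, 188311655, 0, 0, 0, ⟨0, 0⟩, 0⟩ 0 0) (.cut .s 11194368 (.pos 51 .mp ⟨68353475, 0, 0, 0, 0, 186851111, 0, 0, 0, ⟨0, 0⟩, 0⟩ 0 0) (.pos 51 .mp ⟨69495408, 0, 0, 0, 0, 189611547, 0, 0, 0, ⟨0, 0⟩, 0⟩ 0 0)))) (.cut .d (-16384) (.cut .l 548055 (.cut .l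 397060 (.cut .v 16842752 (.cut .v 16809984 (.pos 83 .mp ⟨0, 0, 0, 0, 0, 276534688, 0, 0, 0, ⟨0, 0⟩, 0⟩ 0 0) (.cut .s 11165696 (.cut .d (-24576) (.pos 84 .mp ⟨69536642, 0, 0, 0, 0, 179322618, 0, 0, 0, ⟨0, 0⟩, 0⟩ 0 0) (.cut .l 321562 (.cut .l 283813 (.cut .d (-20480) (.pos 84 .mp ⟨70093984, 0, 0, 0, 0, 178946557, 0, 0, 0, ⟨0, 0⟩, 0⟩ 0 0) (.cut .s 11137024 (.cut .s 11122688 (.pos 84 .mp ⟨70984456, 0, 0, 0, 0, 168491465, 0, 0, 0, ⟨0, 0⟩, 0⟩ 0 0) (.pos 84 .mp ⟨71439568, 0, 0, 0, 0, 169885016, 0, 0, 0, ⟨0, 0⟩, 0⟩ 0 0)) (.pos 84 .mp ⟨72354069, 0, 0, 0, 0, 171170256, 0, 0, 0, ⟨0, 0⟩, 0⟩ 0 0))) (.pos 84 .mp ⟨72690313, 0, 0, 0, 0, 167801485, 0, 0, 0, ⟨0, 0⟩, 0⟩ 0 0))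 (.pos 84 .mp ⟨70409278, 0, 0, 0, 0, 165134220, 0, 0, 0, ⟨0, 0⟩, 0⟩ 0 0))) (.cut .s 11194368 (.pos 84 .mp ⟨71568705, 0, 0, 0, 0, 180076976, 0, 0, 0, ⟨0, 0⟩, 0⟩ 0 0) (.pos 84 .mp ⟨72471666, 0, 0, 0, 0, 183096997, 0, 0, 0, ⟨0, 0⟩, 0⟩ 0 0)))) (.pos 63 .mp ⟨199326460, 0, 0, 0, 0, 0, 0, 0, 0, ⟨0, 0⟩, 0⟩ 0 0)) (.pos 51 .mp ⟨75008062, 0, 0, 0, 0, 162257996, 0, 0, 0, ⟨0, 0⟩, 0⟩ 0 0)) (.pos 51 .mp ⟨0, 0, 0, 0, 0, 0, 0, 0, 0, ⟨0, 0⟩, 0⟩ 0 0)) (.pos 51 .mp ⟨73657295, 0, 0, 0, 0, 0, 0, 0, 0, ⟨0, 0⟩, 0⟩ 0 0))) (.pos 52 .mp ⟨194668901, 0, 0, 0, 0, 0, 0, 0, 0, ⟨0, 0⟩, 0⟩ 0 0)) (.cut .v 16908288 (.cut .d (-32768) (.cut .s 11280384 (.cut .s 11251712 (.pos 51 .mp ⟨71316840, 0,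 0, 0, 0, 192999514, 0, 0, 0, ⟨0, 0⟩, 0⟩ 0 0) (.pos 51 .mp ⟨72831201, 0, 0, 0, 0, 195426678, 0, 0, 0, ⟨0, 0⟩, 0⟩ 0 0)) (.cut .l 548055 (.pos 51 .mp ⟨75120152, 0, 0, 0, 0, 202078489, 0, 0, 0, ⟨0, 0⟩, 0⟩ 0 0) (.pos 51 .mp ⟨71322756, 0, 0, 0, 0, 202853955, 0, 0, 0, ⟨0, 0⟩, 0⟩ 0 0))) (.cut .d (-16384) (.cut .l 548055 (.cut .l 397060 (.cut .v 16842752 (.cut .s 11280384 (.cut .s 11251712 (.pos 62 .mp ⟨73104133, 0, 0, 0, 0, 186532280, 0, 0, 0, ⟨0, 0⟩, 0⟩ 0 0) (.pos 62 .mp ⟨74013717, 0, 0, 0, 0, 189650011, 0, 0, 0, ⟨0, 0⟩, 0⟩ 0 0)) (.pos 62 .mp ⟨73027192, 0, 0, 0, 0, 198700600, 0, 0, 0, ⟨0, 0⟩, 0⟩ 0 0)) (.pos 63 .mp ⟨210057363, 0, 0, 0, 0, 0, 0, 0, 0, ⟨0, 0⟩, 0⟩ 0 0))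 (.pos 51 .mp ⟨77869002, 0, 0, 0, 0, 175047066, 0, 0, 0, ⟨0, 0⟩, 0⟩ 0 0)) (.pos 51 .mp ⟨0, 0, 0, 0, 0, 0, 0, 0, 0, ⟨0, 0⟩, 0⟩ 0 0)) (.pos 51 .mp ⟨77366799, 0, 0, 0, 0, 0, 0, 0, 0, ⟨0, 0⟩, 0⟩ 0 0))) (.pos 52 .mp ⟨211712107, 0, 0, 0, 0, 0, 0, 0, 0, ⟨0, 0⟩, 0⟩ 0 0))) (.pos 31 .mp ⟨75856391, 0, 0, 0, 0, 161656952, 0, 0, 0, ⟨0, 0⟩, 0⟩ 0 0))) (.pos 32 .mp ⟨208084356, 0, 0, 0, 0, 0, 0, 0, 0, ⟨0, 0⟩, 0⟩ 0 0))) (.pos 30 .mp ⟨204835553, 0, 0, 0, 0, 0, 0, 0, 0, ⟨0, 0⟩, 0⟩ 0 0)) (.pos 28 .mp ⟨217804912, 0, 0, 0, 0, 0, 0, 0, 0, ⟨0, 0⟩, 0⟩ 0 0)) (.void 26 ⟨100000, 0, 0, 0, 0, 0, 0, 0, 0, ⟨0, 0⟩, 0⟩ 0 0))))))) (.void 24 ⟨100000, 0, 0, 0, 0, 0, 0, 0, 0, ⟨0, 0⟩, 0⟩ 0 0)))) (.void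 22 ⟨100000, 0, 0, 0, 0, 0, 0, 0, 0, ⟨0, 0⟩, 0⟩ 0 0)) (.void 61 ⟨100000, 0, 0, 0, 0, 0, 0, 0, 0, ⟨0, 0⟩, 0⟩ 0 0)) (.void 70 ⟨100000, 0, 0, 0, 0, 0, 0, 0, 0, ⟨0, 0⟩, 0⟩ 0 0)) (.void 87 ⟨95949, 0, 0, 4051, 0, 0, 0, 0, 0, ⟨0, 0⟩, 0⟩ 0 0))) (.cut .v 16777216 (.cut .v 8388608 (.cut .v 4194304 (.cut .v 2097152 (.cut .v 1048576 (.void 100 ⟨0, 0, 19122, 0, 0, 0, 0, 0, 80878, ⟨0, 0⟩, 1983364⟩ 0 0) (.pos 101 .pm ⟨0, 0, 2533037, 0, 0, 0, 0, 0, 0, ⟨0, 0⟩, 0⟩ 0 0)) (.cut .d 4548041 (.pos 7 .pm ⟨0, 0, 21968865, 0, 0, 0, 0, 0, 0, ⟨0, 0⟩, 0⟩ 0 0) (.pos 7 .pm ⟨0, 39866595, 0, 0, 0, 0, 0, 0, 0, ⟨0, 0⟩, 0⟩ 0 0))) (.cut .d 4548041 (.pos 5 .pm ⟨0, 0, 0, 0, 0, 0, 0, 0, 0, ⟨0, 0⟩,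 0⟩ 0 0) (.cut .d 6822062 (.pos 5 .pm ⟨0, 0, 0, 0, 0, 0, 0, 0, 0, ⟨0, 0⟩, 0⟩ 0 0) (.cut .d 7959072 (.cut .d 7390567 (.pos 5 .pm ⟨0, 0, 0, 0, 0, 0, 0, 0, 0, ⟨0, 0⟩, 0⟩ 0 0) (.cut .s 11108352 (.pos 5 .pm ⟨0, 0, 0, 0, 0, 0, 0, 0, 0, ⟨0, 0⟩, 0⟩ 0 0) (.cut .v 6291456 (.pos 77 .pm ⟨0, 91878746, 0, 0, 0, 0, 0, 0, 0, ⟨0, 0⟩, 0⟩ 0 0) (.cut .d 7674819 (.cut .v 7340032 (.cut .s 11223040 (.pos 104 .pm ⟨0, 0, 0, 0, 0, 0, 0, 0, 0, ⟨0, 0⟩, 0⟩ 0 0) (.pos 104 .pm ⟨0, 100108053, 0, 0, 0, 0, 0, 0, 0, ⟨0, 0⟩, 0⟩ 0 0)) (.pos 105 .pm ⟨0, 99021882, 0, 0, 0, 0, 0, 0, 0, ⟨0, 0⟩, 0⟩ 0 0)) (.cut .l 850045 (.cut .s 11223040 (.cut .v 7340032 (.pos 104 .pm ⟨0, 100235903, 0, 0, 0, 0, 0, 0,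 0, ⟨0, 0⟩, 0⟩ 0 0) (.pos 105 .pm ⟨0, 104640728, 0, 0, 0, 0, 0, 0, 0, ⟨0, 0⟩, 0⟩ 0 0)) (.cut .v 7340032 (.pos 104 .pm ⟨0, 115321637, 0, 0, 0, 0, 0, 0, 0, ⟨0, 0⟩, 0⟩ 0 0) (.pos 105 .pm ⟨0, 120084151, 0, 0, 0, 0, 0, 0, 0, ⟨0, 0⟩, 0⟩ 0 0))) (.pos 78 .pm ⟨0, 108752170, 0, 0, 0, 0, 0, 0, 0, ⟨0, 0⟩, 0⟩ 0 0)))))) (.cut .d 8527577 (.cut .s 11108352 (.cut .v 6291456 (.pos 77 .pm ⟨0, 84749821, 0, 0, 0, 0, 0, 0, 0, ⟨0, 0⟩, 0⟩ 0 0) (.cut .l 850045 (.cut .s 10993664 (.cut .d 8243324 (.pos 78 .pm ⟨0, 84306264, 0, 0, 0, 0, 0, 0, 0, ⟨0, 0⟩, 0⟩ 0 0) (.pos 78 .pm ⟨0, 96862938, 0, 0, 0, 0, 0, 0, 0, ⟨0, 0⟩, 0⟩ 0 0)) (.cut .v 7340032 (.pos 104 .pm ⟨0, 101964612, 0, 0, 0, 0, 0, 0,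 0, ⟨0, 0⟩, 0⟩ 0 0) (.pos 105 .pm ⟨0, 107856149, 0, 0, 0, 0, 0, 0, 0, ⟨0, 0⟩, 0⟩ 0 0))) (.pos 78 .pm ⟨0, 97719008, 0, 0, 0, 0, 0, 0, 0, ⟨0, 0⟩, 0⟩ 0 0))) (.cut .v 6291456 (.pos 77 .pm ⟨0, 111144867, 0, 0, 0, 0, 0, 0, 0, ⟨0, 0⟩, 0⟩ 0 0) (.cut .v 7340032 (.pos 104 .pm ⟨0, 127194475, 0, 0, 0, 0, 0, 0, 0, ⟨0, 0⟩, 0⟩ 0 0) (.pos 105 .pm ⟨0, 136424243, 0, 0, 0, 0, 0, 0, 0, ⟨0, 0⟩, 0⟩ 0 0)))) (.pos 5 .pm ⟨0, 148417942, 0, 0, 0, 0, 0, 0, 0, ⟨0, 0⟩, 0⟩ 0 0)))))) (.cut .d 4548041 (.pos 3 .pm ⟨0, 0, 0, 0, 0, 0, 0, 0, 0, ⟨0, 0⟩, 0⟩ 0 0) (.cut .d 6822062 (.pos 3 .pm ⟨0, 0, 0, 0, 0, 0, 0, 0, 0, ⟨0, 0⟩, 0⟩ 0 0) (.cut .v 12582912 (.cut .d 7959072 (.cut .s 11108352 (.pos 8 .pm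 ⟨0, 81773096, 0, 0, 0, 0, 0, 0, 0, ⟨0, 0⟩, 0⟩ 0 0) (.cut .d 7390567 (.pos 8 .pm ⟨0, 0, 0, 0, 0, 0, 0, 0, 0, ⟨0, 0⟩, 0⟩ 0 0) (.pos 8 .pm ⟨0, 117702378, 0, 0, 0, 0, 0, 0, 0, ⟨0, 0⟩, 0⟩ 0 0))) (.cut .s 11108352 (.cut .d 8527577 (.pos 8 .pm ⟨0, 109565517, 0, 0, 0, 0, 0, 0, 0, ⟨0, 0⟩, 0⟩ 0 0) (.void 8 ⟨0, 100000, 0, 0, 0, 0, 0, 0, 0, ⟨0, 0⟩, 0⟩ 0 0)) (.void 8 ⟨0, 100000, 0, 0, 0, 0, 0, 0, 0, ⟨0, 0⟩, 0⟩ 0 0))) (.pos 9 .pm ⟨0, 161986063, 0, 0, 0, 0, 0, 0, 0, ⟨0, 0⟩, 0⟩ 0 0))))) (.cut .v 268435456 (.cut .d 4548041 (.cut .v 67108864 (.cut .d 2274020 (.cut .v 33554432 (.cut .d 1137010 (.cut .v 25165824 (.cut .v 20971520 (.pos 23 .pp ⟨113447272, 0, 0, 0, 0, 0, 0, 0, 0,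 ⟨0, 0⟩, 0⟩ 0 0) (.pos 24 .pp ⟨222533657, 0, 0, 0, 0, 0, 0, 0, 0, ⟨0, 0⟩, 0⟩ 0 0)) (.pos 22 .pp ⟨362431017, 0, 0, 0, 0, 0, 0, 0, 0, ⟨0, 0⟩, 0⟩ 0 0)) (.pos 20 .pp ⟨0, 0, 0, 0, 0, 0, 0, 0, 0, ⟨0, 0⟩, 0⟩ 0 0)) (.cut .d 1137010 (.cut .v 50331648 (.pos 64 .pp ⟨856519647, 0, 0, 0, 0, 0, 0, 0, 0, ⟨0, 0⟩, 0⟩ 0 0) (.void 65 ⟨100000, 0, 0, 0, 0, 0, 0, 0, 0, ⟨0, 0⟩, 0⟩ 0 0)) (.cut .v 50331648 (.pos 64 .pp ⟨356108531, 0, 0, 0, 0, 0, 0, 0, 0, ⟨0, 0⟩, 0⟩ 0 0) (.pos 65 .pp ⟨954109223, 0, 0, 0, 0, 0, 0, 0, 0, ⟨0, 0⟩, 0⟩ 0 0)))) (.pos 60 .pp ⟨0, 0, 0, 0, 0, 0, 0, 0, 0, ⟨0, 0⟩, 0⟩ 0 0)) (.cut .v 134217728 (.cut .d 2274020 (.cut .v 100663296 (.cut .v 83886080 (.cut .d 1137010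 (.void 79 ⟨100000, 0, 0, 0, 0, 0, 0, 0, 0, ⟨0, 0⟩, 0⟩ 0 0) (.pos 79 .pp ⟨1876970717, 0, 0, 0, 0, 0, 0, 0, 0, ⟨0, 0⟩, 0⟩ 0 0)) (.pos 80 .pp ⟨3394485398, 0, 0, 0, 0, 0, 0, 0, 0, ⟨0, 0⟩, 0⟩ 0 0)) (.void 76 ⟨40931, 59069, 0, 0, 0, 0, 0, 0, 0, ⟨0, 0⟩, 0⟩ 0 0)) (.pos 73 .pp ⟨0, 550343043, 0, 0, 0, 0, 0, 0, 0, ⟨0, 0⟩, 0⟩ 0 0)) (.void 74 ⟨39452, 60548, 0, 0, 0, 0, 0, 0, 0, ⟨0, 0⟩, 0⟩ 0 0))) (.pos 69 .pp ⟨0, 129157266, 0, 0, 0, 0, 0, 0, 0, ⟨0, 0⟩, 0⟩ 0 0)) (.void 87 ⟨0, 0, 0, 100000, 0, 0, 0, 0, 0, ⟨0, 0⟩, 0⟩ 0 0)))),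
    by decide +kernel⟩

def covers16 : cell.Covers table row16.1 :=
  ⟨(.cut .d 0 (.cut .v 16777216 (.cut .d (-8388608) (.void 1 ⟨0, 0, 0, 0, 0, 100000, 0, 0, 0, ⟨0, 0⟩, 0⟩ 0 0) (.cut .d (-4194304) (.void 1 ⟨0, 0, 0, 0, 0, 100000, 0, 0, 0, ⟨0, 0⟩, 0⟩ 0 0) (.cut .d (-2097152) (.void 1 ⟨0, 0, 0, 0, 0, 100000, 0, 0, 0, ⟨0, 0⟩, 0⟩ 0 0) (.cut .d (-1048576) (.void 1 ⟨0, 0, 0, 0, 0, 100000, 0, 0, 0, ⟨0, 0⟩, 0⟩ 0 0) (.cut .d (-524288) (.void 1 ⟨0, 0, 0, 0, 0, 100000, 0, 0, 0, ⟨0, 0⟩, 0⟩ 0 0) (.cut .d (-262144) (.void 1 ⟨0, 0, 0, 0, 0, 100000, 0, 0, 0, ⟨0, 0⟩, 0⟩ 0 0) (.cut .d (-131072) (.void 1 ⟨0, 0, 0, 0, 0, 100000, 0, 0, 0, ⟨0, 0⟩, 0⟩ 0 0) (.cut .v 8388608 (.cut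 .v 4194304 (.void 4 ⟨0, 0, 100000, 0, 0, 0, 0, 0, 0, ⟨0, 0⟩, 0⟩ 0 0) (.pos 5 .mm ⟨0, 0, 346108, 0, 0, 153183697, 0, 0, 0, ⟨0, 0⟩, 0⟩ 0 0)) (.cut .v 12582912 (.pos 8 .mm ⟨0, 0, 0, 0, 0, 232493815, 0, 0, 0, ⟨0, 0⟩, 0⟩ 0 0) (.cut .v 14680064 (.pos 12 .mm ⟨0, 0, 0, 0, 0, 285888779, 0, 0, 0, ⟨0, 0⟩, 0⟩ 0 0) (.cut .v 15728640 (.pos 14 .mm ⟨0, 0, 0, 0, 0, 313683628, 0, 0, 0, ⟨0, 0⟩, 0⟩ 0 0) (.cut .v 16252928 (.pos 16 .mm ⟨0, 0, 0, 0, 0, 328313253, 0, 0, 0, ⟨0, 0⟩, 0⟩ 0 0) (.cut .v 16515072 (.pos 18 .mm ⟨0, 0, 0, 0, 0, 335812369, 0, 0, 0, ⟨0, 0⟩, 0⟩ 0 0) (.cut .s 11534336 (.cut .s 11436032 (.pos 19 .mm ⟨0, 0, 0, 0, 0, 313592322, 0, 0, 0, ⟨0, 0⟩, 0⟩ 0 0) (.pos 19 .mm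 ⟨0, 0, 0, 0, 0, 331355238, 0, 0, 0, ⟨0, 0⟩, 0⟩ 0 0)) (.cut .s 11632640 (.pos 19 .mm ⟨0, 0, 0, 0, 0, 350016369, 0, 0, 0, ⟨0, 0⟩, 0⟩ 0 0) (.pos 19 .mm ⟨0, 0, 0, 0, 0, 369553251, 0, 0, 0, ⟨0, 0⟩, 0⟩ 0 0)))))))))))))))) (.cut .v 268435456 (.cut .v 67108864 (.cut .v 33554432 (.cut .v 25165824 (.cut .d (-8388608) (.void 21 ⟨100000, 0, 0, 0, 0, 0, 0, 0, 0, ⟨0, 0⟩, 0⟩ 0 0) (.cut .d (-4194304) (.void 21 ⟨100000, 0, 0, 0, 0, 0, 0, 0, 0, ⟨0, 0⟩, 0⟩ 0 0) (.cut .v 20971520 (.cut .d (-2097152) (.void 23 ⟨100000, 0, 0, 0, 0, 0, 0, 0, 0, ⟨0, 0⟩, 0⟩ 0 0) (.cut .d (-1048576) (.void 23 ⟨100000, 0, 0, 0, 0, 0, 0, 0, 0, ⟨0, 0⟩, 0⟩ 0 0) (.cut .d (-524288) (.void 23 ⟨100000, 0, 0,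 0, 0, 0, 0, 0, 0, ⟨0, 0⟩, 0⟩ 0 0) (.cut .d (-262144) (.void 23 ⟨100000, 0, 0, 0, 0, 0, 0, 0, 0, ⟨0, 0⟩, 0⟩ 0 0) (.cut .d (-131072) (.void 23 ⟨0, 0, 0, 0, 0, 100000, 0, 0, 0, ⟨0, 0⟩, 0⟩ 0 0) (.cut .v 18874368 (.cut .v 17825792 (.cut .v 17301504 (.cut .s 11534336 (.cut .v 17039360 (.cut .d (-65536) (.cut .l 850045 (.void 31 ⟨0, 0, 0, 0, 0, 100000, 0, 0, 0, ⟨0, 0⟩, 0⟩ 0 0) (.cut .d (-98304) (.pos 31 .mp ⟨80875918, 0, 0, 0, 0, 228911826, 0, 0, 0, ⟨0, 0⟩, 0⟩ 0 0) (.cut .s 11436032 (.cut .s 11386880 (.pos 31 .mp ⟨73652443, 0, 0, 0, 0, 214232542, 0, 0, 0, ⟨0, 0⟩, 0⟩ 0 0) (.pos 31 .mp ⟨75351104, 0, 0, 0, 0, 219417059, 0, 0, 0, ⟨0, 0⟩, 0⟩ 0 0)) (.pos 31 .mp ⟨77055444,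 0, 0, 0, 0, 228485178, 0, 0, 0, ⟨0, 0⟩, 0⟩ 0 0)))) (.cut .l 850045 (.cut .v 16908288 (.cut .d (-32768) (.cut .s 11436032 (.cut .s 11386880 (.pos 51 .mp ⟨73103257, 0, 0, 0, 0, 211402600, 0, 0, 0, ⟨0, 0⟩, 0⟩ 0 0) (.pos 51 .mp ⟨74653225, 0, 0, 0, 0, 216792741, 0, 0, 0, ⟨0, 0⟩, 0⟩ 0 0)) (.pos 51 .mp ⟨76207517, 0, 0, 0, 0, 226731735, 0, 0, 0, ⟨0, 0⟩, 0⟩ 0 0)) (.cut .s 11436032 (.pos 51 .mp ⟨84381836, 0, 0, 0, 0, 183705065, 0, 0, 0, ⟨0, 0⟩, 0⟩ 0 0) (.pos 51 .mp ⟨87867630, 0, 0, 0, 0, 194865843, 0, 0, 0, ⟨0, 0⟩, 0⟩ 0 0))) (.pos 52 .mp ⟨223533364, 0, 0, 0, 0, 0, 0, 0, 0, ⟨0, 0⟩, 0⟩ 0 0)) (.pos 31 .mp ⟨82981528, 0, 0, 0, 0, 186275164, 0, 0, 0, ⟨0, 0⟩, 0⟩ 0 0))) (.pos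 32 .mp ⟨232330932, 0, 0, 0, 0, 0, 0, 0, 0, ⟨0, 0⟩, 0⟩ 0 0)) (.cut .v 17039360 (.cut .d (-65536) (.cut .s 11632640 (.pos 31 .mp ⟨80482342, 0, 0, 0, 0, 247053034, 0, 0, 0, ⟨0, 0⟩, 0⟩ 0 0) (.pos 31 .mp ⟨83935605, 0, 0, 0, 0, 261484607, 0, 0, 0, ⟨0, 0⟩, 0⟩ 0 0)) (.cut .s 11632640 (.cut .s 11583488 (.pos 31 .mp ⟨99762346, 0, 0, 0, 0, 198324109, 0, 0, 0, ⟨0, 0⟩, 0⟩ 0 0) (.pos 31 .mp ⟨101911858, 0, 0, 0, 0, 203987075, 0, 0, 0, ⟨0, 0⟩, 0⟩ 0 0)) (.pos 31 .mp ⟨106300164, 0, 0, 0, 0, 208830411, 0, 0, 0, ⟨0, 0⟩, 0⟩ 0 0))) (.pos 32 .mp ⟨253515653, 0, 0, 0, 0, 0, 0, 0, 0, ⟨0, 0⟩, 0⟩ 0 0))) (.pos 30 .mp ⟨249091642, 0, 0, 0, 0, 0, 0, 0, 0, ⟨0, 0⟩, 0⟩ 0 0)) (.pos 28 .mp ⟨263492425,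 0, 0, 0, 0, 0, 0, 0, 0, ⟨0, 0⟩, 0⟩ 0 0)) (.void 26 ⟨100000, 0, 0, 0, 0, 0, 0, 0, 0, ⟨0, 0⟩, 0⟩ 0 0))))))) (.void 24 ⟨100000, 0, 0, 0, 0, 0, 0, 0, 0, ⟨0, 0⟩, 0⟩ 0 0)))) (.void 22 ⟨100000, 0, 0, 0, 0, 0, 0, 0, 0, ⟨0, 0⟩, 0⟩ 0 0)) (.void 61 ⟨100000, 0, 0, 0, 0, 0, 0, 0, 0, ⟨0, 0⟩, 0⟩ 0 0)) (.void 70 ⟨100000, 0, 0, 0, 0, 0, 0, 0, 0, ⟨0, 0⟩, 0⟩ 0 0)) (.void 87 ⟨95813, 0, 0, 4187, 0, 0, 0, 0, 0, ⟨0, 0⟩, 0⟩ 0 0))) (.cut .v 16777216 (.cut .v 8388608 (.cut .v 4194304 (.cut .v 2097152 (.cut .v 1048576 (.pos 100 .pm ⟨0, 0, 25297405, 0, 0, 0, 0, 0, 48458476, ⟨0, 0⟩, 1983364⟩ 0 0) (.pos 101 .pm ⟨0, 0, 429935, 0, 0, 0, 0, 0, 0, ⟨0, 0⟩, 0⟩ 0 0)) (.cut .d 4024593 (.pos 7 .pm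 ⟨0, 0, 27571574, 0, 0, 0, 0, 0, 0, ⟨0, 0⟩, 0⟩ 0 0) (.cut .d 6036890 (.pos 7 .pm ⟨0, 0, 0, 0, 0, 0, 0, 0, 0, ⟨0, 0⟩, 0⟩ 0 0) (.pos 7 .pm ⟨0, 70999553, 0, 0, 0, 0, 0, 0, 0, ⟨0, 0⟩, 0⟩ 0 0)))) (.cut .d 4024593 (.pos 5 .pm ⟨0, 0, 0, 0, 0, 0, 0, 0, 0, ⟨0, 0⟩, 0⟩ 0 0) (.cut .d 6036890 (.pos 5 .pm ⟨0, 0, 0, 0, 0, 0, 0, 0, 0, ⟨0, 0⟩, 0⟩ 0 0) (.cut .d 7043038 (.cut .s 11534336 (.pos 5 .pm ⟨0, 0, 0, 0, 0, 0, 0, 0, 0, ⟨0, 0⟩, 0⟩ 0 0) (.cut .d 6539964 (.pos 5 .pm ⟨0, 0, 0, 0, 0, 0, 0, 0, 0, ⟨0, 0⟩, 0⟩ 0 0) (.cut .v 6291456 (.cut .d 6791501 (.pos 77 .pm ⟨0, 0, 0, 0, 0, 0, 0, 0, 0, ⟨0, 0⟩, 0⟩ 0 0) (.cut .s 11632640 (.pos 77 .pm ⟨0, 102861753, 0, 0, 0, 0, 0, 0, 0, ⟨0, 0⟩,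 0⟩ 0 0) (.cut .s 11681792 (.pos 77 .pm ⟨0, 113585126, 0, 0, 0, 0, 0, 0, 0, ⟨0, 0⟩, 0⟩ 0 0) (.pos 77 .pm ⟨0, 121096980, 0, 0, 0, 0, 0, 0, 0, ⟨0, 0⟩, 0⟩ 0 0)))) (.cut .d 6791501 (.cut .v 7340032 (.pos 104 .pm ⟨0, 53070707, 0, 0, 0, 0, 0, 0, 0, ⟨0, 0⟩, 0⟩ 0 0) (.pos 105 .pm ⟨0, 113451225, 0, 0, 0, 0, 0, 0, 0, ⟨0, 0⟩, 0⟩ 0 0)) (.cut .v 7340032 (.cut .l 850045 (.cut .s 11632640 (.cut .v 6815744 (.pos 106 .pm ⟨0, 108616042, 0, 0, 0, 0, 0, 0, 0, ⟨0, 0⟩, 0⟩ 0 0) (.pos 107 .pm ⟨0, 114074432, 0, 0, 0, 0, 0, 0, 0, ⟨0, 0⟩, 0⟩ 0 0)) (.cut .l 548055 (.cut .l 397060 (.cut .d 6917269 (.cut .s 11681792 (.pos 104 .pm ⟨0, 116911196, 0, 0, 0, 0, 0, 0, 0, ⟨0, 0⟩, 0⟩ 0 0) (.pos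 104 .pm ⟨0, 124495903, 0, 0, 0, 0, 0, 0, 0, ⟨0, 0⟩, 0⟩ 0 0)) (.cut .s 11681792 (.cut .v 6815744 (.pos 106 .pm ⟨0, 122972787, 0, 0, 0, 0, 0, 0, 0, ⟨0, 0⟩, 0⟩ 0 0) (.pos 107 .pm ⟨0, 127134205, 0, 0, 0, 0, 0, 0, 0, ⟨0, 0⟩, 0⟩ 0 0)) (.pos 104 .pm ⟨0, 158988022, 0, 0, 0, 0, 0, 0, 0, ⟨0, 0⟩, 0⟩ 0 0))) (.pos 104 .pm ⟨0, 123821352, 0, 0, 0, 0, 0, 0, 0, ⟨0, 0⟩, 0⟩ 0 0)) (.pos 104 .pm ⟨0, 123383593, 0, 0, 0, 0, 0, 0, 0, ⟨0, 0⟩, 0⟩ 0 0))) (.pos 104 .pm ⟨0, 115452353, 0, 0, 0, 0, 0, 0, 0, ⟨0, 0⟩, 0⟩ 0 0)) (.pos 105 .pm ⟨0, 127674894, 0, 0, 0, 0, 0, 0, 0, ⟨0, 0⟩, 0⟩ 0 0)))))) (.cut .d 7546112 (.cut .v 6291456 (.cut .v 5242880 (.pos 110 .pm ⟨0, 100672582, 0, 0, 0, 0, 0,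 0, 0, ⟨0, 0⟩, 0⟩ 0 0) (.cut .s 11534336 (.cut .d 7294575 (.pos 111 .pm ⟨0, 97470811, 0, 0, 0, 0, 0, 0, 0, ⟨0, 0⟩, 0⟩ 0 0) (.pos 111 .pm ⟨0, 108799622, 0, 0, 0, 0, 0, 0, 0, ⟨0, 0⟩, 0⟩ 0 0)) (.cut .s 11632640 (.cut .s 11583488 (.pos 111 .pm ⟨0, 116457485, 0, 0, 0, 0, 0, 0, 0, ⟨0, 0⟩, 0⟩ 0 0) (.pos 111 .pm ⟨0, 122797776, 0, 0, 0, 0, 0, 0, 0, ⟨0, 0⟩, 0⟩ 0 0)) (.pos 111 .pm ⟨0, 245650017, 0, 0, 0, 0, 0, 0, 0, ⟨0, 0⟩, 0⟩ 0 0)))) (.cut .s 11534336 (.cut .s 11436032 (.cut .v 7340032 (.cut .d 7294575 (.pos 104 .pm ⟨0, 0, 0, 0, 0, 0, 0, 0, 0, ⟨0, 0⟩, 0⟩ 0 0) (.cut .d 7420343 (.pos 104 .pm ⟨0, 105192788, 0, 0, 0, 0, 0, 0, 0, ⟨0, 0⟩, 0⟩ 0 0) (.pos 104 .pm ⟨0, 112585533,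 0, 0, 0, 0, 0, 0, 0, ⟨0, 0⟩, 0⟩ 0 0))) (.pos 105 .pm ⟨0, 111296552, 0, 0, 0, 0, 0, 0, 0, ⟨0, 0⟩, 0⟩ 0 0)) (.cut .l 850045 (.cut .v 7340032 (.cut .d 7294575 (.cut .v 6815744 (.cut .s 11485184 (.pos 106 .pm ⟨0, 105228876, 0, 0, 0, 0, 0, 0, 0, ⟨0, 0⟩, 0⟩ 0 0) (.pos 106 .pm ⟨0, 112138296, 0, 0, 0, 0, 0, 0, 0, ⟨0, 0⟩, 0⟩ 0 0)) (.pos 107 .pm ⟨0, 112388771, 0, 0, 0, 0, 0, 0, 0, ⟨0, 0⟩, 0⟩ 0 0)) (.cut .v 6815744 (.pos 106 .pm ⟨0, 122158121, 0, 0, 0, 0, 0, 0, 0, ⟨0, 0⟩, 0⟩ 0 0) (.pos 107 .pm ⟨0, 126340467, 0, 0, 0, 0, 0, 0, 0, ⟨0, 0⟩, 0⟩ 0 0))) (.cut .d 7294575 (.pos 105 .pm ⟨0, 119187550, 0, 0, 0, 0, 0, 0, 0, ⟨0, 0⟩, 0⟩ 0 0) (.pos 105 .pm ⟨0, 131448439, 0, 0, 0, 0,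 0, 0, 0, ⟨0, 0⟩, 0⟩ 0 0))) (.pos 78 .pm ⟨0, 118723707, 0, 0, 0, 0, 0, 0, 0, ⟨0, 0⟩, 0⟩ 0 0))) (.cut .s 11632640 (.cut .d 7294575 (.cut .v 7340032 (.cut .d 7168806 (.cut .s 11583488 (.pos 104 .pm ⟨0, 116570386, 0, 0, 0, 0, 0, 0, 0, ⟨0, 0⟩, 0⟩ 0 0) (.pos 104 .pm ⟨0, 124278448, 0, 0, 0, 0, 0, 0, 0, ⟨0, 0⟩, 0⟩ 0 0)) (.pos 104 .pm ⟨0, 129868290, 0, 0, 0, 0, 0, 0, 0, ⟨0, 0⟩, 0⟩ 0 0)) (.pos 105 .pm ⟨0, 134149077, 0, 0, 0, 0, 0, 0, 0, ⟨0, 0⟩, 0⟩ 0 0)) (.void 78 ⟨0, 100000, 0, 0, 0, 0, 0, 0, 0, ⟨0, 0⟩, 0⟩ 0 0)) (.void 78 ⟨0, 100000, 0, 0, 0, 0, 0, 0, 0, ⟨0, 0⟩, 0⟩ 0 0)))) (.cut .v 6291456 (.pos 77 .pm ⟨0, 142636144, 0, 0, 0, 0, 0, 0, 0, ⟨0, 0⟩, 0⟩ 0 0) (.cut .v 7340032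 (.pos 104 .pm ⟨0, 160656369, 0, 0, 0, 0, 0, 0, 0, ⟨0, 0⟩, 0⟩ 0 0) (.void 105 ⟨0, 100000, 0, 0, 0, 0, 0, 0, 0, ⟨0, 0⟩, 0⟩ 0 0)))))))) (.cut .d 4024593 (.pos 3 .pm ⟨0, 0, 0, 0, 0, 0, 0, 0, 0, ⟨0, 0⟩, 0⟩ 0 0) (.cut .d 6036890 (.pos 3 .pm ⟨0, 0, 0, 0, 0, 0, 0, 0, 0, ⟨0, 0⟩, 0⟩ 0 0) (.cut .d 7043038 (.pos 3 .pm ⟨0, 110056229, 0, 0, 0, 0, 0, 0, 0, ⟨0, 0⟩, 0⟩ 0 0) (.cut .d 7546112 (.cut .s 11534336 (.pos 3 .pm ⟨0, 131804584, 0, 0, 0, 0, 0, 0, 0, ⟨0, 0⟩, 0⟩ 0 0) (.pos 3 .pm ⟨0, 166950134, 0, 0, 0, 0, 0, 0, 0, ⟨0, 0⟩, 0⟩ 0 0)) (.void 3 ⟨0, 100000, 0, 0, 0, 0, 0, 0, 0, ⟨0, 0⟩, 0⟩ 0 0)))))) (.cut .v 268435456 (.cut .d 4024593 (.cut .v 67108864 (.cut .d 2012296 (.cut .v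 33554432 (.cut .d 1006148 (.cut .v 25165824 (.cut .v 20971520 (.pos 23 .pp ⟨131833820, 0, 0, 0, 0, 0, 0, 0, 0, ⟨0, 0⟩, 0⟩ 0 0) (.pos 24 .pp ⟨272741782, 0, 0, 0, 0, 0, 0, 0, 0, ⟨0, 0⟩, 0⟩ 0 0)) (.pos 22 .pp ⟨437364716, 0, 0, 0, 0, 0, 0, 0, 0, ⟨0, 0⟩, 0⟩ 0 0)) (.pos 20 .pp ⟨0, 0, 0, 0, 0, 0, 0, 0, 0, ⟨0, 0⟩, 0⟩ 0 0)) (.cut .d 1006148 (.cut .v 50331648 (.pos 64 .pp ⟨1016867685, 0, 0, 0, 0, 0, 0, 0, 0, ⟨0, 0⟩, 0⟩ 0 0) (.void 65 ⟨100000, 0, 0, 0, 0, 0, 0, 0, 0, ⟨0, 0⟩, 0⟩ 0 0)) (.cut .v 50331648 (.pos 64 .pp ⟨446525824, 0, 0, 0, 0, 0, 0, 0, 0, ⟨0, 0⟩, 0⟩ 0 0) (.pos 65 .pp ⟨1156351893, 0, 0, 0, 0, 0, 0, 0, 0, ⟨0, 0⟩, 0⟩ 0 0)))) (.pos 60 .pp ⟨0, 0, 0, 0, 0, 0, 0,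 0, 0, ⟨0, 0⟩, 0⟩ 0 0)) (.cut .v 134217728 (.cut .d 2012296 (.cut .v 100663296 (.cut .d 1006148 (.void 75 ⟨100000, 0, 0, 0, 0, 0, 0, 0, 0, ⟨0, 0⟩, 0⟩ 0 0) (.cut .v 83886080 (.pos 79 .pp ⟨2232781937, 0, 0, 0, 0, 0, 0, 0, 0, ⟨0, 0⟩, 0⟩ 0 0) (.pos 80 .pp ⟨3493688396, 1005522853, 0, 0, 0, 0, 0, 0, 0, ⟨0, 0⟩, 0⟩ 0 0))) (.void 76 ⟨40285, 59715, 0, 0, 0, 0, 0, 0, 0, ⟨0, 0⟩, 0⟩ 0 0)) (.pos 73 .pp ⟨0, 716052295, 0, 0, 0, 0, 0, 0, 0, ⟨0, 0⟩, 0⟩ 0 0)) (.void 74 ⟨38969, 61031, 0, 0, 0, 0, 0, 0, 0, ⟨0, 0⟩, 0⟩ 0 0))) (.pos 69 .pp ⟨0, 151101515, 0, 0, 0, 0, 0, 0, 0, ⟨0, 0⟩, 0⟩ 0 0)) (.void 87 ⟨0, 0, 0, 100000, 0, 0, 0, 0, 0, ⟨0, 0⟩, 0⟩ 0 0)))),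
    by decide +kernel⟩

def covers17 : cell.Covers table row17.1 :=
  ⟨(.cut .d 0 (.cut .v 16777216 (.cut .d (-8388608) (.void 1 ⟨0, 0, 0, 0, 0, 100000, 0, 0, 0, ⟨0, 0⟩, 0⟩ 0 0) (.cut .d (-4194304) (.void 1 ⟨0, 0, 0, 0, 0, 100000, 0, 0, 0, ⟨0, 0⟩, 0⟩ 0 0) (.cut .d (-2097152) (.void 1 ⟨0, 0, 0, 0, 0, 100000, 0, 0, 0, ⟨0, 0⟩, 0⟩ 0 0) (.cut .d (-1048576) (.void 1 ⟨0, 0, 0, 0, 0, 100000, 0, 0, 0, ⟨0, 0⟩, 0⟩ 0 0) (.cut .d (-524288) (.void 1 ⟨0, 0, 0, 0, 0, 100000, 0, 0, 0, ⟨0, 0⟩, 0⟩ 0 0) (.cut .d (-262144) (.void 1 ⟨0, 0, 0, 0, 0, 100000, 0, 0, 0, ⟨0, 0⟩, 0⟩ 0 0) (.cut .d (-131072) (.void 1 ⟨0, 0, 0, 0, 0, 100000, 0, 0, 0, ⟨0, 0⟩, 0⟩ 0 0) (.cut .v 8388608 (.cut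 .v 4194304 (.void 4 ⟨0, 0, 100000, 0, 0, 0, 0, 0, 0, ⟨0, 0⟩, 0⟩ 0 0) (.pos 5 .mm ⟨0, 0, 2845175, 0, 0, 204142345, 0, 0, 0, ⟨0, 0⟩, 0⟩ 0 0)) (.cut .d (-65536) (.pos 3 .mm ⟨0, 0, 0, 0, 0, 486008694, 0, 0, 0, ⟨0, 0⟩, 0⟩ 0 0) (.cut .s 11993088 (.pos 3 .mm ⟨0, 0, 0, 0, 0, 405115337, 0, 0, 0, ⟨0, 0⟩, 0⟩ 0 0) (.pos 3 .mm ⟨0, 0, 0, 0, 0, 464903006, 0, 0, 0, ⟨0, 0⟩, 0⟩ 0 0))))))))))) (.cut .v 268435456 (.cut .v 67108864 (.cut .v 33554432 (.cut .d (-8388608) (.void 20 ⟨100000, 0, 0, 0, 0, 0, 0, 0, 0, ⟨0, 0⟩, 0⟩ 0 0) (.cut .v 25165824 (.cut .d (-4194304) (.void 21 ⟨100000, 0, 0, 0, 0, 0, 0, 0, 0, ⟨0, 0⟩, 0⟩ 0 0) (.cut .v 20971520 (.cut .d (-2097152) (.void 23 ⟨100000,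 0, 0, 0, 0, 0, 0, 0, 0, ⟨0, 0⟩, 0⟩ 0 0) (.cut .d (-1048576) (.void 23 ⟨100000, 0, 0, 0, 0, 0, 0, 0, 0, ⟨0, 0⟩, 0⟩ 0 0) (.cut .d (-524288) (.void 23 ⟨100000, 0, 0, 0, 0, 0, 0, 0, 0, ⟨0, 0⟩, 0⟩ 0 0) (.cut .d (-262144) (.void 23 ⟨100000, 0, 0, 0, 0, 0, 0, 0, 0, ⟨0, 0⟩, 0⟩ 0 0) (.cut .d (-131072) (.void 23 ⟨0, 0, 0, 0, 0, 100000, 0, 0, 0, ⟨0, 0⟩, 0⟩ 0 0) (.cut .v 18874368 (.cut .v 17825792 (.cut .v 17301504 (.cut .d (-65536) (.cut .v 17039360 (.cut .l 850045 (.void 31 ⟨0, 0, 0, 0, 0, 100000, 0, 0, 0, ⟨0, 0⟩, 0⟩ 0 0) (.cut .d (-98304) (.void 31 ⟨0, 0, 0, 0, 0, 100000, 0, 0, 0, ⟨0, 0⟩, 0⟩ 0 0) (.cut .s 11993088 (.pos 31 .mp ⟨87441716, 0, 0, 0, 0, 299876223, 0, 0,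 0, ⟨0, 0⟩, 0⟩ 0 0) (.pos 31 .mp ⟨97829146, 0, 0, 0, 0, 341547211, 0, 0, 0, ⟨0, 0⟩, 0⟩ 0 0)))) (.pos 32 .mp ⟨322265632, 0, 0, 0, 0, 0, 0, 0, 0, ⟨0, 0⟩, 0⟩ 0 0)) (.cut .v 17039360 (.cut .s 11993088 (.cut .s 11862016 (.pos 31 .mp ⟨112598926, 0, 0, 0, 0, 223663062, 0, 0, 0, ⟨0, 0⟩, 0⟩ 0 0) (.cut .s 11927552 (.pos 31 .mp ⟨115802827, 0, 0, 0, 0, 239607749, 0, 0, 0, ⟨0, 0⟩, 0⟩ 0 0) (.pos 31 .mp ⟨119052160, 0, 0, 0, 0, 248669157, 0, 0, 0, ⟨0, 0⟩, 0⟩ 0 0))) (.cut .s 12124160 (.cut .s 12058624 (.pos 31 .mp ⟨122349112, 0, 0, 0, 0, 258512027, 0, 0, 0, ⟨0, 0⟩, 0⟩ 0 0) (.pos 31 .mp ⟨125695989, 0, 0, 0, 0, 269145645, 0, 0, 0, ⟨0, 0⟩, 0⟩ 0 0)) (.pos 31 .mp ⟨132549396, 0, 0,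 0, 0, 280929918, 0, 0, 0, ⟨0, 0⟩, 0⟩ 0 0))) (.pos 32 .mp ⟨288315007, 0, 0, 0, 0, 0, 0, 0, 0, ⟨0, 0⟩, 0⟩ 0 0))) (.pos 30 .mp ⟨317284576, 0, 0, 0, 0, 0, 0, 0, 0, ⟨0, 0⟩, 0⟩ 0 0)) (.pos 28 .mp ⟨336402839, 0, 0, 0, 0, 0, 0, 0, 0, ⟨0, 0⟩, 0⟩ 0 0)) (.void 26 ⟨100000, 0, 0, 0, 0, 0, 0, 0, 0, ⟨0, 0⟩, 0⟩ 0 0))))))) (.void 24 ⟨100000, 0, 0, 0, 0, 0, 0, 0, 0, ⟨0, 0⟩, 0⟩ 0 0))) (.void 22 ⟨100000, 0, 0, 0, 0, 0, 0, 0, 0, ⟨0, 0⟩, 0⟩ 0 0))) (.void 61 ⟨100000, 0, 0, 0, 0, 0, 0, 0, 0, ⟨0, 0⟩, 0⟩ 0 0)) (.void 70 ⟨100000, 0, 0, 0, 0, 0, 0, 0, 0, ⟨0, 0⟩, 0⟩ 0 0)) (.void 87 ⟨95634, 0, 0, 4366, 0, 0, 0, 0, 0, ⟨0, 0⟩, 0⟩ 0 0))) (.cut .v 16777216 (.cut .v 8388608 (.cut .v 4194304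 (.cut .v 2097152 (.cut .v 1048576 (.pos 100 .pm ⟨0, 0, 11682936, 0, 0, 0, 0, 0, 0, ⟨0, 0⟩, 0⟩ 0 0) (.pos 101 .pm ⟨0, 5234982, 0, 0, 0, 0, 0, 0, 0, ⟨0, 0⟩, 0⟩ 0 0)) (.cut .d 3608508 (.pos 7 .pm ⟨0, 0, 34549229, 0, 0, 0, 0, 0, 0, ⟨0, 0⟩, 0⟩ 0 0) (.cut .d 5412762 (.pos 7 .pm ⟨0, 0, 0, 0, 0, 0, 0, 0, 0, ⟨0, 0⟩, 0⟩ 0 0) (.cut .d 6314889 (.pos 7 .pm ⟨0, 78814403, 0, 0, 0, 0, 0, 0, 0, ⟨0, 0⟩, 0⟩ 0 0) (.pos 7 .pm ⟨0, 115214352, 0, 0, 0, 0, 0, 0, 0, ⟨0, 0⟩, 0⟩ 0 0))))) (.cut .d 3608508 (.pos 5 .pm ⟨0, 0, 2040007, 0, 0, 0, 0, 0, 0, ⟨0, 0⟩, 0⟩ 0 0) (.cut .d 5412762 (.pos 5 .pm ⟨0, 0, 0, 0, 0, 0, 0, 0, 0, ⟨0, 0⟩, 0⟩ 0 0) (.cut .d 6314889 (.cut .s 11993088 (.cut .v 6291456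 (.pos 77 .pm ⟨0, 0, 0, 0, 0, 0, 0, 0, 0, ⟨0, 0⟩, 0⟩ 0 0) (.pos 78 .pm ⟨0, 93391725, 0, 0, 0, 0, 0, 0, 0, ⟨0, 0⟩, 0⟩ 0 0)) (.cut .d 5863825 (.cut .v 6291456 (.pos 77 .pm ⟨0, 10407933, 0, 0, 0, 0, 0, 0, 0, ⟨0, 0⟩, 0⟩ 0 0) (.pos 78 .pm ⟨0, 115172889, 0, 0, 0, 0, 0, 0, 0, ⟨0, 0⟩, 0⟩ 0 0)) (.cut .v 6291456 (.cut .s 12124160 (.cut .d 6089357 (.pos 77 .pm ⟨0, 0, 0, 0, 0, 0, 0, 0, 0, ⟨0, 0⟩, 0⟩ 0 0) (.cut .v 5242880 (.pos 110 .pm ⟨0, 119348300, 0, 0, 0, 0, 0, 0, 0, ⟨0, 0⟩, 0⟩ 0 0) (.cut .l 850045 (.cut .l 548055 (.cut .s 12058624 (.cut .d 6202123 (.pos 111 .pm ⟨0, 0, 0, 0, 0, 0, 0, 0, 0, ⟨0, 0⟩, 0⟩ 0 0) (.cut .v 5767168 (.pos 112 .pm ⟨0, 127931567, 0, 0, 0, 0, 0, 0,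 0, ⟨0, 0⟩, 0⟩ 0 0) (.cut .s 12025856 (.pos 113 .pm ⟨0, 129534392, 0, 0, 0, 0, 0, 0, 0, ⟨0, 0⟩, 0⟩ 0 0) (.pos 113 .pm ⟨0, 135415858, 0, 0, 0, 0, 0, 0, 0, ⟨0, 0⟩, 0⟩ 0 0)))) (.cut .l 397060 (.cut .d 6202123 (.cut .v 5767168 (.pos 112 .pm ⟨0, 130532430, 0, 0, 0, 0, 0, 0, 0, ⟨0, 0⟩, 0⟩ 0 0) (.pos 113 .pm ⟨0, 134360324, 0, 0, 0, 0, 0, 0, 0, ⟨0, 0⟩, 0⟩ 0 0)) (.cut .v 5767168 (.pos 112 .pm ⟨0, 138182309, 0, 0, 0, 0, 0, 0, 0, ⟨0, 0⟩, 0⟩ 0 0) (.pos 113 .pm ⟨0, 144391199, 0, 0, 0, 0, 0, 0, 0, ⟨0, 0⟩, 0⟩ 0 0))) (.pos 111 .pm ⟨0, 136957186, 0, 0, 0, 0, 0, 0, 0, ⟨0, 0⟩, 0⟩ 0 0))) (.pos 111 .pm ⟨0, 130870675, 0, 0, 0, 0, 0, 0, 0, ⟨0, 0⟩, 0⟩ 0 0)) (.pos 111 .pm ⟨0, 129912105,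 0, 0, 0, 0, 0, 0, 0, ⟨0, 0⟩, 0⟩ 0 0)))) (.cut .d 6089357 (.cut .v 5242880 (.pos 110 .pm ⟨0, 124727383, 0, 0, 0, 0, 0, 0, 0, ⟨0, 0⟩, 0⟩ 0 0) (.cut .d 5976591 (.pos 111 .pm ⟨0, 128910435, 0, 0, 0, 0, 0, 0, 0, ⟨0, 0⟩, 0⟩ 0 0) (.cut .s 12189696 (.cut .v 5767168 (.pos 112 .pm ⟨0, 132680808, 0, 0, 0, 0, 0, 0, 0, ⟨0, 0⟩, 0⟩ 0 0) (.pos 113 .pm ⟨0, 136177021, 0, 0, 0, 0, 0, 0, 0, ⟨0, 0⟩, 0⟩ 0 0)) (.pos 111 .pm ⟨0, 145795142, 0, 0, 0, 0, 0, 0, 0, ⟨0, 0⟩, 0⟩ 0 0)))) (.cut .v 5242880 (.pos 110 .pm ⟨0, 137822303, 0, 0, 0, 0, 0, 0, 0, ⟨0, 0⟩, 0⟩ 0 0) (.cut .v 5767168 (.pos 112 .pm ⟨0, 150065543, 0, 0, 0, 0, 0, 0, 0, ⟨0, 0⟩, 0⟩ 0 0) (.pos 113 .pm ⟨0, 158362593, 0, 0, 0, 0,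 0, 0, 0, ⟨0, 0⟩, 0⟩ 0 0))))) (.cut .v 7340032 (.cut .s 12124160 (.cut .d 6089357 (.pos 104 .pm ⟨0, 53894492, 0, 0, 0, 0, 0, 0, 0, ⟨0, 0⟩, 0⟩ 0 0) (.cut .s 12058624 (.pos 104 .pm ⟨0, 135756198, 0, 0, 0, 0, 0, 0, 0, ⟨0, 0⟩, 0⟩ 0 0) (.pos 104 .pm ⟨0, 146706675, 0, 0, 0, 0, 0, 0, 0, ⟨0, 0⟩, 0⟩ 0 0))) (.cut .d 6089357 (.pos 104 .pm ⟨0, 146436018, 0, 0, 0, 0, 0, 0, 0, ⟨0, 0⟩, 0⟩ 0 0) (.pos 104 .pm ⟨0, 165512874, 0, 0, 0, 0, 0, 0, 0, ⟨0, 0⟩, 0⟩ 0 0))) (.pos 105 .pm ⟨0, 164155573, 0, 0, 0, 0, 0, 0, 0, ⟨0, 0⟩, 0⟩ 0 0))))) (.cut .s 11993088 (.cut .v 6291456 (.cut .d 6765953 (.cut .s 11862016 (.cut .d 6540421 (.pos 77 .pm ⟨0, 0, 0, 0, 0, 0, 0, 0, 0, ⟨0, 0⟩, 0⟩ 0 0) (.cut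 .v 5242880 (.pos 110 .pm ⟨0, 104008796, 0, 0, 0, 0, 0, 0, 0, ⟨0, 0⟩, 0⟩ 0 0) (.cut .v 5767168 (.pos 112 .pm ⟨0, 113333100, 0, 0, 0, 0, 0, 0, 0, ⟨0, 0⟩, 0⟩ 0 0) (.cut .l 850045 (.cut .l 548055 (.cut .s 11796480 (.cut .s 11763712 (.pos 113 .pm ⟨0, 113334274, 0, 0, 0, 0, 0, 0, 0, ⟨0, 0⟩, 0⟩ 0 0) (.pos 113 .pm ⟨0, 118439766, 0, 0, 0, 0, 0, 0, 0, ⟨0, 0⟩, 0⟩ 0 0)) (.cut .d 6653187 (.pos 113 .pm ⟨0, 122649725, 0, 0, 0, 0, 0, 0, 0, ⟨0, 0⟩, 0⟩ 0 0) (.pos 113 .pm ⟨0, 130315343, 0, 0, 0, 0, 0, 0, 0, ⟨0, 0⟩, 0⟩ 0 0))) (.pos 113 .pm ⟨0, 119796537, 0, 0, 0, 0, 0, 0, 0, ⟨0, 0⟩, 0⟩ 0 0)) (.pos 113 .pm ⟨0, 119269485, 0, 0, 0, 0, 0, 0, 0, ⟨0, 0⟩, 0⟩ 0 0))))) (.cut .v 5242880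 (.pos 110 .pm ⟨0, 116527346, 0, 0, 0, 0, 0, 0, 0, ⟨0, 0⟩, 0⟩ 0 0) (.cut .l 850045 (.cut .d 6540421 (.cut .l 548055 (.cut .s 11927552 (.cut .d 6427655 (.pos 111 .pm ⟨0, 0, 0, 0, 0, 0, 0, 0, 0, ⟨0, 0⟩, 0⟩ 0 0) (.cut .s 11894784 (.pos 111 .pm ⟨0, 120896577, 0, 0, 0, 0, 0, 0, 0, ⟨0, 0⟩, 0⟩ 0 0) (.pos 111 .pm ⟨0, 126983833, 0, 0, 0, 0, 0, 0, 0, ⟨0, 0⟩, 0⟩ 0 0))) (.cut .v 5767168 (.pos 112 .pm ⟨0, 126903063, 0, 0, 0, 0, 0, 0, 0, ⟨0, 0⟩, 0⟩ 0 0) (.cut .d 6427655 (.cut .s 11960320 (.pos 113 .pm ⟨0, 126574860, 0, 0, 0, 0, 0, 0, 0, ⟨0, 0⟩, 0⟩ 0 0) (.pos 113 .pm ⟨0, 132189159, 0, 0, 0, 0, 0, 0, 0, ⟨0, 0⟩, 0⟩ 0 0)) (.pos 113 .pm ⟨0, 138813912, 0, 0, 0, 0, 0, 0, 0, ⟨0,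 0⟩, 0⟩ 0 0)))) (.pos 111 .pm ⟨0, 125863245, 0, 0, 0, 0, 0, 0, 0, ⟨0, 0⟩, 0⟩ 0 0)) (.cut .s 11927552 (.cut .v 5767168 (.pos 112 .pm ⟨0, 127831510, 0, 0, 0, 0, 0, 0, 0, ⟨0, 0⟩, 0⟩ 0 0) (.pos 113 .pm ⟨0, 137782599, 0, 0, 0, 0, 0, 0, 0, ⟨0, 0⟩, 0⟩ 0 0)) (.void 111 ⟨0, 100000, 0, 0, 0, 0, 0, 0, 0, ⟨0, 0⟩, 0⟩ 0 0))) (.pos 111 .pm ⟨0, 133237574, 0, 0, 0, 0, 0, 0, 0, ⟨0, 0⟩, 0⟩ 0 0)))) (.cut .s 11862016 (.cut .s 11796480 (.cut .d 6991485 (.cut .s 11763712 (.cut .d 6878719 (.pos 77 .pm ⟨0, 122604193, 0, 0, 0, 0, 0, 0, 0, ⟨0, 0⟩, 0⟩ 0 0) (.pos 77 .pm ⟨0, 300758602, 0, 0, 0, 0, 0, 0, 0, ⟨0, 0⟩, 0⟩ 0 0)) (.pos 77 .pm ⟨0, 142210004, 0, 0, 0, 0, 0, 0, 0, ⟨0, 0⟩, 0⟩ 0 0))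 (.void 77 ⟨0, 100000, 0, 0, 0, 0, 0, 0, 0, ⟨0, 0⟩, 0⟩ 0 0)) (.pos 77 .pm ⟨0, 294467927, 0, 0, 0, 0, 0, 0, 0, ⟨0, 0⟩, 0⟩ 0 0)) (.void 77 ⟨0, 100000, 0, 0, 0, 0, 0, 0, 0, ⟨0, 0⟩, 0⟩ 0 0))) (.cut .d 6765953 (.cut .s 11862016 (.cut .d 6540421 (.pos 78 .pm ⟨0, 111266943, 0, 0, 0, 0, 0, 0, 0, ⟨0, 0⟩, 0⟩ 0 0) (.cut .v 7340032 (.cut .l 850045 (.cut .l 548055 (.cut .s 11796480 (.cut .v 6815744 (.cut .s 11763712 (.pos 106 .pm ⟨0, 117059663, 0, 0, 0, 0, 0, 0, 0, ⟨0, 0⟩, 0⟩ 0 0) (.cut .d 6653187 (.pos 106 .pm ⟨0, 0, 0, 0, 0, 0, 0, 0, 0, ⟨0, 0⟩, 0⟩ 0 0) (.pos 106 .pm ⟨0, 124689614, 0, 0, 0, 0, 0, 0, 0, ⟨0, 0⟩, 0⟩ 0 0))) (.pos 107 .pm ⟨0, 126476643, 0, 0, 0, 0, 0, 0, 0,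 ⟨0, 0⟩, 0⟩ 0 0)) (.cut .v 6815744 (.cut .d 6653187 (.pos 106 .pm ⟨0, 125753773, 0, 0, 0, 0, 0, 0, 0, ⟨0, 0⟩, 0⟩ 0 0) (.pos 106 .pm ⟨0, 133904128, 0, 0, 0, 0, 0, 0, 0, ⟨0, 0⟩, 0⟩ 0 0)) (.pos 107 .pm ⟨0, 137666944, 0, 0, 0, 0, 0, 0, 0, ⟨0, 0⟩, 0⟩ 0 0))) (.pos 104 .pm ⟨0, 124753890, 0, 0, 0, 0, 0, 0, 0, ⟨0, 0⟩, 0⟩ 0 0)) (.pos 104 .pm ⟨0, 124215002, 0, 0, 0, 0, 0, 0, 0, ⟨0, 0⟩, 0⟩ 0 0)) (.pos 105 .pm ⟨0, 139189200, 0, 0, 0, 0, 0, 0, 0, ⟨0, 0⟩, 0⟩ 0 0))) (.cut .v 7340032 (.cut .l 850045 (.cut .d 6540421 (.cut .v 6815744 (.cut .l 548055 (.cut .l 397060 (.cut .s 11927552 (.cut .s 11894784 (.pos 106 .pm ⟨0, 125272185, 0, 0, 0, 0, 0, 0, 0, ⟨0, 0⟩, 0⟩ 0 0) (.pos 106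 .pm ⟨0, 130391754, 0, 0, 0, 0, 0, 0, 0, ⟨0, 0⟩, 0⟩ 0 0)) (.cut .d 6427655 (.pos 106 .pm ⟨0, 134196473, 0, 0, 0, 0, 0, 0, 0, ⟨0, 0⟩, 0⟩ 0 0) (.pos 106 .pm ⟨0, 142306733, 0, 0, 0, 0, 0, 0, 0, ⟨0, 0⟩, 0⟩ 0 0))) (.pos 106 .pm ⟨0, 132843530, 0, 0, 0, 0, 0, 0, 0, ⟨0, 0⟩, 0⟩ 0 0)) (.pos 106 .pm ⟨0, 132627535, 0, 0, 0, 0, 0, 0, 0, ⟨0, 0⟩, 0⟩ 0 0)) (.pos 107 .pm ⟨0, 141507873, 0, 0, 0, 0, 0, 0, 0, ⟨0, 0⟩, 0⟩ 0 0)) (.cut .s 11927552 (.pos 104 .pm ⟨0, 143853166, 0, 0, 0, 0, 0, 0, 0, ⟨0, 0⟩, 0⟩ 0 0) (.void 104 ⟨0, 100000, 0, 0, 0, 0, 0, 0, 0, ⟨0, 0⟩, 0⟩ 0 0))) (.pos 104 .pm ⟨0, 142084641, 0, 0, 0, 0, 0, 0, 0, ⟨0, 0⟩, 0⟩ 0 0)) (.pos 105 .pm ⟨0, 159237666, 0, 0, 0, 0, 0,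 0, 0, ⟨0, 0⟩, 0⟩ 0 0))) (.cut .s 11862016 (.cut .s 11796480 (.cut .d 6991485 (.cut .v 7340032 (.cut .d 6878719 (.cut .v 6815744 (.cut .s 11763712 (.cut .d 6822336 (.cut .v 6553600 (.pos 114 .pm ⟨0, 123012600, 0, 0, 0, 0, 0, 0, 0, ⟨0, 0⟩, 0⟩ 0 0) (.pos 115 .pm ⟨0, 125769484, 0, 0, 0, 0, 0, 0, 0, ⟨0, 0⟩, 0⟩ 0 0)) (.pos 106 .pm ⟨0, 148565154, 0, 0, 0, 0, 0, 0, 0, ⟨0, 0⟩, 0⟩ 0 0)) (.void 106 ⟨0, 100000, 0, 0, 0, 0, 0, 0, 0, ⟨0, 0⟩, 0⟩ 0 0)) (.pos 107 .pm ⟨0, 134049047, 0, 0, 0, 0, 0, 0, 0, ⟨0, 0⟩, 0⟩ 0 0)) (.void 104 ⟨0, 100000, 0, 0, 0, 0, 0, 0, 0, ⟨0, 0⟩, 0⟩ 0 0)) (.void 105 ⟨0, 100000, 0, 0, 0, 0, 0, 0, 0, ⟨0, 0⟩, 0⟩ 0 0)) (.void 78 ⟨0, 0, 0, 100000, 0, 0, 0,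 0, 0, ⟨0, 0⟩, 0⟩ 0 0)) (.void 78 ⟨0, 100000, 0, 0, 0, 0, 0, 0, 0, ⟨0, 0⟩, 0⟩ 0 0)) (.void 78 ⟨0, 0, 0, 100000, 0, 0, 0, 0, 0, ⟨0, 0⟩, 0⟩ 0 0)))) (.cut .d 6765953 (.cut .s 12124160 (.cut .v 6291456 (.cut .v 5242880 (.pos 110 .pm ⟨0, 135272072, 0, 0, 0, 0, 0, 0, 0, ⟨0, 0⟩, 0⟩ 0 0) (.cut .v 5767168 (.pos 112 .pm ⟨0, 148283636, 0, 0, 0, 0, 0, 0, 0, ⟨0, 0⟩, 0⟩ 0 0) (.cut .s 12058624 (.cut .d 6540421 (.cut .d 6427655 (.pos 113 .pm ⟨0, 141849553, 0, 0, 0, 0, 0, 0, 0, ⟨0, 0⟩, 0⟩ 0 0) (.void 113 ⟨0, 100000, 0, 0, 0, 0, 0, 0, 0, ⟨0, 0⟩, 0⟩ 0 0)) (.void 113 ⟨0, 0, 0, 100000, 0, 0, 0, 0, 0, ⟨0, 0⟩, 0⟩ 0 0)) (.void 113 ⟨0, 100000, 0, 0, 0, 0, 0, 0, 0, ⟨0, 0⟩, 0⟩ 0 0))))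 (.pos 78 .pm ⟨0, 173016293, 0, 0, 0, 0, 0, 0, 0, ⟨0, 0⟩, 0⟩ 0 0)) (.void 5 ⟨0, 0, 0, 100000, 0, 0, 0, 0, 0, ⟨0, 0⟩, 0⟩ 0 0)) (.void 5 ⟨0, 0, 0, 100000, 0, 0, 0, 0, 0, ⟨0, 0⟩, 0⟩ 0 0))))))) (.cut .d 3608508 (.pos 3 .pm ⟨0, 0, 0, 0, 0, 0, 0, 0, 0, ⟨0, 0⟩, 0⟩ 0 0) (.cut .d 5412762 (.pos 3 .pm ⟨0, 0, 0, 0, 0, 0, 0, 0, 0, ⟨0, 0⟩, 0⟩ 0 0) (.cut .d 6314889 (.pos 3 .pm ⟨0, 141263215, 0, 0, 0, 0, 0, 0, 0, ⟨0, 0⟩, 0⟩ 0 0) (.cut .s 11993088 (.pos 3 .pm ⟨0, 182580472, 0, 0, 0, 0, 0, 0, 0, ⟨0, 0⟩, 0⟩ 0 0) (.void 3 ⟨0, 100000, 0, 0, 0, 0, 0, 0, 0, ⟨0, 0⟩, 0⟩ 0 0)))))) (.cut .v 268435456 (.cut .d 3608508 (.cut .v 67108864 (.cut .d 1804254 (.cut .v 33554432 (.cut .d 902127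 (.cut .v 25165824 (.cut .v 20971520 (.pos 23 .pp ⟨162749964, 0, 0, 0, 0, 0, 0, 0, 0, ⟨0, 0⟩, 0⟩ 0 0) (.pos 24 .pp ⟨331662114, 0, 0, 0, 0, 0, 0, 0, 0, ⟨0, 0⟩, 0⟩ 0 0)) (.pos 22 .pp ⟨534289896, 0, 0, 0, 0, 0, 0, 0, 0, ⟨0, 0⟩, 0⟩ 0 0)) (.pos 20 .pp ⟨0, 0, 0, 0, 0, 0, 0, 0, 0, ⟨0, 0⟩, 0⟩ 0 0)) (.cut .d 902127 (.cut .v 50331648 (.pos 64 .pp ⟨1238733306, 0, 0, 0, 0, 0, 0, 0, 0, ⟨0, 0⟩, 0⟩ 0 0) (.void 65 ⟨100000, 0, 0, 0, 0, 0, 0, 0, 0, ⟨0, 0⟩, 0⟩ 0 0)) (.cut .v 50331648 (.pos 64 .pp ⟨535465408, 0, 0, 0, 0, 0, 0, 0, 0, ⟨0, 0⟩, 0⟩ 0 0) (.pos 65 .pp ⟨1372902653, 0, 0, 0, 0, 0, 0, 0, 0, ⟨0, 0⟩, 0⟩ 0 0)))) (.pos 60 .pp ⟨0, 0, 0, 0, 0, 0, 0, 0, 0, ⟨0, 0⟩, 0⟩ 0 0)) (.cut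 .v 134217728 (.cut .d 1804254 (.cut .v 100663296 (.cut .d 902127 (.void 75 ⟨100000, 0, 0, 0, 0, 0, 0, 0, 0, ⟨0, 0⟩, 0⟩ 0 0) (.cut .v 83886080 (.pos 79 .pp ⟨2633739656, 0, 0, 0, 0, 0, 0, 0, 0, ⟨0, 0⟩, 0⟩ 0 0) (.cut .d 1353190 (.void 80 ⟨100000, 0, 0, 0, 0, 0, 0, 0, 0, ⟨0, 0⟩, 0⟩ 0 0) (.pos 80 .pp ⟨3298125037, 612439032, 0, 0, 0, 0, 0, 0, 0, ⟨0, 0⟩, 0⟩ 0 0)))) (.void 76 ⟨39378, 60622, 0, 0, 0, 0, 0, 0, 0, ⟨0, 0⟩, 0⟩ 0 0)) (.pos 73 .pp ⟨0, 896708398, 0, 0, 0, 0, 0, 0, 0, ⟨0, 0⟩, 0⟩ 0 0)) (.void 74 ⟨38196, 61804, 0, 0, 0, 0, 0, 0, 0, ⟨0, 0⟩, 0⟩ 0 0))) (.pos 69 .pp ⟨0, 198424342, 0, 0, 0, 0, 0, 0, 0, ⟨0, 0⟩, 0⟩ 0 0)) (.void 87 ⟨0, 0, 0, 100000, 0, 0, 0, 0, 0, ⟨0,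 0⟩, 0⟩ 0 0)))),
    by decide +kernel⟩

def covers18 : cell.Covers table row18.1 :=
  ⟨(.cut .d 0 (.cut .v 16777216 (.cut .d (-8388608) (.void 1 ⟨0, 0, 0, 0, 0, 100000, 0, 0, 0, ⟨0, 0⟩, 0⟩ 0 0) (.cut .d (-4194304) (.void 1 ⟨0, 0, 0, 0, 0, 100000, 0, 0, 0, ⟨0, 0⟩, 0⟩ 0 0) (.cut .d (-2097152) (.void 1 ⟨0, 0, 0, 0, 0, 100000, 0, 0, 0, ⟨0, 0⟩, 0⟩ 0 0) (.cut .d (-1048576) (.void 1 ⟨0, 0, 0, 0, 0, 100000, 0, 0, 0, ⟨0, 0⟩, 0⟩ 0 0) (.cut .d (-524288) (.void 1 ⟨0, 0, 0, 0, 0, 100000, 0, 0, 0, ⟨0, 0⟩, 0⟩ 0 0) (.cut .d (-262144) (.void 1 ⟨0, 0, 0, 0, 0, 100000, 0, 0, 0, ⟨0, 0⟩, 0⟩ 0 0) (.cut .d (-131072) (.void 1 ⟨0, 0, 0, 0, 0, 100000, 0, 0, 0, ⟨0, 0⟩, 0⟩ 0 0) (.cut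 .v 8388608 (.cut .v 4194304 (.void 4 ⟨0, 0, 100000, 0, 0, 0, 0, 0, 0, ⟨0, 0⟩, 0⟩ 0 0) (.pos 5 .mm ⟨0, 0, 5913621, 0, 0, 261694650, 0, 0, 0, ⟨0, 0⟩, 0⟩ 0 0)) (.cut .d (-65536) (.pos 3 .mm ⟨0, 0, 0, 0, 0, 651241300, 0, 0, 0, ⟨0, 0⟩, 0⟩ 0 0) (.cut .s 12484608 (.pos 3 .mm ⟨0, 0, 0, 0, 0, 543168699, 0, 0, 0, ⟨0, 0⟩, 0⟩ 0 0) (.cut .s 12599296 (.pos 3 .mm ⟨0, 0, 0, 0, 0, 587536395, 0, 0, 0, ⟨0, 0⟩, 0⟩ 0 0) (.pos 3 .mm ⟨0, 0, 0, 0, 0, 623075376, 0, 0, 0, ⟨0, 0⟩, 0⟩ 0 0)))))))))))) (.cut .v 268435456 (.cut .v 67108864 (.cut .v 33554432 (.cut .d (-8388608) (.void 20 ⟨100000, 0, 0, 0, 0, 0, 0, 0, 0, ⟨0, 0⟩, 0⟩ 0 0) (.cut .v 25165824 (.cut .d (-4194304) (.void 21 ⟨100000,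 0, 0, 0, 0, 0, 0, 0, 0, ⟨0, 0⟩, 0⟩ 0 0) (.cut .v 20971520 (.cut .d (-2097152) (.void 23 ⟨100000, 0, 0, 0, 0, 0, 0, 0, 0, ⟨0, 0⟩, 0⟩ 0 0) (.cut .d (-1048576) (.void 23 ⟨100000, 0, 0, 0, 0, 0, 0, 0, 0, ⟨0, 0⟩, 0⟩ 0 0) (.cut .d (-524288) (.void 23 ⟨100000, 0, 0, 0, 0, 0, 0, 0, 0, ⟨0, 0⟩, 0⟩ 0 0) (.cut .d (-262144) (.void 23 ⟨100000, 0, 0, 0, 0, 0, 0, 0, 0, ⟨0, 0⟩, 0⟩ 0 0) (.cut .d (-131072) (.void 23 ⟨100000, 0, 0, 0, 0, 0, 0, 0, 0, ⟨0, 0⟩, 0⟩ 0 0) (.cut .v 18874368 (.cut .v 17825792 (.cut .v 17301504 (.cut .d (-65536) (.cut .s 12484608 (.pos 29 .mp ⟨123351077, 0, 0, 0, 0, 409374498, 0, 0, 0, ⟨0, 0⟩, 0⟩ 0 0) (.cut .v 17039360 (.cut .s 12599296 (.pos 31 .mp ⟨120455888,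 0, 0, 0, 0, 436247089, 0, 0, 0, ⟨0, 0⟩, 0⟩ 0 0) (.pos 31 .mp ⟨124405684, 0, 0, 0, 0, 464622892, 0, 0, 0, ⟨0, 0⟩, 0⟩ 0 0)) (.pos 32 .mp ⟨432228954, 0, 0, 0, 0, 0, 0, 0, 0, ⟨0, 0⟩, 0⟩ 0 0))) (.cut .v 17039360 (.cut .s 12484608 (.cut .s 12369920 (.pos 31 .mp ⟨138997769, 0, 0, 0, 0, 309432757, 0, 0, 0, ⟨0, 0⟩, 0⟩ 0 0) (.cut .s 12427264 (.pos 31 .mp ⟨142264362, 0, 0, 0, 0, 323262418, 0, 0, 0, ⟨0, 0⟩, 0⟩ 0 0) (.cut .d (-32768) (.pos 31 .mp ⟨99931514, 0, 0, 0, 0, 420612963, 0, 0, 0, ⟨0, 0⟩, 0⟩ 0 0) (.pos 31 .mp ⟨128192061, 0, 0, 0, 0, 356753743, 0, 0, 0, ⟨0, 0⟩, 0⟩ 0 0)))) (.cut .s 12599296 (.cut .s 12541952 (.cut .s 12513280 (.pos 31 .mp ⟨147219268, 0, 0, 0, 0, 341205651,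 0, 0, 0, ⟨0, 0⟩, 0⟩ 0 0) (.cut .s 12527616 (.pos 31 .mp ⟨148051811, 0, 0, 0, 0, 345868022, 0, 0, 0, ⟨0, 0⟩, 0⟩ 0 0) (.pos 31 .mp ⟨148886343, 0, 0, 0, 0, 348589228, 0, 0, 0, ⟨0, 0⟩, 0⟩ 0 0))) (.cut .d (-32768) (.cut .v 16908288 (.pos 51 .mp ⟨101744203, 0, 0, 0, 0, 444721141, 0, 0, 0, ⟨0, 0⟩, 0⟩ 0 0) (.pos 52 .mp ⟨198337699, 0, 0, 0, 0, 287417040, 0, 0, 0, ⟨0, 0⟩, 0⟩ 0 0)) (.pos 31 .mp ⟨133265050, 0, 0, 0, 0, 379552377, 0, 0, 0, ⟨0, 0⟩, 0⟩ 0 0))) (.cut .s 12656640 (.cut .d (-32768) (.cut .v 16908288 (.cut .s 12627968 (.pos 51 .mp ⟨103527853, 0, 0, 0, 0, 453881012, 0, 0, 0, ⟨0, 0⟩, 0⟩ 0 0) (.pos 51 .mp ⟨104395374, 0, 0, 0, 0, 461750929, 0, 0, 0, ⟨0, 0⟩, 0⟩ 0 0))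 (.pos 52 .mp ⟨204181769, 0, 0, 0, 0, 295195689, 0, 0, 0, ⟨0, 0⟩, 0⟩ 0 0)) (.cut .s 12627968 (.pos 31 .mp ⟨134530207, 0, 0, 0, 0, 392172605, 0, 0, 0, ⟨0, 0⟩, 0⟩ 0 0) (.pos 31 .mp ⟨135794187, 0, 0, 0, 0, 399093903, 0, 0, 0, ⟨0, 0⟩, 0⟩ 0 0))) (.cut .d (-32768) (.cut .l 850045 (.pos 31 .mp ⟨121518787, 0, 0, 0, 0, 460878713, 0, 0, 0, ⟨0, 0⟩, 0⟩ 0 0) (.cut .v 16908288 (.pos 51 .mp ⟨55386523, 0, 0, 0, 0, 551037521, 0, 0, 0, ⟨0, 0⟩, 0⟩ 0 0) (.pos 52 .mp ⟨146692199, 0, 0, 0, 0, 404594243, 0, 0, 0, ⟨0, 0⟩, 0⟩ 0 0))) (.cut .s 12685312 (.pos 31 .mp ⟨137057019, 0, 0, 0, 0, 406299850, 0, 0, 0, ⟨0, 0⟩, 0⟩ 0 0) (.cut .s 12699648 (.pos 31 .mp ⟨137688015, 0, 0, 0, 0, 411321903,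 0, 0, 0, ⟨0, 0⟩, 0⟩ 0 0) (.pos 31 .mp ⟨138318736, 0, 0, 0, 0, 414777528, 0, 0, 0, ⟨0, 0⟩, 0⟩ 0 0))))))) (.pos 32 .mp ⟨374262890, 0, 0, 0, 0, 0, 0, 0, 0, ⟨0, 0⟩, 0⟩ 0 0))) (.pos 30 .mp ⟨407608951, 0, 0, 0, 0, 0, 0, 0, 0, ⟨0, 0⟩, 0⟩ 0 0)) (.pos 28 .mp ⟨433864267, 0, 0, 0, 0, 0, 0, 0, 0, ⟨0, 0⟩, 0⟩ 0 0)) (.void 26 ⟨100000, 0, 0, 0, 0, 0, 0, 0, 0, ⟨0, 0⟩, 0⟩ 0 0))))))) (.void 24 ⟨100000, 0, 0, 0, 0, 0, 0, 0, 0, ⟨0, 0⟩, 0⟩ 0 0))) (.void 22 ⟨100000, 0, 0, 0, 0, 0, 0, 0, 0, ⟨0, 0⟩, 0⟩ 0 0))) (.void 61 ⟨100000, 0, 0, 0, 0, 0, 0, 0, 0, ⟨0, 0⟩, 0⟩ 0 0)) (.void 70 ⟨100000, 0, 0, 0, 0, 0, 0, 0, 0, ⟨0, 0⟩, 0⟩ 0 0)) (.void 87 ⟨95478, 0, 0, 4522, 0, 0, 0, 0, 0, ⟨0, 0⟩, 0⟩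 0 0))) (.cut .v 16777216 (.cut .v 8388608 (.cut .v 4194304 (.cut .v 2097152 (.cut .v 1048576 (.pos 100 .pm ⟨0, 0, 10278273, 0, 0, 0, 0, 0, 0, ⟨0, 0⟩, 0⟩ 0 0) (.pos 101 .pm ⟨0, 7661640, 0, 0, 0, 0, 0, 0, 0, ⟨0, 0⟩, 0⟩ 0 0)) (.cut .d 3095263 (.pos 7 .pm ⟨0, 0, 46693589, 0, 0, 0, 0, 0, 0, ⟨0, 0⟩, 0⟩ 0 0) (.cut .d 4642894 (.pos 7 .pm ⟨0, 0, 0, 0, 0, 0, 0, 0, 0, ⟨0, 0⟩, 0⟩ 0 0) (.cut .d 5416710 (.pos 7 .pm ⟨0, 88588193, 0, 0, 0, 0, 0, 0, 0, ⟨0, 0⟩, 0⟩ 0 0) (.cut .s 12484608 (.pos 7 .pm ⟨0, 116663086, 0, 0, 0, 0, 0, 0, 0, ⟨0, 0⟩, 0⟩ 0 0) (.pos 7 .pm ⟨0, 151039227, 0, 0, 0, 0, 0, 0, 0, ⟨0, 0⟩, 0⟩ 0 0)))))) (.cut .d 3095263 (.pos 5 .pm ⟨0, 0, 4672943, 0, 0, 0, 0, 0,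 0, ⟨0, 0⟩, 0⟩ 0 0) (.cut .d 4642894 (.pos 5 .pm ⟨0, 0, 0, 0, 0, 0, 0, 0, 0, ⟨0, 0⟩, 0⟩ 0 0) (.cut .d 5416710 (.cut .s 12484608 (.pos 5 .pm ⟨0, 0, 0, 0, 0, 0, 0, 0, 0, ⟨0, 0⟩, 0⟩ 0 0) (.cut .v 6291456 (.cut .d 5029802 (.pos 77 .pm ⟨0, 0, 0, 0, 0, 0, 0, 0, 0, ⟨0, 0⟩, 0⟩ 0 0) (.cut .s 12599296 (.pos 77 .pm ⟨0, 129288755, 0, 0, 0, 0, 0, 0, 0, ⟨0, 0⟩, 0⟩ 0 0) (.cut .v 5242880 (.pos 110 .pm ⟨0, 146743664, 0, 0, 0, 0, 0, 0, 0, ⟨0, 0⟩, 0⟩ 0 0) (.pos 111 .pm ⟨0, 159021866, 0, 0, 0, 0, 0, 0, 0, ⟨0, 0⟩, 0⟩ 0 0)))) (.pos 78 .pm ⟨0, 157084465, 0, 0, 0, 0, 0, 0, 0, ⟨0, 0⟩, 0⟩ 0 0))) (.cut .s 12484608 (.cut .v 6291456 (.cut .d 5803618 (.cut .s 12369920 (.cut .v 5242880 (.pos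 110 .pm ⟨0, 118900490, 0, 0, 0, 0, 0, 0, 0, ⟨0, 0⟩, 0⟩ 0 0) (.pos 111 .pm ⟨0, 127796574, 0, 0, 0, 0, 0, 0, 0, ⟨0, 0⟩, 0⟩ 0 0)) (.cut .v 5242880 (.pos 110 .pm ⟨0, 139438842, 0, 0, 0, 0, 0, 0, 0, ⟨0, 0⟩, 0⟩ 0 0) (.cut .d 5610164 (.pos 111 .pm ⟨0, 139160375, 0, 0, 0, 0, 0, 0, 0, ⟨0, 0⟩, 0⟩ 0 0) (.pos 111 .pm ⟨0, 159883304, 0, 0, 0, 0, 0, 0, 0, ⟨0, 0⟩, 0⟩ 0 0)))) (.cut .v 5242880 (.pos 110 .pm ⟨0, 157870080, 0, 0, 0, 0, 0, 0, 0, ⟨0, 0⟩, 0⟩ 0 0) (.cut .s 12369920 (.cut .d 5997072 (.pos 111 .pm ⟨0, 152575975, 0, 0, 0, 0, 0, 0, 0, ⟨0, 0⟩, 0⟩ 0 0) (.void 111 ⟨0, 0, 0, 100000, 0, 0, 0, 0, 0, ⟨0, 0⟩, 0⟩ 0 0)) (.void 111 ⟨0, 0, 0, 100000, 0, 0, 0, 0, 0, ⟨0, 0⟩, 0⟩ 0 0))))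 (.cut .d 5803618 (.pos 78 .pm ⟨0, 154873614, 0, 0, 0, 0, 0, 0, 0, ⟨0, 0⟩, 0⟩ 0 0) (.pos 78 .pm ⟨0, 194988014, 0, 0, 0, 0, 0, 0, 0, ⟨0, 0⟩, 0⟩ 0 0))) (.cut .v 6291456 (.cut .d 5803618 (.cut .v 5242880 (.pos 110 .pm ⟨0, 172468632, 0, 0, 0, 0, 0, 0, 0, ⟨0, 0⟩, 0⟩ 0 0) (.cut .s 12599296 (.pos 111 .pm ⟨0, 177094553, 0, 0, 0, 0, 0, 0, 0, ⟨0, 0⟩, 0⟩ 0 0) (.void 111 ⟨0, 0, 0, 100000, 0, 0, 0, 0, 0, ⟨0, 0⟩, 0⟩ 0 0))) (.void 77 ⟨0, 0, 0, 100000, 0, 0, 0, 0, 0, ⟨0, 0⟩, 0⟩ 0 0)) (.pos 78 .pm ⟨0, 242002191, 0, 0, 0, 0, 0, 0, 0, ⟨0, 0⟩, 0⟩ 0 0))))))) (.cut .d 3095263 (.pos 3 .pm ⟨0, 0, 0, 0, 0, 0, 0, 0, 0, ⟨0, 0⟩, 0⟩ 0 0) (.cut .d 4642894 (.pos 3 .pm ⟨0, 0, 0, 0, 0, 0, 0,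 0, 0, ⟨0, 0⟩, 0⟩ 0 0) (.cut .d 5416710 (.pos 3 .pm ⟨0, 166082602, 0, 0, 0, 0, 0, 0, 0, ⟨0, 0⟩, 0⟩ 0 0) (.pos 3 .pm ⟨0, 258635527, 0, 0, 0, 0, 0, 0, 0, ⟨0, 0⟩, 0⟩ 0 0))))) (.cut .v 268435456 (.cut .d 3095263 (.cut .v 67108864 (.cut .d 1547631 (.cut .v 33554432 (.cut .d 773815 (.cut .v 25165824 (.cut .v 20971520 (.pos 23 .pp ⟨193636559, 0, 0, 0, 0, 0, 0, 0, 0, ⟨0, 0⟩, 0⟩ 0 0) (.pos 24 .pp ⟨415243525, 0, 0, 0, 0, 0, 0, 0, 0, ⟨0, 0⟩, 0⟩ 0 0)) (.pos 22 .pp ⟨655795295, 0, 0, 0, 0, 0, 0, 0, 0, ⟨0, 0⟩, 0⟩ 0 0)) (.pos 20 .pp ⟨0, 0, 0, 0, 0, 0, 0, 0, 0, ⟨0, 0⟩, 0⟩ 0 0)) (.cut .d 773815 (.cut .v 50331648 (.pos 64 .pp ⟨1491711611, 0, 0, 0, 0, 0, 0, 0, 0, ⟨0, 0⟩, 0⟩ 0 0)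 (.void 65 ⟨100000, 0, 0, 0, 0, 0, 0, 0, 0, ⟨0, 0⟩, 0⟩ 0 0)) (.cut .v 50331648 (.pos 64 .pp ⟨674353203, 0, 0, 0, 0, 0, 0, 0, 0, ⟨0, 0⟩, 0⟩ 0 0) (.pos 65 .pp ⟨1688409430, 0, 0, 0, 0, 0, 0, 0, 0, ⟨0, 0⟩, 0⟩ 0 0)))) (.pos 60 .pp ⟨0, 0, 0, 0, 0, 0, 0, 0, 0, ⟨0, 0⟩, 0⟩ 0 0)) (.cut .v 134217728 (.cut .d 1547631 (.cut .v 100663296 (.cut .d 773815 (.void 75 ⟨100000, 0, 0, 0, 0, 0, 0, 0, 0, ⟨0, 0⟩, 0⟩ 0 0) (.cut .v 83886080 (.pos 79 .pp ⟨3184325466, 0, 0, 0, 0, 0, 0, 0, 0, ⟨0, 0⟩, 0⟩ 0 0) (.cut .d 1160723 (.void 80 ⟨100000, 0, 0, 0, 0, 0, 0, 0, 0, ⟨0, 0⟩, 0⟩ 0 0) (.pos 80 .pp ⟨4012193279, 827005158, 0, 0, 0, 0, 0, 0, 0, ⟨0, 0⟩, 0⟩ 0 0)))) (.void 76 ⟨38677, 61323, 0,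 0, 0, 0, 0, 0, 0, ⟨0, 0⟩, 0⟩ 0 0)) (.pos 73 .pp ⟨0, 1207452432, 0, 0, 0, 0, 0, 0, 0, ⟨0, 0⟩, 0⟩ 0 0)) (.void 74 ⟨37659, 62341, 0, 0, 0, 0, 0, 0, 0, ⟨0, 0⟩, 0⟩ 0 0))) (.pos 69 .pp ⟨0, 231991677, 0, 0, 0, 0, 0, 0, 0, ⟨0, 0⟩, 0⟩ 0 0)) (.void 87 ⟨0, 0, 0, 100000, 0, 0, 0, 0, 0, ⟨0, 0⟩, 0⟩ 0 0)))),
    by decide +kernel⟩

def covers19 : cell.Covers table row19.1 :=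
  ⟨(.cut .d 0 (.cut .v 16777216 (.cut .d (-8388608) (.void 1 ⟨0, 0, 0, 0, 0, 100000, 0, 0, 0, ⟨0, 0⟩, 0⟩ 0 0) (.cut .d (-4194304) (.void 1 ⟨0, 0, 0, 0, 0, 100000, 0, 0, 0, ⟨0, 0⟩, 0⟩ 0 0) (.cut .d (-2097152) (.void 1 ⟨0, 0, 0, 0, 0, 100000, 0, 0, 0, ⟨0, 0⟩, 0⟩ 0 0) (.cut .d (-1048576) (.void 1 ⟨0, 0, 0, 0, 0, 100000, 0, 0, 0, ⟨0, 0⟩, 0⟩ 0 0) (.cut .d (-524288) (.void 1 ⟨0, 0, 0, 0, 0, 100000, 0, 0, 0, ⟨0, 0⟩, 0⟩ 0 0) (.cut .d (-262144) (.void 1 ⟨0, 0, 0, 0, 0, 100000, 0, 0, 0, ⟨0, 0⟩, 0⟩ 0 0) (.cut .d (-131072) (.void 1 ⟨0, 0, 0, 0, 0, 100000, 0, 0, 0, ⟨0, 0⟩, 0⟩ 0 0) (.cut .v 8388608 (.cut .v 4194304 (.void 4 ⟨0, 0, 100000, 0, 0, 0, 0, 0, 0, ⟨0, 0⟩, 0⟩ 0 0)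 (.pos 5 .mm ⟨0, 0, 10450719, 0, 0, 347841905, 0, 0, 0, ⟨0, 0⟩, 0⟩ 0 0)) (.cut .d (-65536) (.pos 3 .mm ⟨0, 0, 0, 0, 0, 848198087, 0, 0, 0, ⟨0, 0⟩, 0⟩ 0 0) (.cut .v 12582912 (.pos 8 .mm ⟨0, 0, 0, 0, 0, 463683358, 0, 0, 0, ⟨0, 0⟩, 0⟩ 0 0) (.cut .v 14680064 (.pos 12 .mm ⟨0, 0, 0, 0, 0, 636031832, 0, 0, 0, ⟨0, 0⟩, 0⟩ 0 0) (.cut .v 15728640 (.pos 14 .mm ⟨0, 0, 0, 0, 0, 683678271, 0, 0, 0, ⟨0, 0⟩, 0⟩ 0 0) (.cut .v 16252928 (.pos 16 .mm ⟨0, 0, 0, 0, 0, 708606446, 0, 0, 0, ⟨0, 0⟩, 0⟩ 0 0) (.cut .s 12976128 (.cut .v 16515072 (.pos 18 .mm ⟨0, 0, 0, 0, 0, 674059335, 0, 0, 0, ⟨0, 0⟩, 0⟩ 0 0) (.cut .s 12845056 (.cut .s 12779520 (.pos 19 .mm ⟨0, 0, 0, 0, 0, 647581504, 0,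 0, 0, ⟨0, 0⟩, 0⟩ 0 0) (.pos 19 .mm ⟨0, 0, 0, 0, 0, 670042868, 0, 0, 0, ⟨0, 0⟩, 0⟩ 0 0)) (.cut .s 12910592 (.pos 19 .mm ⟨0, 0, 0, 0, 0, 693380601, 0, 0, 0, ⟨0, 0⟩, 0⟩ 0 0) (.pos 19 .mm ⟨0, 0, 0, 0, 0, 717581497, 0, 0, 0, ⟨0, 0⟩, 0⟩ 0 0)))) (.cut .s 13107200 (.cut .s 13041664 (.pos 17 .mm ⟨0, 0, 0, 0, 0, 742632617, 0, 0, 0, ⟨0, 0⟩, 0⟩ 0 0) (.pos 17 .mm ⟨0, 0, 0, 0, 0, 768521275, 0, 0, 0, ⟨0, 0⟩, 0⟩ 0 0)) (.pos 17 .mm ⟨0, 0, 0, 0, 0, 817070189, 0, 0, 0, ⟨0, 0⟩, 0⟩ 0 0)))))))))))))))) (.cut .v 268435456 (.cut .v 67108864 (.cut .v 33554432 (.cut .d (-8388608) (.void 20 ⟨100000, 0, 0, 0, 0, 0, 0, 0, 0, ⟨0, 0⟩, 0⟩ 0 0) (.cut .v 25165824 (.cut .d (-4194304) (.void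 21 ⟨100000, 0, 0, 0, 0, 0, 0, 0, 0, ⟨0, 0⟩, 0⟩ 0 0) (.cut .v 20971520 (.cut .d (-2097152) (.void 23 ⟨100000, 0, 0, 0, 0, 0, 0, 0, 0, ⟨0, 0⟩, 0⟩ 0 0) (.cut .d (-1048576) (.void 23 ⟨100000, 0, 0, 0, 0, 0, 0, 0, 0, ⟨0, 0⟩, 0⟩ 0 0) (.cut .d (-524288) (.void 23 ⟨100000, 0, 0, 0, 0, 0, 0, 0, 0, ⟨0, 0⟩, 0⟩ 0 0) (.cut .d (-262144) (.void 23 ⟨100000, 0, 0, 0, 0, 0, 0, 0, 0, ⟨0, 0⟩, 0⟩ 0 0) (.cut .d (-131072) (.void 23 ⟨100000, 0, 0, 0, 0, 0, 0, 0, 0, ⟨0, 0⟩, 0⟩ 0 0) (.cut .v 18874368 (.cut .v 17825792 (.cut .v 17301504 (.cut .d (-65536) (.cut .s 12976128 (.cut .v 17039360 (.cut .s 12845056 (.pos 31 .mp ⟨132980477, 0, 0, 0, 0, 543676072, 0, 0, 0, ⟨0, 0⟩, 0⟩ 0 0) (.void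 31 ⟨0, 0, 0, 0, 0, 100000, 0, 0, 0, ⟨0, 0⟩, 0⟩ 0 0)) (.void 32 ⟨100000, 0, 0, 0, 0, 0, 0, 0, 0, ⟨0, 0⟩, 0⟩ 0 0)) (.void 29 ⟨0, 0, 0, 0, 0, 100000, 0, 0, 0, ⟨0, 0⟩, 0⟩ 0 0)) (.cut .s 12976128 (.cut .v 17039360 (.cut .s 12845056 (.cut .d (-32768) (.cut .l 850045 (.cut .s 12779520 (.pos 31 .mp ⟨124511453, 0, 0, 0, 0, 478586863, 0, 0, 0, ⟨0, 0⟩, 0⟩ 0 0) (.pos 31 .mp ⟨126156266, 0, 0, 0, 0, 497320144, 0, 0, 0, ⟨0, 0⟩, 0⟩ 0 0)) (.cut .d (-49152) (.cut .v 16908288 (.pos 51 .mp ⟨0, 0, 0, 0, 0, 689698164, 0, 0, 0, ⟨0, 0⟩, 0⟩ 0 0) (.cut .s 12779520 (.pos 52 .mp ⟨150371448, 0, 0, 0, 0, 425878753, 0, 0, 0, ⟨0, 0⟩, 0⟩ 0 0) (.cut .s 12812288 (.pos 52 .mp ⟨148181165, 0, 0,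 0, 0, 441694206, 0, 0, 0, ⟨0, 0⟩, 0⟩ 0 0) (.cut .d (-57344) (.cut .v 16973824 (.pos 71 .mp ⟨134008066, 0, 0, 0, 0, 478218309, 0, 0, 0, ⟨0, 0⟩, 0⟩ 0 0) (.pos 72 .mp ⟨448823999, 0, 0, 0, 0, 0, 0, 0, 0, ⟨0, 0⟩, 0⟩ 0 0)) (.pos 52 .mp ⟨148200090, 0, 0, 0, 0, 448722154, 0, 0, 0, ⟨0, 0⟩, 0⟩ 0 0))))) (.cut .l 1152035 (.cut .s 12779520 (.pos 31 .mp ⟨136995798, 0, 0, 0, 0, 435333474, 0, 0, 0, ⟨0, 0⟩, 0⟩ 0 0) (.cut .v 16908288 (.cut .s 12812288 (.pos 51 .mp ⟨116404840, 0, 0, 0, 0, 488940798, 0, 0, 0, ⟨0, 0⟩, 0⟩ 0 0) (.pos 51 .mp ⟨117484298, 0, 0, 0, 0, 497426617, 0, 0, 0, ⟨0, 0⟩, 0⟩ 0 0)) (.pos 52 .mp ⟨216892706, 0, 0, 0, 0, 331642383, 0, 0, 0, ⟨0, 0⟩, 0⟩ 0 0))) (.pos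 31 .mp ⟨132265135, 0, 0, 0, 0, 0, 0, 0, 0, ⟨0, 0⟩, 0⟩ 0 0)))) (.cut .l 850045 (.cut .v 16908288 (.cut .s 12779520 (.cut .l 548055 (.cut .d (-16384) (.pos 51 .mp ⟨118461374, 0, 0, 0, 0, 475260657, 0, 0, 0, ⟨0, 0⟩, 0⟩ 0 0) (.cut .s 12746752 (.pos 51 .mp ⟨126891953, 0, 0, 0, 0, 435973808, 0, 0, 0, ⟨0, 0⟩, 0⟩ 0 0) (.pos 51 .mp ⟨128003241, 0, 0, 0, 0, 444367298, 0, 0, 0, ⟨0, 0⟩, 0⟩ 0 0))) (.pos 51 .mp ⟨131285960, 0, 0, 0, 0, 433894183, 0, 0, 0, ⟨0, 0⟩, 0⟩ 0 0)) (.cut .d (-16384) (.cut .l 548055 (.cut .s 12812288 (.pos 51 .mp ⟨121088227, 0, 0, 0, 0, 482315984, 0, 0, 0, ⟨0, 0⟩, 0⟩ 0 0) (.pos 51 .mp ⟨121525486, 0, 0, 0, 0, 492336929, 0, 0, 0, ⟨0, 0⟩, 0⟩ 0 0)) (.cut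 .s 12812288 (.pos 51 .mp ⟨132557403, 0, 0, 0, 0, 452878580, 0, 0, 0, ⟨0, 0⟩, 0⟩ 0 0) (.pos 51 .mp ⟨133807650, 0, 0, 0, 0, 460998315, 0, 0, 0, ⟨0, 0⟩, 0⟩ 0 0))) (.cut .d (-8192) (.cut .s 12812288 (.pos 51 .mp ⟨129091964, 0, 0, 0, 0, 457793335, 0, 0, 0, ⟨0, 0⟩, 0⟩ 0 0) (.pos 51 .mp ⟨130157695, 0, 0, 0, 0, 466000776, 0, 0, 0, ⟨0, 0⟩, 0⟩ 0 0)) (.pos 51 .mp ⟨124501494, 0, 0, 0, 0, 0, 0, 0, 0, ⟨0, 0⟩, 0⟩ 0 0)))) (.pos 52 .mp ⟨407650527, 0, 0, 0, 0, 0, 0, 0, 0, ⟨0, 0⟩, 0⟩ 0 0)) (.pos 31 .mp ⟨128541679, 0, 0, 0, 0, 0, 0, 0, 0, ⟨0, 0⟩, 0⟩ 0 0))) (.cut .d (-32768) (.cut .l 850045 (.cut .s 12910592 (.cut .s 12877824 (.pos 31 .mp ⟨128541679, 0, 0, 0, 0, 505300803, 0, 0,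 0, ⟨0, 0⟩, 0⟩ 0 0) (.pos 31 .mp ⟨129692571, 0, 0, 0, 0, 514878357, 0, 0, 0, ⟨0, 0⟩, 0⟩ 0 0)) (.pos 31 .mp ⟨130814854, 0, 0, 0, 0, 535238042, 0, 0, 0, ⟨0, 0⟩, 0⟩ 0 0)) (.cut .d (-49152) (.cut .l 1152035 (.cut .s 12910592 (.pos 31 .mp ⟨132265135, 0, 0, 0, 0, 512171863, 0, 0, 0, ⟨0, 0⟩, 0⟩ 0 0) (.pos 31 .mp ⟨134916662, 0, 0, 0, 0, 528644031, 0, 0, 0, ⟨0, 0⟩, 0⟩ 0 0)) (.cut .v 16908288 (.pos 51 .mp ⟨0, 0, 0, 0, 0, 717335611, 0, 0, 0, ⟨0, 0⟩, 0⟩ 0 0) (.cut .v 16973824 (.cut .s 12910592 (.cut .s 12877824 (.cut .d (-57344) (.cut .v 16941056 (.pos 92 .mp ⟨69520059, 0, 0, 0, 0, 594480808, 0, 0, 0, ⟨0, 0⟩, 0⟩ 0 0) (.cut .d (-61440) (.cut .d (-63488) (.pos 93 .mp ⟨137209531,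 0, 0, 0, 0, 491111192, 0, 0, 0, ⟨0, 0⟩, 0⟩ 0 0) (.pos 93 .mp ⟨135008676, 0, 0, 0, 0, 487588618, 0, 0, 0, ⟨0, 0⟩, 0⟩ 0 0)) (.pos 93 .mp ⟨144296536, 0, 0, 0, 0, 468505154, 0, 0, 0, ⟨0, 0⟩, 0⟩ 0 0))) (.pos 71 .mp ⟨140717889, 0, 0, 0, 0, 469826054, 0, 0, 0, ⟨0, 0⟩, 0⟩ 0 0)) (.cut .d (-57344) (.cut .s 12894208 (.cut .d (-61440) (.cut .s 12886016 (.pos 71 .mp ⟨135861450, 0, 0, 0, 0, 495948322, 0, 0, 0, ⟨0, 0⟩, 0⟩ 0 0) (.pos 71 .mp ⟨136224825, 0, 0, 0, 0, 497991162, 0, 0, 0, ⟨0, 0⟩, 0⟩ 0 0)) (.pos 71 .mp ⟨135638752, 0, 0, 0, 0, 491319755, 0, 0, 0, ⟨0, 0⟩, 0⟩ 0 0)) (.pos 71 .mp ⟨133612804, 0, 0, 0, 0, 504168519, 0, 0, 0, ⟨0, 0⟩, 0⟩ 0 0)) (.pos 71 .mp ⟨138504125, 0,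 0, 0, 0, 485146768, 0, 0, 0, ⟨0, 0⟩, 0⟩ 0 0))) (.cut .s 12943360 (.cut .s 12926976 (.pos 71 .mp ⟨128276833, 0, 0, 0, 0, 517295535, 0, 0, 0, ⟨0, 0⟩, 0⟩ 0 0) (.pos 71 .mp ⟨128870432, 0, 0, 0, 0, 522339928, 0, 0, 0, ⟨0, 0⟩, 0⟩ 0 0)) (.pos 71 .mp ⟨129455460, 0, 0, 0, 0, 529768223, 0, 0, 0, ⟨0, 0⟩, 0⟩ 0 0))) (.pos 72 .mp ⟨453643370, 0, 0, 0, 0, 0, 0, 0, 0, ⟨0, 0⟩, 0⟩ 0 0)))) (.cut .l 1152035 (.cut .d (-40960) (.cut .l 1001040 (.cut .s 12910592 (.pos 31 .mp ⟨130399856, 0, 0, 0, 0, 508378059, 0, 0, 0, ⟨0, 0⟩, 0⟩ 0 0) (.pos 31 .mp ⟨132862009, 0, 0, 0, 0, 525134990, 0, 0, 0, ⟨0, 0⟩, 0⟩ 0 0)) (.cut .v 16908288 (.pos 51 .mp ⟨5340268, 0, 0, 0, 0, 698429924, 0, 0, 0, ⟨0,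 0⟩, 0⟩ 0 0) (.cut .s 12910592 (.pos 52 .mp ⟨141403344, 0, 0, 0, 0, 472944408, 0, 0, 0, ⟨0, 0⟩, 0⟩ 0 0) (.pos 52 .mp ⟨144140438, 0, 0, 0, 0, 488022133, 0, 0, 0, ⟨0, 0⟩, 0⟩ 0 0)))) (.cut .s 12910592 (.pos 31 .mp ⟨136816203, 0, 0, 0, 0, 468108938, 0, 0, 0, ⟨0, 0⟩, 0⟩ 0 0) (.pos 31 .mp ⟨139292515, 0, 0, 0, 0, 484784402, 0, 0, 0, ⟨0, 0⟩, 0⟩ 0 0))) (.pos 31 .mp ⟨137459628, 0, 0, 0, 0, 369111329, 0, 0, 0, ⟨0, 0⟩, 0⟩ 0 0)))) (.cut .l 850045 (.cut .v 16908288 (.cut .d (-16384) (.cut .s 12910592 (.cut .l 548055 (.cut .s 12877824 (.pos 51 .mp ⟨122488778, 0, 0, 0, 0, 501737720, 0, 0, 0, ⟨0, 0⟩, 0⟩ 0 0) (.pos 51 .mp ⟨123422067, 0, 0, 0, 0, 511608966, 0, 0, 0, ⟨0, 0⟩, 0⟩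 0 0)) (.cut .s 12877824 (.pos 51 .mp ⟨135036311, 0, 0, 0, 0, 469563067, 0, 0, 0, ⟨0, 0⟩, 0⟩ 0 0) (.pos 51 .mp ⟨136242977, 0, 0, 0, 0, 478576975, 0, 0, 0, ⟨0, 0⟩, 0⟩ 0 0))) (.cut .l 548055 (.cut .s 12943360 (.pos 51 .mp ⟨124324744, 0, 0, 0, 0, 521955275, 0, 0, 0, ⟨0, 0⟩, 0⟩ 0 0) (.pos 51 .mp ⟨125196180, 0, 0, 0, 0, 532781316, 0, 0, 0, ⟨0, 0⟩, 0⟩ 0 0)) (.cut .s 12943360 (.pos 51 .mp ⟨137427229, 0, 0, 0, 0, 488044221, 0, 0, 0, ⟨0, 0⟩, 0⟩ 0 0) (.pos 51 .mp ⟨138588628, 0, 0, 0, 0, 497969032, 0, 0, 0, ⟨0, 0⟩, 0⟩ 0 0)))) (.cut .d (-8192) (.cut .v 16842752 (.cut .v 16809984 (.pos 83 .mp ⟨0, 0, 0, 0, 0, 702728468, 0, 0, 0, ⟨0, 0⟩, 0⟩ 0 0) (.cut .l 548055 (.cut .l 397060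 (.cut .s 12910592 (.cut .s 12877824 (.pos 84 .mp ⟨130596778, 0, 0, 0, 0, 477969181, 0, 0, 0, ⟨0, 0⟩, 0⟩ 0 0) (.pos 84 .mp ⟨131607523, 0, 0, 0, 0, 487338670, 0, 0, 0, ⟨0, 0⟩, 0⟩ 0 0)) (.cut .s 12943360 (.pos 84 .mp ⟨132593876, 0, 0, 0, 0, 497165761, 0, 0, 0, ⟨0, 0⟩, 0⟩ 0 0) (.pos 84 .mp ⟨133555346, 0, 0, 0, 0, 507321744, 0, 0, 0, ⟨0, 0⟩, 0⟩ 0 0))) (.pos 84 .mp ⟨129482264, 0, 0, 0, 0, 0, 0, 0, 0, ⟨0, 0⟩, 0⟩ 0 0)) (.pos 84 .mp ⟨0, 0, 0, 0, 0, 0, 0, 0, 0, ⟨0, 0⟩, 0⟩ 0 0))) (.pos 63 .mp ⟨412292686, 0, 0, 0, 0, 0, 0, 0, 0, ⟨0, 0⟩, 0⟩ 0 0)) (.pos 51 .mp ⟨127909569, 0, 0, 0, 0, 0, 0, 0, 0, ⟨0, 0⟩, 0⟩ 0 0))) (.pos 52 .mp ⟨429939175, 0, 0, 0, 0, 0, 0, 0, 0, ⟨0, 0⟩, 0⟩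 0 0)) (.pos 31 .mp ⟨132971282, 0, 0, 0, 0, 0, 0, 0, 0, ⟨0, 0⟩, 0⟩ 0 0)))) (.pos 32 .mp ⟨433648842, 0, 0, 0, 0, 0, 0, 0, 0, ⟨0, 0⟩, 0⟩ 0 0)) (.cut .v 17039360 (.cut .s 13107200 (.cut .d (-32768) (.cut .l 850045 (.pos 31 .mp ⟨132971282, 0, 0, 0, 0, 581276459, 0, 0, 0, ⟨0, 0⟩, 0⟩ 0 0) (.cut .s 13041664 (.cut .v 16908288 (.pos 51 .mp ⟨35113118, 0, 0, 0, 0, 697749469, 0, 0, 0, ⟨0, 0⟩, 0⟩ 0 0) (.cut .s 13008896 (.pos 52 .mp ⟨162783083, 0, 0, 0, 0, 483909826, 0, 0, 0, ⟨0, 0⟩, 0⟩ 0 0) (.pos 52 .mp ⟨164511350, 0, 0, 0, 0, 494033289, 0, 0, 0, ⟨0, 0⟩, 0⟩ 0 0))) (.cut .d (-49152) (.pos 31 .mp ⟨131481984, 0, 0, 0, 0, 578974335, 0, 0, 0, ⟨0, 0⟩, 0⟩ 0 0) (.pos 31 .mp ⟨150966255,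 0, 0, 0, 0, 519804278, 0, 0, 0, ⟨0, 0⟩, 0⟩ 0 0)))) (.cut .l 850045 (.cut .v 16908288 (.cut .s 13041664 (.cut .l 548055 (.cut .d (-16384) (.pos 51 .mp ⟨126035721, 0, 0, 0, 0, 552973796, 0, 0, 0, ⟨0, 0⟩, 0⟩ 0 0) (.cut .s 13008896 (.pos 51 .mp ⟨135125447, 0, 0, 0, 0, 509914950, 0, 0, 0, ⟨0, 0⟩, 0⟩ 0 0) (.pos 51 .mp ⟨136043376, 0, 0, 0, 0, 520242295, 0, 0, 0, ⟨0, 0⟩, 0⟩ 0 0))) (.pos 51 .mp ⟨140841049, 0, 0, 0, 0, 504180931, 0, 0, 0, ⟨0, 0⟩, 0⟩ 0 0)) (.cut .d (-16384) (.pos 51 .mp ⟨119232752, 0, 0, 0, 0, 587661731, 0, 0, 0, ⟨0, 0⟩, 0⟩ 0 0) (.pos 51 .mp ⟨137799351, 0, 0, 0, 0, 532359141, 0, 0, 0, ⟨0, 0⟩, 0⟩ 0 0))) (.pos 52 .mp ⟨456841536, 0, 0, 0, 0, 0, 0, 0, 0,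 ⟨0, 0⟩, 0⟩ 0 0)) (.pos 31 .mp ⟨136914203, 0, 0, 0, 0, 0, 0, 0, 0, ⟨0, 0⟩, 0⟩ 0 0))) (.cut .d (-32768) (.cut .s 13172736 (.pos 31 .mp ⟨119502540, 0, 0, 0, 0, 631638687, 0, 0, 0, ⟨0, 0⟩, 0⟩ 0 0) (.pos 31 .mp ⟨126529125, 0, 0, 0, 0, 651385692, 0, 0, 0, ⟨0, 0⟩, 0⟩ 0 0)) (.cut .s 13172736 (.cut .d (-16384) (.pos 31 .mp ⟨156973153, 0, 0, 0, 0, 543686961, 0, 0, 0, ⟨0, 0⟩, 0⟩ 0 0) (.pos 31 .mp ⟨142154108, 0, 0, 0, 0, 549728981, 0, 0, 0, ⟨0, 0⟩, 0⟩ 0 0)) (.pos 31 .mp ⟨159369200, 0, 0, 0, 0, 561024526, 0, 0, 0, ⟨0, 0⟩, 0⟩ 0 0)))) (.pos 32 .mp ⟨487228947, 0, 0, 0, 0, 0, 0, 0, 0, ⟨0, 0⟩, 0⟩ 0 0)))) (.pos 30 .mp ⟨506182091, 0, 0, 0, 0, 0, 0, 0, 0, ⟨0, 0⟩, 0⟩ 0 0)) (.pos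 28 .mp ⟨533656148, 0, 0, 0, 0, 0, 0, 0, 0, ⟨0, 0⟩, 0⟩ 0 0)) (.void 26 ⟨100000, 0, 0, 0, 0, 0, 0, 0, 0, ⟨0, 0⟩, 0⟩ 0 0))))))) (.void 24 ⟨100000, 0, 0, 0, 0, 0, 0, 0, 0, ⟨0, 0⟩, 0⟩ 0 0))) (.void 22 ⟨100000, 0, 0, 0, 0, 0, 0, 0, 0, ⟨0, 0⟩, 0⟩ 0 0))) (.void 61 ⟨100000, 0, 0, 0, 0, 0, 0, 0, 0, ⟨0, 0⟩, 0⟩ 0 0)) (.void 70 ⟨100000, 0, 0, 0, 0, 0, 0, 0, 0, ⟨0, 0⟩, 0⟩ 0 0)) (.void 87 ⟨95300, 0, 0, 4700, 0, 0, 0, 0, 0, ⟨0, 0⟩, 0⟩ 0 0))) (.cut .v 16777216 (.cut .v 8388608 (.cut .v 4194304 (.cut .v 2097152 (.cut .d 2680896 (.void 6 ⟨0, 0, 100000, 0, 0, 0, 0, 0, 0, ⟨0, 0⟩, 0⟩ 0 0) (.cut .v 1048576 (.cut .v 524288 (.pos 124 .pm ⟨0, 0, 9261617, 0, 0, 0, 0, 0, 0, ⟨0, 0⟩, 0⟩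 0 0) (.pos 125 .pm ⟨0, 19179727, 0, 0, 0, 0, 0, 0, 0, ⟨0, 0⟩, 0⟩ 0 0)) (.pos 101 .pm ⟨0, 49531663, 0, 0, 0, 0, 0, 0, 0, ⟨0, 0⟩, 0⟩ 0 0))) (.cut .d 2680896 (.pos 7 .pm ⟨0, 0, 61801201, 0, 0, 0, 0, 0, 0, ⟨0, 0⟩, 0⟩ 0 0) (.cut .d 4021344 (.pos 7 .pm ⟨0, 0, 0, 0, 0, 0, 0, 0, 0, ⟨0, 0⟩, 0⟩ 0 0) (.cut .d 4691568 (.cut .s 12976128 (.pos 7 .pm ⟨0, 0, 0, 0, 0, 0, 0, 0, 0, ⟨0, 0⟩, 0⟩ 0 0) (.cut .d 4356456 (.pos 7 .pm ⟨0, 97523627, 0, 0, 0, 0, 0, 0, 0, ⟨0, 0⟩, 0⟩ 0 0) (.pos 7 .pm ⟨0, 141290173, 0, 0, 0, 0, 0, 0, 0, ⟨0, 0⟩, 0⟩ 0 0))) (.cut .s 12976128 (.cut .d 5026680 (.pos 7 .pm ⟨0, 127046449, 0, 0, 0, 0, 0, 0, 0, ⟨0, 0⟩, 0⟩ 0 0) (.pos 7 .pm ⟨0, 155591254, 0, 0, 0, 0,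 0, 0, 0, ⟨0, 0⟩, 0⟩ 0 0)) (.pos 7 .pm ⟨0, 194074138, 0, 0, 0, 0, 0, 0, 0, ⟨0, 0⟩, 0⟩ 0 0)))))) (.cut .d 2680896 (.pos 5 .pm ⟨0, 0, 8931839, 0, 0, 0, 0, 0, 0, ⟨0, 0⟩, 0⟩ 0 0) (.cut .d 4021344 (.pos 5 .pm ⟨0, 0, 0, 0, 0, 0, 0, 0, 0, ⟨0, 0⟩, 0⟩ 0 0) (.cut .d 4691568 (.cut .s 12976128 (.pos 5 .pm ⟨0, 110329136, 0, 0, 0, 0, 0, 0, 0, ⟨0, 0⟩, 0⟩ 0 0) (.cut .v 6291456 (.cut .d 4356456 (.pos 77 .pm ⟨0, 122290041, 0, 0, 0, 0, 0, 0, 0, ⟨0, 0⟩, 0⟩ 0 0) (.pos 77 .pm ⟨0, 164507341, 0, 0, 0, 0, 0, 0, 0, ⟨0, 0⟩, 0⟩ 0 0)) (.pos 78 .pm ⟨0, 197878547, 0, 0, 0, 0, 0, 0, 0, ⟨0, 0⟩, 0⟩ 0 0))) (.cut .s 12976128 (.cut .v 6291456 (.cut .d 5026680 (.cut .s 12845056 (.pos 77 .pm ⟨0,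 136061603, 0, 0, 0, 0, 0, 0, 0, ⟨0, 0⟩, 0⟩ 0 0) (.pos 77 .pm ⟨0, 166502166, 0, 0, 0, 0, 0, 0, 0, ⟨0, 0⟩, 0⟩ 0 0)) (.cut .v 5242880 (.pos 110 .pm ⟨0, 185883009, 0, 0, 0, 0, 0, 0, 0, ⟨0, 0⟩, 0⟩ 0 0) (.pos 111 .pm ⟨0, 204752724, 0, 0, 0, 0, 0, 0, 0, ⟨0, 0⟩, 0⟩ 0 0))) (.pos 78 .pm ⟨0, 212068337, 0, 0, 0, 0, 0, 0, 0, ⟨0, 0⟩, 0⟩ 0 0)) (.pos 5 .pm ⟨0, 328942122, 0, 0, 0, 0, 0, 0, 0, ⟨0, 0⟩, 0⟩ 0 0)))))) (.cut .d 2680896 (.pos 3 .pm ⟨0, 0, 0, 0, 0, 0, 0, 0, 0, ⟨0, 0⟩, 0⟩ 0 0) (.cut .d 4021344 (.pos 3 .pm ⟨0, 0, 0, 0, 0, 0, 0, 0, 0, ⟨0, 0⟩, 0⟩ 0 0) (.cut .d 4691568 (.pos 3 .pm ⟨0, 201663963, 0, 0, 0, 0, 0, 0, 0, ⟨0, 0⟩, 0⟩ 0 0) (.pos 3 .pm ⟨0, 314000419, 0, 0, 0, 0,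 0, 0, 0, ⟨0, 0⟩, 0⟩ 0 0))))) (.cut .v 268435456 (.cut .d 2680896 (.cut .v 67108864 (.cut .d 1340448 (.cut .v 33554432 (.cut .d 670224 (.cut .v 25165824 (.pos 21 .pp ⟨344526694, 0, 0, 0, 0, 0, 0, 0, 0, ⟨0, 0⟩, 0⟩ 0 0) (.pos 22 .pp ⟨793089522, 0, 0, 0, 0, 0, 0, 0, 0, ⟨0, 0⟩, 0⟩ 0 0)) (.pos 20 .pp ⟨0, 0, 0, 0, 0, 0, 0, 0, 0, ⟨0, 0⟩, 0⟩ 0 0)) (.cut .d 670224 (.cut .v 50331648 (.pos 64 .pp ⟨1793888100, 0, 0, 0, 0, 0, 0, 0, 0, ⟨0, 0⟩, 0⟩ 0 0) (.void 65 ⟨100000, 0, 0, 0, 0, 0, 0, 0, 0, ⟨0, 0⟩, 0⟩ 0 0)) (.cut .v 50331648 (.pos 64 .pp ⟨817724887, 0, 0, 0, 0, 0, 0, 0, 0, ⟨0, 0⟩, 0⟩ 0 0) (.pos 65 .pp ⟨2017358266, 0, 0, 0, 0, 0, 0, 0, 0, ⟨0, 0⟩, 0⟩ 0 0)))) (.pos 60 .pp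 ⟨0, 0, 0, 0, 0, 0, 0, 0, 0, ⟨0, 0⟩, 0⟩ 0 0)) (.cut .v 134217728 (.cut .v 100663296 (.cut .d 1340448 (.cut .d 670224 (.void 75 ⟨100000, 0, 0, 0, 0, 0, 0, 0, 0, ⟨0, 0⟩, 0⟩ 0 0) (.cut .v 83886080 (.cut .d 1005336 (.pos 79 .pp ⟨4499926985, 0, 0, 0, 0, 0, 0, 0, 0, ⟨0, 0⟩, 0⟩ 0 0) (.pos 79 .pp ⟨3154844723, 0, 0, 0, 0, 0, 0, 0, 0, ⟨0, 0⟩, 0⟩ 0 0)) (.cut .v 92274688 (.pos 120 .pp ⟨5167763413, 0, 0, 0, 0, 0, 0, 0, 0, ⟨0, 0⟩, 0⟩ 0 0) (.pos 121 .pp ⟨6972941175, 2448767077, 0, 0, 0, 0, 0, 0, 0, ⟨0, 0⟩, 0⟩ 0 0)))) (.pos 75 .pp ⟨0, 881392895, 0, 0, 0, 0, 0, 0, 0, ⟨0, 0⟩, 0⟩ 0 0)) (.void 76 ⟨36979, 63021, 0, 0, 0, 0, 0, 0, 0, ⟨0, 0⟩, 0⟩ 0 0)) (.void 74 ⟨89901, 558, 0, 9541,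 0, 0, 0, 0, 0, ⟨0, 0⟩, 0⟩ 0 0))) (.pos 69 .pp ⟨0, 288977322, 0, 0, 0, 0, 0, 0, 0, ⟨0, 0⟩, 0⟩ 0 0)) (.void 87 ⟨0, 0, 0, 100000, 0, 0, 0, 0, 0, ⟨0, 0⟩, 0⟩ 0 0)))),
    by decide +kernel⟩

def covers20 : cell.Covers table row20.1 :=
  ⟨(.cut .d 0 (.cut .v 16777216 (.cut .d (-8388608) (.void 1 ⟨0, 0, 0, 0, 0, 100000, 0, 0, 0, ⟨0, 0⟩, 0⟩ 0 0) (.cut .d (-4194304) (.pos 1 .mm ⟨0, 0, 0, 0, 0, 167772160000, 0, 0, 0, ⟨0, 0⟩, 0⟩ 0 0) (.cut .d (-2097152) (.void 1 ⟨0, 0, 0, 0, 0, 100000, 0, 0, 0, ⟨0, 0⟩, 0⟩ 0 0) (.cut .d (-1048576) (.void 1 ⟨0, 0, 0, 0, 0, 100000, 0, 0, 0, ⟨0, 0⟩, 0⟩ 0 0) (.cut .d (-524288) (.void 1 ⟨0, 0, 0, 0, 0, 100000, 0, 0, 0, ⟨0, 0⟩, 0⟩ 0 0) (.cut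 .d (-262144) (.void 1 ⟨0, 0, 0, 0, 0, 100000, 0, 0, 0, ⟨0, 0⟩, 0⟩ 0 0) (.cut .d (-131072) (.void 1 ⟨0, 0, 0, 0, 0, 100000, 0, 0, 0, ⟨0, 0⟩, 0⟩ 0 0) (.cut .d (-65536) (.void 1 ⟨0, 0, 0, 0, 0, 100000, 0, 0, 0, ⟨0, 0⟩, 0⟩ 0 0) (.cut .v 8388608 (.cut .v 4194304 (.void 4 ⟨0, 0, 100000, 0, 0, 0, 0, 0, 0, ⟨0, 0⟩, 0⟩ 0 0) (.pos 5 .mm ⟨0, 0, 17255174, 0, 0, 455869133, 0, 0, 0, ⟨0, 0⟩, 0⟩ 0 0)) (.cut .v 12582912 (.pos 8 .mm ⟨0, 0, 0, 0, 0, 555641125, 0, 0, 0, ⟨0, 0⟩, 0⟩ 0 0) (.cut .v 14680064 (.pos 12 .mm ⟨0, 0, 0, 0, 0, 872280540, 0, 0, 0, ⟨0, 0⟩, 0⟩ 0 0) (.cut .v 15728640 (.pos 14 .mm ⟨0, 0, 0, 0, 0, 933063161, 0, 0, 0, ⟨0, 0⟩, 0⟩ 0 0) (.cut .s 13500416 (.cut .s 13369344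 (.pos 15 .mm ⟨0, 0, 0, 0, 0, 882905135, 0, 0, 0, ⟨0, 0⟩, 0⟩ 0 0) (.cut .s 13434880 (.pos 15 .mm ⟨0, 0, 0, 0, 0, 915686370, 0, 0, 0, ⟨0, 0⟩, 0⟩ 0 0) (.pos 15 .mm ⟨0, 0, 0, 0, 0, 947716435, 0, 0, 0, ⟨0, 0⟩, 0⟩ 0 0))) (.cut .v 16252928 (.pos 16 .mm ⟨0, 0, 0, 0, 0, 1003565311, 0, 0, 0, ⟨0, 0⟩, 0⟩ 0 0) (.cut .s 13631488 (.cut .s 13565952 (.pos 17 .mm ⟨0, 0, 0, 0, 0, 980696947, 0, 0, 0, ⟨0, 0⟩, 0⟩ 0 0) (.cut .s 13598720 (.pos 17 .mm ⟨0, 0, 0, 0, 0, 1000103839, 0, 0, 0, ⟨0, 0⟩, 0⟩ 0 0) (.pos 17 .mm ⟨0, 0, 0, 0, 0, 1017603308, 0, 0, 0, ⟨0, 0⟩, 0⟩ 0 0))) (.cut .s 13697024 (.pos 17 .mm ⟨0, 0, 0, 0, 0, 1051037206, 0, 0, 0, ⟨0, 0⟩, 0⟩ 0 0) (.pos 17 .mm ⟨0, 0, 0, 0, 0,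 1087830558, 0, 0, 0, ⟨0, 0⟩, 0⟩ 0 0))))))))))))))))) (.cut .v 268435456 (.cut .v 67108864 (.cut .v 33554432 (.cut .d (-8388608) (.void 20 ⟨100000, 0, 0, 0, 0, 0, 0, 0, 0, ⟨0, 0⟩, 0⟩ 0 0) (.cut .v 25165824 (.cut .d (-4194304) (.void 21 ⟨100000, 0, 0, 0, 0, 0, 0, 0, 0, ⟨0, 0⟩, 0⟩ 0 0) (.cut .d (-2097152) (.void 21 ⟨100000, 0, 0, 0, 0, 0, 0, 0, 0, ⟨0, 0⟩, 0⟩ 0 0) (.cut .v 20971520 (.cut .d (-1048576) (.void 23 ⟨100000, 0, 0, 0, 0, 0, 0, 0, 0, ⟨0, 0⟩, 0⟩ 0 0) (.cut .d (-524288) (.void 23 ⟨100000, 0, 0, 0, 0, 0, 0, 0, 0, ⟨0, 0⟩, 0⟩ 0 0) (.cut .d (-262144) (.void 23 ⟨100000, 0, 0, 0, 0, 0, 0, 0, 0, ⟨0, 0⟩, 0⟩ 0 0) (.cut .d (-131072) (.void 23 ⟨100000, 0, 0, 0, 0,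 0, 0, 0, 0, ⟨0, 0⟩, 0⟩ 0 0) (.cut .d (-65536) (.void 23 ⟨0, 0, 0, 0, 0, 100000, 0, 0, 0, ⟨0, 0⟩, 0⟩ 0 0) (.cut .v 18874368 (.cut .v 17825792 (.cut .v 17301504 (.cut .s 13500416 (.cut .v 17039360 (.cut .d (-32768) (.cut .s 13369344 (.pos 31 .mp ⟨130117744, 0, 0, 0, 0, 704416757, 0, 0, 0, ⟨0, 0⟩, 0⟩ 0 0) (.cut .d (-49152) (.pos 31 .mp ⟨146983490, 0, 0, 0, 0, 744343012, 0, 0, 0, ⟨0, 0⟩, 0⟩ 0 0) (.cut .l 850045 (.void 31 ⟨0, 0, 0, 0, 0, 100000, 0, 0, 0, ⟨0, 0⟩, 0⟩ 0 0) (.cut .s 13434880 (.pos 31 .mp ⟨125252020, 0, 0, 0, 0, 735369057, 0, 0, 0, ⟨0, 0⟩, 0⟩ 0 0) (.cut .v 16908288 (.cut .s 13467648 (.pos 51 .mp ⟨88108967, 0, 0, 0, 0, 806226625, 0, 0, 0, ⟨0, 0⟩, 0⟩ 0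 0) (.pos 51 .mp ⟨68701229, 0, 0, 0, 0, 853705266, 0, 0, 0, ⟨0, 0⟩, 0⟩ 0 0)) (.cut .s 13467648 (.pos 52 .mp ⟨169305554, 0, 0, 0, 0, 667074176, 0, 0, 0, ⟨0, 0⟩, 0⟩ 0 0) (.pos 52 .mp ⟨170612270, 0, 0, 0, 0, 678728603, 0, 0, 0, ⟨0, 0⟩, 0⟩ 0 0))))))) (.cut .v 16908288 (.cut .s 13369344 (.cut .s 13303808 (.pos 51 .mp ⟨125545567, 0, 0, 0, 0, 658142289, 0, 0, 0, ⟨0, 0⟩, 0⟩ 0 0) (.cut .d (-16384) (.pos 51 .mp ⟨127165079, 0, 0, 0, 0, 691157553, 0, 0, 0, ⟨0, 0⟩, 0⟩ 0 0) (.pos 51 .mp ⟨144020097, 0, 0, 0, 0, 640001594, 0, 0, 0, ⟨0, 0⟩, 0⟩ 0 0))) (.cut .l 850045 (.cut .d (-16384) (.cut .s 13434880 (.pos 51 .mp ⟨124581633, 0, 0, 0, 0, 725681089, 0, 0, 0, ⟨0, 0⟩, 0⟩ 0 0) (.cut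 .s 13467648 (.pos 51 .mp ⟨125804679, 0, 0, 0, 0, 739490425, 0, 0, 0, ⟨0, 0⟩, 0⟩ 0 0) (.cut .s 13484032 (.pos 51 .mp ⟨129135802, 0, 0, 0, 0, 742107716, 0, 0, 0, ⟨0, 0⟩, 0⟩ 0 0) (.pos 51 .mp ⟨127436895, 0, 0, 0, 0, 752871560, 0, 0, 0, ⟨0, 0⟩, 0⟩ 0 0)))) (.cut .d (-8192) (.cut .s 13434880 (.pos 51 .mp ⟨145211565, 0, 0, 0, 0, 672308594, 0, 0, 0, ⟨0, 0⟩, 0⟩ 0 0) (.cut .s 13467648 (.pos 51 .mp ⟨145722410, 0, 0, 0, 0, 691038234, 0, 0, 0, ⟨0, 0⟩, 0⟩ 0 0) (.cut .s 13484032 (.pos 51 .mp ⟨144090813, 0, 0, 0, 0, 705619235, 0, 0, 0, ⟨0, 0⟩, 0⟩ 0 0) (.pos 51 .mp ⟨145598700, 0, 0, 0, 0, 709760238, 0, 0, 0, ⟨0, 0⟩, 0⟩ 0 0)))) (.pos 51 .mp ⟨136587450, 0, 0, 0, 0, 0, 0, 0, 0,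 ⟨0, 0⟩, 0⟩ 0 0))) (.cut .s 13434880 (.pos 51 .mp ⟨143500160, 0, 0, 0, 0, 662486708, 0, 0, 0, ⟨0, 0⟩, 0⟩ 0 0) (.pos 51 .mp ⟨144988459, 0, 0, 0, 0, 687657253, 0, 0, 0, ⟨0, 0⟩, 0⟩ 0 0)))) (.pos 52 .mp ⟨537547198, 0, 0, 0, 0, 0, 0, 0, 0, ⟨0, 0⟩, 0⟩ 0 0))) (.pos 32 .mp ⟨570415967, 0, 0, 0, 0, 0, 0, 0, 0, ⟨0, 0⟩, 0⟩ 0 0)) (.cut .v 17039360 (.cut .d (-32768) (.cut .l 850045 (.void 31 ⟨0, 0, 0, 0, 0, 100000, 0, 0, 0, ⟨0, 0⟩, 0⟩ 0 0) (.cut .d (-49152) (.cut .s 13631488 (.cut .s 13565952 (.cut .d (-57344) (.void 31 ⟨0, 0, 0, 0, 0, 100000, 0, 0, 0, ⟨0, 0⟩, 0⟩ 0 0) (.cut .v 16908288 (.pos 51 .mp ⟨0, 0, 0, 0, 0, 1019291716, 0, 0, 0, ⟨0, 0⟩, 0⟩ 0 0) (.pos 52 .mp ⟨151100660,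 0, 0, 0, 0, 765727022, 0, 0, 0, ⟨0, 0⟩, 0⟩ 0 0))) (.void 31 ⟨0, 0, 0, 0, 0, 100000, 0, 0, 0, ⟨0, 0⟩, 0⟩ 0 0)) (.void 31 ⟨0, 0, 0, 0, 0, 100000, 0, 0, 0, ⟨0, 0⟩, 0⟩ 0 0)) (.cut .s 13631488 (.cut .s 13565952 (.cut .v 16908288 (.cut .s 13533184 (.pos 51 .mp ⟨53371171, 0, 0, 0, 0, 895081395, 0, 0, 0, ⟨0, 0⟩, 0⟩ 0 0) (.pos 51 .mp ⟨42321622, 0, 0, 0, 0, 929977897, 0, 0, 0, ⟨0, 0⟩, 0⟩ 0 0)) (.cut .v 16973824 (.cut .s 13533184 (.cut .s 13516800 (.pos 71 .mp ⟨159865167, 0, 0, 0, 0, 708356805, 0, 0, 0, ⟨0, 0⟩, 0⟩ 0 0) (.pos 71 .mp ⟨160827174, 0, 0, 0, 0, 714400694, 0, 0, 0, ⟨0, 0⟩, 0⟩ 0 0)) (.cut .s 13549568 (.cut .s 13541376 (.pos 71 .mp ⟨151550321, 0, 0, 0, 0, 737108889,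 0, 0, 0, ⟨0, 0⟩, 0⟩ 0 0) (.pos 71 .mp ⟨151522384, 0, 0, 0, 0, 741265950, 0, 0, 0, ⟨0, 0⟩, 0⟩ 0 0)) (.pos 71 .mp ⟨161619683, 0, 0, 0, 0, 729158858, 0, 0, 0, ⟨0, 0⟩, 0⟩ 0 0))) (.pos 72 .mp ⟨604782147, 0, 0, 0, 0, 0, 0, 0, 0, ⟨0, 0⟩, 0⟩ 0 0))) (.cut .v 16908288 (.cut .s 13598720 (.pos 51 .mp ⟨35762852, 0, 0, 0, 0, 958002483, 0, 0, 0, ⟨0, 0⟩, 0⟩ 0 0) (.pos 51 .mp ⟨33912986, 0, 0, 0, 0, 978746872, 0, 0, 0, ⟨0, 0⟩, 0⟩ 0 0)) (.cut .s 13598720 (.cut .s 13582336 (.pos 52 .mp ⟨166239497, 0, 0, 0, 0, 730068714, 0, 0, 0, ⟨0, 0⟩, 0⟩ 0 0) (.pos 52 .mp ⟨166973537, 0, 0, 0, 0, 737312862, 0, 0, 0, ⟨0, 0⟩, 0⟩ 0 0)) (.pos 52 .mp ⟨175334024, 0, 0, 0, 0, 734137756, 0, 0, 0, ⟨0,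 0⟩, 0⟩ 0 0)))) (.cut .s 13697024 (.cut .l 1152035 (.pos 31 .mp ⟨139529113, 0, 0, 0, 0, 837423009, 0, 0, 0, ⟨0, 0⟩, 0⟩ 0 0) (.pos 31 .mp ⟨128764193, 0, 0, 0, 0, 840199203, 0, 0, 0, ⟨0, 0⟩, 0⟩ 0 0)) (.pos 31 .mp ⟨128711351, 0, 0, 0, 0, 887987050, 0, 0, 0, ⟨0, 0⟩, 0⟩ 0 0))))) (.cut .l 850045 (.cut .v 16908288 (.cut .d (-16384) (.cut .s 13631488 (.cut .l 548055 (.cut .s 13565952 (.pos 51 .mp ⟨135980438, 0, 0, 0, 0, 770249387, 0, 0, 0, ⟨0, 0⟩, 0⟩ 0 0) (.pos 51 .mp ⟨136412651, 0, 0, 0, 0, 802518596, 0, 0, 0, ⟨0, 0⟩, 0⟩ 0 0)) (.cut .s 13565952 (.cut .d (-24576) (.pos 51 .mp ⟨135401204, 0, 0, 0, 0, 767636488, 0, 0, 0, ⟨0, 0⟩, 0⟩ 0 0) (.cut .s 13533184 (.pos 51 .mp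 ⟨146086718, 0, 0, 0, 0, 719780321, 0, 0, 0, ⟨0, 0⟩, 0⟩ 0 0) (.pos 51 .mp ⟨146541046, 0, 0, 0, 0, 734053333, 0, 0, 0, ⟨0, 0⟩, 0⟩ 0 0))) (.cut .s 13598720 (.pos 51 .mp ⟨125981881, 0, 0, 0, 0, 798169508, 0, 0, 0, ⟨0, 0⟩, 0⟩ 0 0) (.pos 51 .mp ⟨125924461, 0, 0, 0, 0, 815259421, 0, 0, 0, ⟨0, 0⟩, 0⟩ 0 0)))) (.cut .s 13697024 (.cut .s 13664256 (.pos 51 .mp ⟨125777798, 0, 0, 0, 0, 837945093, 0, 0, 0, ⟨0, 0⟩, 0⟩ 0 0) (.pos 51 .mp ⟨125539362, 0, 0, 0, 0, 857663723, 0, 0, 0, ⟨0, 0⟩, 0⟩ 0 0)) (.pos 51 .mp ⟨125206514, 0, 0, 0, 0, 889815070, 0, 0, 0, ⟨0, 0⟩, 0⟩ 0 0))) (.cut .d (-8192) (.cut .l 548055 (.cut .s 13631488 (.cut .v 16842752 (.cut .s 13565952 (.cut .s 13533184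 (.pos 62 .mp ⟨124968375, 0, 0, 0, 0, 760609305, 0, 0, 0, ⟨0, 0⟩, 0⟩ 0 0) (.pos 62 .mp ⟨124940732, 0, 0, 0, 0, 776220439, 0, 0, 0, ⟨0, 0⟩, 0⟩ 0 0)) (.cut .s 13598720 (.pos 62 .mp ⟨124831635, 0, 0, 0, 0, 792780065, 0, 0, 0, ⟨0, 0⟩, 0⟩ 0 0) (.pos 62 .mp ⟨124638828, 0, 0, 0, 0, 810304667, 0, 0, 0, ⟨0, 0⟩, 0⟩ 0 0))) (.pos 63 .mp ⟨571491594, 0, 0, 0, 0, 0, 0, 0, 0, ⟨0, 0⟩, 0⟩ 0 0)) (.cut .s 13697024 (.cut .s 13664256 (.pos 51 .mp ⟨147501243, 0, 0, 0, 0, 784050692, 0, 0, 0, ⟨0, 0⟩, 0⟩ 0 0) (.pos 51 .mp ⟨147567288, 0, 0, 0, 0, 802660760, 0, 0, 0, ⟨0, 0⟩, 0⟩ 0 0)) (.pos 51 .mp ⟨147484685, 0, 0, 0, 0, 828578658, 0, 0, 0, ⟨0, 0⟩, 0⟩ 0 0))) (.pos 51 .mp ⟨135835607, 0,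 0, 0, 0, 0, 0, 0, 0, ⟨0, 0⟩, 0⟩ 0 0)) (.pos 51 .mp ⟨137253391, 0, 0, 0, 0, 723714166, 0, 0, 0, ⟨0, 0⟩, 0⟩ 0 0))) (.pos 52 .mp ⟨608565955, 0, 0, 0, 0, 0, 0, 0, 0, ⟨0, 0⟩, 0⟩ 0 0)) (.cut .s 13631488 (.cut .s 13565952 (.cut .s 13533184 (.pos 31 .mp ⟨148721487, 0, 0, 0, 0, 708316900, 0, 0, 0, ⟨0, 0⟩, 0⟩ 0 0) (.pos 31 .mp ⟨149334234, 0, 0, 0, 0, 722714463, 0, 0, 0, ⟨0, 0⟩, 0⟩ 0 0)) (.pos 31 .mp ⟨150349359, 0, 0, 0, 0, 737674795, 0, 0, 0, ⟨0, 0⟩, 0⟩ 0 0)) (.pos 31 .mp ⟨151236968, 0, 0, 0, 0, 768080375, 0, 0, 0, ⟨0, 0⟩, 0⟩ 0 0)))) (.pos 32 .mp ⟨624204584, 0, 0, 0, 0, 0, 0, 0, 0, ⟨0, 0⟩, 0⟩ 0 0))) (.pos 30 .mp ⟨621534881, 0, 0, 0, 0, 0, 0, 0, 0, ⟨0, 0⟩, 0⟩ 0 0)) (.pos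 28 .mp ⟨657807080, 0, 0, 0, 0, 0, 0, 0, 0, ⟨0, 0⟩, 0⟩ 0 0)) (.void 26 ⟨100000, 0, 0, 0, 0, 0, 0, 0, 0, ⟨0, 0⟩, 0⟩ 0 0))))))) (.void 24 ⟨100000, 0, 0, 0, 0, 0, 0, 0, 0, ⟨0, 0⟩, 0⟩ 0 0)))) (.void 22 ⟨100000, 0, 0, 0, 0, 0, 0, 0, 0, ⟨0, 0⟩, 0⟩ 0 0))) (.void 61 ⟨100000, 0, 0, 0, 0, 0, 0, 0, 0, ⟨0, 0⟩, 0⟩ 0 0)) (.void 70 ⟨100000, 0, 0, 0, 0, 0, 0, 0, 0, ⟨0, 0⟩, 0⟩ 0 0)) (.void 87 ⟨95123, 0, 0, 4877, 0, 0, 0, 0, 0, ⟨0, 0⟩, 0⟩ 0 0))) (.cut .v 16777216 (.cut .v 8388608 (.cut .v 4194304 (.cut .v 2097152 (.cut .d 2242500 (.void 6 ⟨0, 0, 100000, 0, 0, 0, 0, 0, 0, ⟨0, 0⟩, 0⟩ 0 0) (.cut .v 1048576 (.cut .v 524288 (.pos 124 .pm ⟨0, 0, 5131844, 0, 0, 0, 0, 0, 0, ⟨0, 0⟩, 0⟩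 0 0) (.pos 125 .pm ⟨0, 27192706, 0, 0, 0, 0, 0, 0, 0, ⟨0, 0⟩, 0⟩ 0 0)) (.cut .d 3363750 (.pos 101 .pm ⟨0, 0, 0, 0, 0, 0, 0, 0, 0, ⟨0, 0⟩, 0⟩ 0 0) (.pos 101 .pm ⟨0, 90216866, 0, 0, 0, 0, 0, 0, 0, ⟨0, 0⟩, 0⟩ 0 0)))) (.cut .d 2242500 (.pos 7 .pm ⟨0, 0, 92134177, 0, 0, 0, 0, 0, 0, ⟨0, 0⟩, 0⟩ 0 0) (.cut .d 3363750 (.pos 7 .pm ⟨0, 0, 0, 0, 0, 0, 0, 0, 0, ⟨0, 0⟩, 0⟩ 0 0) (.cut .d 3924375 (.cut .s 13500416 (.pos 7 .pm ⟨0, 0, 0, 0, 0, 0, 0, 0, 0, ⟨0, 0⟩, 0⟩ 0 0) (.pos 7 .pm ⟨0, 131051671, 0, 0, 0, 0, 0, 0, 0, ⟨0, 0⟩, 0⟩ 0 0)) (.cut .s 13500416 (.cut .d 4204688 (.pos 7 .pm ⟨0, 132075710, 0, 0, 0, 0, 0, 0, 0, ⟨0, 0⟩, 0⟩ 0 0) (.pos 7 .pm ⟨0, 178035717, 0, 0, 0, 0, 0, 0,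 0, ⟨0, 0⟩, 0⟩ 0 0)) (.pos 7 .pm ⟨0, 229156443, 0, 0, 0, 0, 0, 0, 0, ⟨0, 0⟩, 0⟩ 0 0)))))) (.cut .d 2242500 (.pos 5 .pm ⟨0, 0, 14993693, 0, 0, 0, 0, 0, 0, ⟨0, 0⟩, 0⟩ 0 0) (.cut .d 3363750 (.pos 5 .pm ⟨0, 0, 0, 0, 0, 0, 0, 0, 0, ⟨0, 0⟩, 0⟩ 0 0) (.cut .d 3924375 (.cut .s 13500416 (.pos 5 .pm ⟨0, 61537487, 0, 0, 0, 0, 0, 0, 0, ⟨0, 0⟩, 0⟩ 0 0) (.pos 5 .pm ⟨0, 179048200, 0, 0, 0, 0, 0, 0, 0, ⟨0, 0⟩, 0⟩ 0 0)) (.cut .s 13500416 (.cut .d 4204688 (.pos 5 .pm ⟨0, 172851601, 0, 0, 0, 0, 0, 0, 0, ⟨0, 0⟩, 0⟩ 0 0) (.pos 5 .pm ⟨0, 230940753, 0, 0, 0, 0, 0, 0, 0, ⟨0, 0⟩, 0⟩ 0 0)) (.pos 5 .pm ⟨0, 308268346, 0, 0, 0, 0, 0, 0, 0, ⟨0, 0⟩, 0⟩ 0 0)))))) (.cut .d 2242500 (.pos 3 .pm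 ⟨0, 0, 0, 0, 0, 0, 0, 0, 0, ⟨0, 0⟩, 0⟩ 0 0) (.cut .d 3363750 (.pos 3 .pm ⟨0, 0, 0, 0, 0, 0, 0, 0, 0, ⟨0, 0⟩, 0⟩ 0 0) (.pos 3 .pm ⟨0, 323760740, 0, 0, 0, 0, 0, 0, 0, ⟨0, 0⟩, 0⟩ 0 0)))) (.cut .v 268435456 (.cut .d 2242500 (.cut .v 67108864 (.cut .d 1121250 (.cut .v 33554432 (.cut .v 25165824 (.pos 21 .pp ⟨385642533, 0, 0, 0, 0, 0, 0, 0, 0, ⟨0, 0⟩, 0⟩ 0 0) (.pos 22 .pp ⟨816741553, 0, 0, 0, 0, 0, 0, 0, 0, ⟨0, 0⟩, 0⟩ 0 0)) (.cut .d 560625 (.cut .v 50331648 (.pos 64 .pp ⟨2167576882, 0, 0, 0, 0, 0, 0, 0, 0, ⟨0, 0⟩, 0⟩ 0 0) (.pos 65 .pp ⟨4376958645, 0, 0, 0, 0, 0, 0, 0, 0, ⟨0, 0⟩, 0⟩ 0 0)) (.cut .v 50331648 (.pos 64 .pp ⟨1009205578, 0, 0, 0, 0, 0, 0, 0, 0, ⟨0, 0⟩,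 0⟩ 0 0) (.pos 65 .pp ⟨2459163464, 0, 0, 0, 0, 0, 0, 0, 0, ⟨0, 0⟩, 0⟩ 0 0)))) (.pos 60 .pp ⟨0, 0, 0, 0, 0, 0, 0, 0, 0, ⟨0, 0⟩, 0⟩ 0 0)) (.cut .v 134217728 (.cut .v 100663296 (.cut .d 1121250 (.cut .d 560625 (.void 75 ⟨100000, 0, 0, 0, 0, 0, 0, 0, 0, ⟨0, 0⟩, 0⟩ 0 0) (.cut .v 83886080 (.cut .d 840937 (.pos 79 .pp ⟨5415870992, 0, 0, 0, 0, 0, 0, 0, 0, ⟨0, 0⟩, 0⟩ 0 0) (.pos 79 .pp ⟨3884589156, 0, 0, 0, 0, 0, 0, 0, 0, ⟨0, 0⟩, 0⟩ 0 0)) (.cut .d 840937 (.pos 80 .pp ⟨8392989833, 387903466, 0, 0, 0, 0, 0, 0, 0, ⟨0, 0⟩, 0⟩ 0 0) (.cut .v 92274688 (.pos 120 .pp ⟨5644318974, 0, 0, 0, 0, 0, 0, 0, 0, ⟨0, 0⟩, 0⟩ 0 0) (.pos 121 .pp ⟨6887616536, 1514117060, 0, 0, 0, 0, 0, 0, 0,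 ⟨0, 0⟩, 0⟩ 0 0))))) (.pos 75 .pp ⟨0, 1199840388, 0, 0, 0, 0, 0, 0, 0, ⟨0, 0⟩, 0⟩ 0 0)) (.void 76 ⟨36360, 63640, 0, 0, 0, 0, 0, 0, 0, ⟨0, 0⟩, 0⟩ 0 0)) (.void 74 ⟨88310, 0, 0, 9660, 0, 0, 0, 0, 0, ⟨0, 0⟩, 0⟩ 0 0))) (.pos 69 .pp ⟨0, 338373879, 0, 0, 0, 0, 0, 0, 0, ⟨0, 0⟩, 0⟩ 0 0)) (.void 87 ⟨0, 0, 0, 100000, 0, 0, 0, 0, 0, ⟨0, 0⟩, 0⟩ 0 0)))),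
    by decide +kernel⟩

def covers21 : cell.Covers table row21.1 :=
  ⟨(.cut .d 0 (.cut .v 16777216 (.cut .d (-8388608) (.void 1 ⟨0, 0, 0, 0, 0, 100000, 0, 0, 0, ⟨0, 0⟩, 0⟩ 0 0) (.cut .d (-4194304) (.void 1 ⟨0, 0, 0, 0, 0, 100000, 0, 0, 0, ⟨0, 0⟩, 0⟩ 0 0) (.cut .d (-2097152) (.void 1 ⟨0, 0, 0, 0, 0, 100001, 0, 0, 0, ⟨0, 0⟩, 0⟩ 0 0) (.cut .d (-1048576) (.void 1 ⟨0, 0, 0, 0, 0, 100000, 0, 0, 0, ⟨0, 0⟩, 0⟩ 0 0) (.cut .d (-524288) (.void 1 ⟨0, 0, 0, 0, 0, 100000, 0, 0, 0, ⟨0, 0⟩, 0⟩ 0 0) (.cut .d (-262144) (.void 1 ⟨0, 0, 0, 0, 0, 100000, 0, 0, 0, ⟨0, 0⟩, 0⟩ 0 0) (.cut .d (-131072) (.void 1 ⟨0, 0, 0, 0, 0, 100000, 0, 0, 0, ⟨0, 0⟩, 0⟩ 0 0) (.cut .d (-65536) (.void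 1 ⟨0, 0, 0, 0, 0, 100000, 0, 0, 0, ⟨0, 0⟩, 0⟩ 0 0) (.cut .v 8388608 (.cut .v 4194304 (.void 4 ⟨0, 0, 100000, 0, 0, 0, 0, 0, 0, ⟨0, 0⟩, 0⟩ 0 0) (.pos 5 .mm ⟨0, 0, 24030708, 0, 0, 535720762, 0, 0, 0, ⟨0, 0⟩, 0⟩ 0 0)) (.cut .v 12582912 (.pos 8 .mm ⟨0, 0, 0, 0, 0, 573700589, 0, 0, 0, ⟨0, 0⟩, 0⟩ 0 0) (.pos 9 .mm ⟨0, 0, 0, 0, 0, 1093242593, 0, 0, 0, ⟨0, 0⟩, 0⟩ 0 0))))))))))) (.cut .v 268435456 (.cut .v 67108864 (.cut .v 33554432 (.cut .d (-8388608) (.void 20 ⟨100000, 0, 0, 0, 0, 0, 0, 0, 0, ⟨0, 0⟩, 0⟩ 0 0) (.cut .d (-4194304) (.void 20 ⟨100000, 0, 0, 0, 0, 0, 0, 0, 0, ⟨0, 0⟩, 0⟩ 0 0) (.cut .v 25165824 (.cut .d (-2097152) (.void 21 ⟨100000, 0, 0, 0, 0, 0, 0, 0, 0,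 ⟨0, 0⟩, 0⟩ 0 0) (.cut .v 20971520 (.cut .d (-1048576) (.void 23 ⟨100000, 0, 0, 0, 0, 0, 0, 0, 0, ⟨0, 0⟩, 0⟩ 0 0) (.cut .d (-524288) (.void 23 ⟨100000, 0, 0, 0, 0, 0, 0, 0, 0, ⟨0, 0⟩, 0⟩ 0 0) (.cut .d (-262144) (.void 23 ⟨100000, 0, 0, 0, 0, 0, 0, 0, 0, ⟨0, 0⟩, 0⟩ 0 0) (.cut .d (-131072) (.void 23 ⟨100000, 0, 0, 0, 0, 0, 0, 0, 0, ⟨0, 0⟩, 0⟩ 0 0) (.cut .d (-65536) (.void 23 ⟨100000, 0, 0, 0, 0, 0, 0, 0, 0, ⟨0, 0⟩, 0⟩ 0 0) (.cut .v 18874368 (.cut .v 17825792 (.cut .d (-32768) (.pos 27 .mp ⟨242666069, 0, 0, 0, 0, 704085308, 0, 0, 0, ⟨0, 0⟩, 0⟩ 0 0) (.pos 27 .mp ⟨196317646, 0, 0, 0, 0, 763673133, 0, 0, 0, ⟨0, 0⟩, 0⟩ 0 0)) (.pos 28 .mp ⟨721856137, 0, 0, 0, 0, 0,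 0, 0, 0, ⟨0, 0⟩, 0⟩ 0 0)) (.void 26 ⟨100000, 0, 0, 0, 0, 0, 0, 0, 0, ⟨0, 0⟩, 0⟩ 0 0))))))) (.void 24 ⟨100000, 0, 0, 0, 0, 0, 0, 0, 0, ⟨0, 0⟩, 0⟩ 0 0))) (.void 22 ⟨100000, 0, 0, 0, 0, 0, 0, 0, 0, ⟨0, 0⟩, 0⟩ 0 0)))) (.void 61 ⟨100000, 0, 0, 0, 0, 0, 0, 0, 0, ⟨0, 0⟩, 0⟩ 0 0)) (.void 70 ⟨100000, 0, 0, 0, 0, 0, 0, 0, 0, ⟨0, 0⟩, 0⟩ 0 0)) (.void 87 ⟨94991, 0, 0, 5009, 0, 0, 0, 0, 0, ⟨0, 0⟩, 0⟩ 0 0))) (.cut .v 16777216 (.cut .v 8388608 (.cut .v 4194304 (.cut .v 2097152 (.cut .d 1837506 (.void 6 ⟨0, 0, 100000, 0, 0, 0, 0, 0, 0, ⟨0, 0⟩, 0⟩ 0 0) (.cut .v 1048576 (.cut .v 524288 (.pos 124 .pm ⟨0, 0, 3461776, 0, 0, 0, 0, 0, 0, ⟨0, 0⟩, 0⟩ 0 0) (.pos 125 .pm ⟨0, 28538294,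 0, 0, 0, 0, 0, 0, 0, ⟨0, 0⟩, 0⟩ 0 0)) (.pos 101 .pm ⟨0, 59002586, 0, 0, 0, 0, 0, 0, 0, ⟨0, 0⟩, 0⟩ 0 0))) (.cut .d 1837506 (.pos 7 .pm ⟨0, 0, 139224390, 0, 0, 0, 0, 0, 0, ⟨0, 0⟩, 0⟩ 0 0) (.cut .d 2756259 (.pos 7 .pm ⟨0, 0, 0, 0, 0, 0, 0, 0, 0, ⟨0, 0⟩, 0⟩ 0 0) (.cut .d 3215635 (.pos 7 .pm ⟨0, 89993803, 0, 0, 0, 0, 0, 0, 0, ⟨0, 0⟩, 0⟩ 0 0) (.pos 7 .pm ⟨0, 173384554, 0, 0, 0, 0, 0, 0, 0, ⟨0, 0⟩, 0⟩ 0 0))))) (.cut .d 1837506 (.pos 5 .pm ⟨0, 0, 24526688, 0, 0, 0, 0, 0, 0, ⟨0, 0⟩, 0⟩ 0 0) (.cut .d 2756259 (.pos 5 .pm ⟨0, 0, 0, 0, 0, 0, 0, 0, 0, ⟨0, 0⟩, 0⟩ 0 0) (.cut .s 13959168 (.pos 5 .pm ⟨0, 171534085, 0, 0, 0, 0, 0, 0, 0, ⟨0, 0⟩, 0⟩ 0 0) (.pos 5 .pm ⟨0, 234336337,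 0, 0, 0, 0, 0, 0, 0, ⟨0, 0⟩, 0⟩ 0 0))))) (.cut .d 1837506 (.pos 3 .pm ⟨0, 0, 0, 0, 0, 0, 0, 0, 0, ⟨0, 0⟩, 0⟩ 0 0) (.pos 3 .pm ⟨0, 232253800, 0, 0, 0, 0, 0, 0, 0, ⟨0, 0⟩, 0⟩ 0 0))) (.cut .v 268435456 (.cut .d 1837506 (.cut .v 67108864 (.cut .d 918753 (.cut .v 33554432 (.cut .v 25165824 (.pos 21 .pp ⟨389272622, 0, 0, 0, 0, 0, 0, 0, 0, ⟨0, 0⟩, 0⟩ 0 0) (.pos 22 .pp ⟨972694789, 0, 0, 0, 0, 0, 0, 0, 0, ⟨0, 0⟩, 0⟩ 0 0)) (.cut .d 459376 (.cut .v 50331648 (.pos 64 .pp ⟨2472838066, 0, 0, 0, 0, 0, 0, 0, 0, ⟨0, 0⟩, 0⟩ 0 0) (.pos 65 .pp ⟨90955503441, 0, 0, 0, 0, 0, 0, 0, 0, ⟨0, 0⟩, 0⟩ 0 0)) (.cut .v 50331648 (.pos 64 .pp ⟨1227692825, 0, 0, 0, 0, 0, 0, 0, 0, ⟨0, 0⟩, 0⟩ 0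 0) (.pos 65 .pp ⟨2997303093, 0, 0, 0, 0, 0, 0, 0, 0, ⟨0, 0⟩, 0⟩ 0 0)))) (.pos 60 .pp ⟨0, 0, 0, 0, 0, 0, 0, 0, 0, ⟨0, 0⟩, 0⟩ 0 0)) (.cut .v 134217728 (.cut .v 100663296 (.cut .d 918753 (.cut .d 459376 (.void 75 ⟨100000, 0, 0, 0, 0, 0, 0, 0, 0, ⟨0, 0⟩, 0⟩ 0 0) (.cut .v 83886080 (.pos 79 .pp ⟨5338829244, 0, 0, 0, 0, 0, 0, 0, 0, ⟨0, 0⟩, 0⟩ 0 0) (.cut .d 689064 (.pos 80 .pp ⟨12983779794, 0, 0, 0, 0, 0, 0, 0, 0, ⟨0, 0⟩, 0⟩ 0 0) (.cut .v 92274688 (.pos 120 .pp ⟨6689850277, 0, 0, 0, 0, 0, 0, 0, 0, ⟨0, 0⟩, 0⟩ 0 0) (.pos 121 .pp ⟨8110011252, 280884799, 0, 0, 0, 0, 0, 0, 0, ⟨0, 0⟩, 0⟩ 0 0))))) (.pos 75 .pp ⟨0, 1628239909, 0, 0, 0, 0, 0, 0, 0, ⟨0, 0⟩, 0⟩ 0 0)) (.void 76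 ⟨35972, 64028, 0, 0, 0, 0, 0, 0, 0, ⟨0, 0⟩, 0⟩ 0 0)) (.void 74 ⟨89989, 0, 0, 10011, 0, 0, 0, 0, 0, ⟨0, 0⟩, 0⟩ 0 0))) (.pos 69 .pp ⟨0, 310597223, 0, 0, 0, 0, 0, 0, 0, ⟨0, 0⟩, 0⟩ 0 0)) (.void 87 ⟨0, 0, 0, 100000, 0, 0, 0, 0, 0, ⟨0, 0⟩, 0⟩ 0 0)))),
    by decide +kernel⟩

def covers22 : cell.Covers table row22.1 :=
  ⟨(.cut .d 0 (.cut .v 16777216 (.cut .d (-8388608) (.void 1 ⟨0, 0, 11040, 0, 0, 23600, 0, 54817, 0, ⟨(-1), 11424876⟩, 0⟩ 0 111) (.cut .d (-4194304) (.void 1 ⟨0, 0, 230, 0, 0, 99752, 0, 0, 0, ⟨0, 0⟩, 0⟩ 0 0) (.cut .d (-2097152) (.void 1 ⟨0, 0, 0, 0, 0, 106588, 6, 0, 0, ⟨0, 0⟩, 0⟩ 0 0) (.cut .d (-1048576) (.void 1 ⟨0, 0, 0, 0, 0, 100000, 0, 0, 0, ⟨0,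 0⟩, 0⟩ 0 0) (.cut .d (-524288) (.void 1 ⟨0, 0, 0, 0, 0, 100000, 0, 0, 0, ⟨0, 0⟩, 0⟩ 0 0) (.cut .d (-262144) (.void 1 ⟨0, 0, 0, 0, 0, 100000, 0, 0, 0, ⟨0, 0⟩, 0⟩ 0 0) (.cut .d (-131072) (.void 1 ⟨0, 0, 0, 0, 0, 100000, 0, 0, 0, ⟨0, 0⟩, 0⟩ 0 0) (.cut .d (-65536) (.void 1 ⟨0, 0, 0, 0, 0, 100000, 0, 0, 0, ⟨0, 0⟩, 0⟩ 0 0) (.cut .v 8388608 (.cut .v 4194304 (.void 4 ⟨0, 0, 100000, 0, 0, 0, 0, 0, 0, ⟨0, 0⟩, 0⟩ 0 0) (.pos 5 .mm ⟨0, 0, 38574975, 0, 0, 667166461, 0, 0, 0, ⟨0, 0⟩, 0⟩ 0 0)) (.pos 3 .mm ⟨0, 0, 0, 0, 0, 882695958, 0, 0, 0, ⟨0, 0⟩, 0⟩ 0 0)))))))))) (.cut .v 268435456 (.cut .v 67108864 (.cut .v 33554432 (.cut .d (-8388608) (.void 20 ⟨100000, 0, 0, 0, 0, 0,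 0, 0, 0, ⟨0, 0⟩, 0⟩ 0 0) (.cut .d (-4194304) (.void 20 ⟨100000, 0, 0, 0, 0, 0, 0, 0, 0, ⟨0, 0⟩, 0⟩ 0 0) (.cut .v 25165824 (.pos 21 .mp ⟨358761287, 0, 0, 0, 0, 4940740616, 0, 0, 0, ⟨0, 0⟩, 0⟩ 0 0) (.void 22 ⟨100000, 0, 0, 0, 0, 0, 0, 0, 0, ⟨0, 0⟩, 0⟩ 0 0)))) (.void 61 ⟨100000, 0, 0, 0, 0, 0, 0, 0, 0, ⟨0, 0⟩, 0⟩ 0 0)) (.void 70 ⟨100000, 0, 0, 0, 0, 0, 0, 0, 0, ⟨0, 0⟩, 0⟩ 0 0)) (.void 87 ⟨94881, 0, 0, 5119, 0, 0, 0, 0, 0, ⟨0, 0⟩, 0⟩ 0 0))) (.cut .v 16777216 (.cut .v 8388608 (.cut .v 4194304 (.cut .v 2097152 (.cut .d 1553447 (.void 6 ⟨0, 0, 100000, 0, 0, 0, 0, 0, 0, ⟨0, 0⟩, 0⟩ 0 0) (.cut .v 1048576 (.cut .v 524288 (.pos 124 .pm ⟨0, 0, 2376447, 0, 0, 0, 0, 0, 0,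 ⟨0, 0⟩, 0⟩ 0 0) (.pos 125 .pm ⟨0, 28557465, 0, 0, 0, 0, 0, 0, 0, ⟨0, 0⟩, 0⟩ 0 0)) (.pos 101 .pm ⟨0, 54778896, 0, 0, 0, 0, 0, 0, 0, ⟨0, 0⟩, 0⟩ 0 0))) (.cut .d 1553447 (.pos 7 .pm ⟨0, 0, 208877245, 0, 0, 0, 0, 0, 0, ⟨0, 0⟩, 0⟩ 0 0) (.cut .d 2330170 (.pos 7 .pm ⟨0, 0, 0, 0, 0, 0, 0, 0, 0, ⟨0, 0⟩, 0⟩ 0 0) (.pos 7 .pm ⟨0, 121570627, 0, 0, 0, 0, 0, 0, 0, ⟨0, 0⟩, 0⟩ 0 0)))) (.cut .d 1553447 (.pos 5 .pm ⟨0, 0, 39162472, 0, 0, 0, 0, 0, 0, ⟨0, 0⟩, 0⟩ 0 0) (.pos 5 .pm ⟨0, 131231788, 0, 0, 0, 0, 0, 0, 0, ⟨0, 0⟩, 0⟩ 0 0))) (.pos 3 .pm ⟨0, 0, 9827286, 0, 0, 0, 0, 0, 0, ⟨0, 0⟩, 0⟩ 0 0)) (.cut .v 268435456 (.cut .d 1553447 (.cut .v 67108864 (.cut .d 776723 (.cut .l 850045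 (.cut .v 33554432 (.cut .v 25165824 (.pos 21 .pp ⟨358761287, 0, 0, 0, 0, 0, 0, 0, 0, ⟨0, 0⟩, 0⟩ 0 0) (.pos 22 .pp ⟨1141852677, 0, 0, 0, 0, 0, 0, 0, 0, ⟨0, 0⟩, 0⟩ 0 0)) (.cut .d 388361 (.pos 61 .pp ⟨4619953917, 0, 0, 0, 0, 0, 0, 0, 0, ⟨0, 0⟩, 0⟩ 0 0) (.pos 61 .pp ⟨2156776185, 0, 0, 0, 0, 0, 0, 0, 0, ⟨0, 0⟩, 0⟩ 0 0))) (.pos 60 .pp ⟨1181385450, 0, 0, 0, 0, 0, 0, 0, 0, ⟨0, 0⟩, 0⟩ 0 0)) (.pos 60 .pp ⟨0, 0, 0, 0, 0, 0, 0, 0, 0, ⟨0, 0⟩, 0⟩ 0 0)) (.cut .v 134217728 (.cut .d 776723 (.cut .v 100663296 (.cut .d 388361 (.void 75 ⟨100000, 0, 0, 0, 0, 0, 0, 0, 0, ⟨0, 0⟩, 0⟩ 0 0) (.cut .v 83886080 (.pos 79 .pp ⟨6303221102, 0, 0, 0, 0, 0, 0, 0, 0, ⟨0, 0⟩, 0⟩ 0 0) (.pos 80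 .pp ⟨9779023792, 0, 0, 0, 0, 0, 0, 0, 0, ⟨0, 0⟩, 0⟩ 0 0))) (.void 76 ⟨36146, 63854, 0, 0, 0, 0, 0, 0, 0, ⟨0, 0⟩, 0⟩ 0 0)) (.pos 73 .pp ⟨0, 3521952036, 0, 0, 0, 0, 0, 0, 0, ⟨0, 0⟩, 0⟩ 0 0)) (.void 74 ⟨89855, 0, 0, 10145, 0, 0, 0, 0, 0, ⟨0, 0⟩, 0⟩ 0 0))) (.pos 69 .pp ⟨0, 275632307, 0, 0, 0, 0, 0, 0, 0, ⟨0, 0⟩, 0⟩ 0 0)) (.void 87 ⟨0, 0, 0, 100000, 0, 0, 0, 0, 0, ⟨0, 0⟩, 0⟩ 0 0)))),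
    by decide +kernel⟩

def covers23 : cell.Covers table row23.1 :=
  ⟨(.cut .d 0 (.cut .v 16777216 (.cut .v 8388608 (.void 2 ⟨0, 0, 100000, 0, 0, 0, 0, 0, 0, ⟨0, 0⟩, 0⟩ 0 0) (.cut .d (-8388608) (.void 3 ⟨100000, 0, 0, 0, 0, 0, 0, 0, 0, ⟨0, 0⟩, 0⟩ 0 0) (.cut .d (-4194304) (.void 3 ⟨100000, 0, 0, 0, 0, 0, 0, 0, 0, ⟨0, 0⟩, 0⟩ 0 0) (.cut .d (-2097152) (.void 3 ⟨100000, 0, 0, 0, 0, 0, 0, 0, 0, ⟨0, 0⟩, 0⟩ 0 0) (.cut .v 12582912 (.cut .d (-1048576) (.void 8 ⟨100000, 0, 0, 0, 0, 0, 0, 0, 0, ⟨0, 0⟩, 0⟩ 0 0) (.cut .v 10485760 (.cut .d (-524288) (.void 10 ⟨0, 0, 0, 0, 0, 100000, 0, 0, 0, ⟨0, 0⟩, 0⟩ 0 0) (.cut .v 9437184 (.pos 90 .mm ⟨0, 0, 32580487, 0, 0, 1125790495,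 0, 0, 0, ⟨0, 0⟩, 0⟩ 0 0) (.pos 91 .mm ⟨0, 0, 0, 0, 0, 1280728984, 0, 0, 0, ⟨0, 0⟩, 0⟩ 0 0))) (.pos 11 .mm ⟨0, 0, 0, 0, 0, 1821490013, 0, 0, 0, ⟨0, 0⟩, 0⟩ 0 0))) (.pos 9 .mm ⟨0, 0, 0, 0, 0, 3188451209, 0, 0, 0, ⟨0, 0⟩, 0⟩ 0 0)))))) (.cut .v 268435456 (.cut .v 67108864 (.cut .v 33554432 (.cut .d (-8388608) (.void 20 ⟨100000, 0, 0, 0, 0, 0, 0, 0, 0, ⟨0, 0⟩, 0⟩ 0 0) (.cut .d (-4194304) (.void 20 ⟨100000, 0, 0, 0, 0, 0, 0, 0, 0, ⟨0, 0⟩, 0⟩ 0 0) (.pos 20 .mp ⟨786920116, 0, 0, 0, 0, 8615236396, 0, 0, 0, ⟨0, 0⟩, 0⟩ 0 0))) (.void 61 ⟨100000, 0, 0, 0, 0, 0, 0, 0, 0, ⟨0, 0⟩, 0⟩ 0 0)) (.void 70 ⟨100000, 0, 0, 0, 0, 0, 0, 0, 0, ⟨0, 0⟩, 0⟩ 0 0)) (.void 87 ⟨94771, 0, 0, 5229,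 0, 0, 0, 0, 0, ⟨0, 0⟩, 0⟩ 0 0))) (.cut .v 16777216 (.cut .v 8388608 (.cut .v 4194304 (.cut .v 2097152 (.cut .d 1328514 (.void 6 ⟨0, 0, 100000, 0, 0, 0, 0, 0, 0, ⟨0, 0⟩, 0⟩ 0 0) (.cut .v 1048576 (.cut .v 524288 (.cut .v 262144 (.pos 128 .pm ⟨0, 0, 10584699, 0, 0, 0, 0, 0, 0, ⟨0, 0⟩, 0⟩ 0 0) (.pos 129 .pm ⟨0, 8353762, 0, 0, 0, 0, 0, 0, 0, ⟨0, 0⟩, 0⟩ 0 0)) (.pos 125 .pm ⟨0, 28400234, 0, 0, 0, 0, 0, 0, 0, ⟨0, 0⟩, 0⟩ 0 0)) (.pos 101 .pm ⟨0, 49212039, 0, 0, 0, 0, 0, 0, 0, ⟨0, 0⟩, 0⟩ 0 0))) (.cut .d 1328514 (.pos 7 .pm ⟨0, 0, 267552949, 0, 0, 0, 0, 0, 0, ⟨0, 0⟩, 0⟩ 0 0) (.pos 7 .pm ⟨0, 74424648, 0, 0, 0, 0, 0, 0, 0, ⟨0, 0⟩, 0⟩ 0 0))) (.cut .d 1328514 (.pos 5 .pm ⟨0,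 0, 411500627, 0, 0, 0, 0, 0, 0, ⟨0, 0⟩, 0⟩ 0 0) (.pos 5 .pm ⟨0, 126934641, 0, 0, 0, 0, 0, 0, 0, ⟨0, 0⟩, 0⟩ 0 0))) (.pos 3 .pm ⟨0, 0, 20921233, 0, 0, 0, 0, 0, 0, ⟨0, 0⟩, 0⟩ 0 0)) (.cut .v 268435456 (.cut .d 1328514 (.cut .v 67108864 (.cut .d 664257 (.cut .v 33554432 (.pos 20 .pp ⟨753898924, 0, 0, 0, 0, 0, 0, 0, 0, ⟨0, 0⟩, 0⟩ 0 0) (.cut .d 332128 (.pos 61 .pp ⟨5137546787, 0, 0, 0, 0, 0, 0, 0, 0, ⟨0, 0⟩, 0⟩ 0 0) (.pos 61 .pp ⟨2380220514, 0, 0, 0, 0, 0, 0, 0, 0, ⟨0, 0⟩, 0⟩ 0 0))) (.pos 60 .pp ⟨0, 0, 0, 0, 0, 0, 0, 0, 0, ⟨0, 0⟩, 0⟩ 0 0)) (.cut .v 134217728 (.cut .v 100663296 (.cut .d 664257 (.cut .v 83886080 (.pos 79 .pp ⟨8378371792, 0, 0, 0, 0, 0, 0, 0, 0, ⟨0,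 0⟩, 0⟩ 0 0) (.cut .d 332128 (.void 80 ⟨100000, 0, 0, 0, 0, 0, 0, 0, 0, ⟨0, 0⟩, 0⟩ 0 0) (.pos 80 .pp ⟨11044346540, 0, 0, 0, 0, 0, 0, 0, 0, ⟨0, 0⟩, 0⟩ 0 0))) (.pos 75 .pp ⟨0, 2368998279, 0, 0, 0, 0, 0, 0, 0, ⟨0, 0⟩, 0⟩ 0 0)) (.pos 76 .pp ⟨66275963710, 101496196290, 0, 0, 0, 0, 0, 0, 0, ⟨0, 0⟩, 0⟩ 0 0)) (.void 74 ⟨89709, 0, 0, 10291, 0, 0, 0, 0, 0, ⟨0, 0⟩, 0⟩ 0 0))) (.pos 69 .pp ⟨0, 220785461, 0, 0, 0, 0, 0, 0, 0, ⟨0, 0⟩, 0⟩ 0 0)) (.void 87 ⟨0, 0, 0, 100000, 0, 0, 0, 0, 0, ⟨0, 0⟩, 0⟩ 0 0)))),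
    by decide +kernel⟩

def covers24 : cell.Covers table row24.1 :=
  ⟨(.cut .d 0 (.cut .v 16777216 (.cut .v 8388608 (.void 2 ⟨0, 0, 100000, 0, 0, 0, 0, 0, 0, ⟨0, 0⟩, 0⟩ 0 0) (.cut .d (-8388608) (.void 3 ⟨100000, 0, 0, 0, 0, 0, 0, 0, 0, ⟨0, 0⟩, 0⟩ 0 0) (.cut .d (-4194304) (.void 3 ⟨100000, 0, 0, 0, 0, 0, 0, 0, 0, ⟨0, 0⟩, 0⟩ 0 0) (.cut .d (-2097152) (.void 3 ⟨100000, 0, 0, 0, 0, 0, 0, 0, 0, ⟨0, 0⟩, 0⟩ 0 0) (.cut .v 12582912 (.cut .d (-1048576) (.void 8 ⟨100000, 0, 0, 0, 0, 0, 0, 0, 0, ⟨0, 0⟩, 0⟩ 0 0) (.cut .v 10485760 (.cut .d (-524288) (.void 10 ⟨0, 0, 0, 0, 0, 100000, 0, 0, 0, ⟨0, 0⟩, 0⟩ 0 0) (.cut .v 9437184 (.cut .s 14942208 (.pos 90 .mm ⟨0, 0, 51988745,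 0, 0, 1227443096, 0, 0, 0, ⟨0, 0⟩, 0⟩ 0 0) (.pos 90 .mm ⟨0, 0, 66400481, 0, 0, 1348814031, 0, 0, 0, ⟨0, 0⟩, 0⟩ 0 0)) (.pos 91 .mm ⟨0, 0, 0, 0, 0, 1554916907, 0, 0, 0, ⟨0, 0⟩, 0⟩ 0 0))) (.pos 11 .mm ⟨0, 0, 0, 0, 0, 2225371123, 0, 0, 0, ⟨0, 0⟩, 0⟩ 0 0))) (.pos 9 .mm ⟨0, 0, 0, 0, 0, 3927490121, 0, 0, 0, ⟨0, 0⟩, 0⟩ 0 0)))))) (.cut .v 268435456 (.cut .v 67108864 (.cut .v 33554432 (.cut .d (-8388608) (.void 20 ⟨100000, 0, 0, 0, 0, 0, 0, 0, 0, ⟨0, 0⟩, 0⟩ 0 0) (.pos 20 .mp ⟨688965884, 0, 0, 0, 0, 17840574761, 0, 0, 0, ⟨0, 0⟩, 0⟩ 0 0)) (.void 61 ⟨100000, 0, 0, 0, 0, 0, 0, 0, 0, ⟨0, 0⟩, 0⟩ 0 0)) (.void 70 ⟨100000, 0, 0, 0, 0, 0, 0, 0, 0, ⟨0, 0⟩, 0⟩ 0 0)) (.void 87 ⟨44282,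 0, 0, 2518, 0, 0, 0, 0, 0, ⟨0, 0⟩, 0⟩ 0 0))) (.cut .v 16777216 (.cut .v 8388608 (.cut .v 4194304 (.cut .v 2097152 (.cut .v 1048576 (.cut .v 524288 (.cut .v 262144 (.pos 128 .pm ⟨0, 0, 18235540, 0, 0, 0, 0, 0, 0, ⟨0, 0⟩, 0⟩ 0 0) (.pos 129 .pm ⟨0, 0, 19959784, 0, 0, 0, 0, 0, 0, ⟨0, 0⟩, 0⟩ 0 0)) (.pos 125 .pm ⟨0, 0, 23312479, 0, 0, 0, 0, 0, 0, ⟨0, 0⟩, 0⟩ 0 0)) (.pos 101 .pm ⟨0, 0, 32529444, 0, 0, 0, 0, 0, 0, ⟨0, 0⟩, 0⟩ 0 0)) (.cut .d 1113533 (.pos 7 .pm ⟨0, 0, 377463937, 0, 0, 0, 0, 0, 0, ⟨0, 0⟩, 0⟩ 0 0) (.pos 7 .pm ⟨0, 54036881, 0, 0, 0, 0, 0, 0, 0, ⟨0, 0⟩, 0⟩ 0 0))) (.cut .d 1113533 (.pos 5 .pm ⟨0, 0, 533033991, 0, 0, 0, 0, 0, 0, ⟨0, 0⟩, 0⟩ 0 0) (.pos 5 .pm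 ⟨0, 99841657, 0, 0, 0, 0, 0, 0, 0, ⟨0, 0⟩, 0⟩ 0 0))) (.pos 3 .pm ⟨0, 0, 37791447, 0, 0, 0, 0, 0, 0, ⟨0, 0⟩, 0⟩ 0 0)) (.cut .v 268435456 (.cut .d 1113533 (.cut .v 67108864 (.cut .v 33554432 (.pos 20 .pp ⟨688965884, 0, 0, 0, 0, 0, 0, 0, 0, ⟨0, 0⟩, 0⟩ 0 0) (.cut .d 556766 (.cut .d 278383 (.pos 61 .pp ⟨5686688032, 0, 0, 0, 0, 0, 0, 0, 0, ⟨0, 0⟩, 0⟩ 0 0) (.pos 61 .pp ⟨2618065698, 0, 0, 0, 0, 0, 0, 0, 0, ⟨0, 0⟩, 0⟩ 0 0)) (.pos 61 .pp ⟨0, 0, 0, 0, 0, 0, 0, 0, 0, ⟨0, 0⟩, 0⟩ 0 0))) (.cut .v 134217728 (.cut .v 100663296 (.cut .d 556766 (.cut .v 83886080 (.pos 79 .pp ⟨9486336831, 0, 0, 0, 0, 0, 0, 0, 0, ⟨0, 0⟩, 0⟩ 0 0) (.pos 80 .pp ⟨13715236361, 0, 0, 0, 0, 0, 0, 0, 0,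 ⟨0, 0⟩, 0⟩ 0 0)) (.pos 75 .pp ⟨0, 2860491418, 0, 0, 0, 0, 0, 0, 0, ⟨0, 0⟩, 0⟩ 0 0)) (.void 76 ⟨35008, 64992, 0, 0, 0, 0, 0, 0, 0, ⟨0, 0⟩, 0⟩ 0 0)) (.void 74 ⟨89603, 0, 0, 10397, 0, 0, 0, 0, 0, ⟨0, 0⟩, 0⟩ 0 0))) (.pos 69 .pp ⟨0, 77524774, 0, 0, 0, 0, 0, 0, 0, ⟨0, 0⟩, 0⟩ 0 0)) (.void 87 ⟨0, 0, 0, 100000, 0, 0, 0, 0, 0, ⟨0, 0⟩, 0⟩ 0 0)))),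
    by decide +kernel⟩

def covers25 : cell.Covers table row25.1 :=
  ⟨(.cut .d 0 (.cut .v 16777216 (.cut .v 8388608 (.void 2 ⟨0, 0, 100000, 0, 0, 0, 0, 0, 0, ⟨0, 0⟩, 0⟩ 0 0) (.cut .d (-8388608) (.void 3 ⟨100000, 0, 0, 0, 0, 0, 0, 0, 0, ⟨0, 0⟩, 0⟩ 0 0) (.cut .d (-4194304) (.void 3 ⟨100000, 0, 0, 0, 0, 0, 0, 0, 0, ⟨0, 0⟩, 0⟩ 0 0) (.cut .d (-2097152) (.void 3 ⟨100000, 0, 0, 0, 0, 0, 0, 0, 0, ⟨0, 0⟩, 0⟩ 0 0) (.cut .v 12582912 (.cut .d (-1048576) (.void 8 ⟨100000, 0, 0, 0, 0, 0, 0, 0, 0, ⟨0, 0⟩, 0⟩ 0 0) (.cut .v 10485760 (.cut .d (-524288) (.void 10 ⟨78610, 0, 21390, 0, 0, 0, 0, 0, 0, ⟨0, 0⟩, 0⟩ 0 0) (.cut .v 9437184 (.cut .s 15171584 (.pos 90 .mm ⟨0, 0, 77002990,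 0, 0, 1453837466, 0, 0, 0, ⟨0, 0⟩, 0⟩ 0 0) (.pos 90 .mm ⟨0, 0, 92324978, 0, 0, 1571607308, 0, 0, 0, ⟨0, 0⟩, 0⟩ 0 0)) (.pos 91 .mm ⟨0, 0, 0, 0, 0, 1826962128, 0, 0, 0, ⟨0, 0⟩, 0⟩ 0 0))) (.pos 11 .mm ⟨0, 0, 0, 0, 0, 2627336442, 0, 0, 0, ⟨0, 0⟩, 0⟩ 0 0))) (.pos 9 .mm ⟨0, 0, 0, 0, 0, 4664871603, 0, 0, 0, ⟨0, 0⟩, 0⟩ 0 0)))))) (.cut .d (-8388608) (.void 86 ⟨100000, 0, 0, 0, 0, 0, 0, 0, 0, ⟨0, 0⟩, 0⟩ 0 0) (.cut .v 268435456 (.cut .d (-4194304) (.void 69 ⟨100000, 0, 0, 0, 0, 0, 0, 0, 0, ⟨0, 0⟩, 0⟩ 0 0) (.cut .v 67108864 (.pos 60 .mp ⟨5324515898, 0, 0, 0, 0, 24611821533, 0, 0, 0, ⟨0, 0⟩, 0⟩ 0 0) (.void 70 ⟨100000, 0, 0, 0, 0, 0, 0, 0, 0, ⟨0, 0⟩, 0⟩ 0 0))) (.void 87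 ⟨92138, 0, 0, 7862, 0, 0, 0, 0, 0, ⟨0, 0⟩, 0⟩ 0 0)))) (.cut .v 16777216 (.cut .v 8388608 (.cut .v 4194304 (.cut .v 2097152 (.cut .v 1048576 (.cut .v 524288 (.cut .v 262144 (.pos 128 .pm ⟨0, 0, 20376971, 0, 0, 0, 0, 0, 0, ⟨0, 0⟩, 0⟩ 0 0) (.pos 129 .pm ⟨0, 0, 27099641, 0, 0, 0, 0, 0, 0, ⟨0, 0⟩, 0⟩ 0 0)) (.pos 125 .pm ⟨0, 0, 37996681, 0, 0, 0, 0, 0, 0, ⟨0, 0⟩, 0⟩ 0 0)) (.pos 101 .pm ⟨0, 0, 55805507, 0, 0, 0, 0, 0, 0, ⟨0, 0⟩, 0⟩ 0 0)) (.pos 7 .pm ⟨0, 0, 83526199, 0, 0, 0, 0, 0, 0, ⟨0, 0⟩, 0⟩ 0 0)) (.pos 5 .pm ⟨0, 0, 159678652, 0, 0, 0, 0, 0, 0, ⟨0, 0⟩, 0⟩ 0 0)) (.pos 3 .pm ⟨0, 0, 57895050, 0, 0, 0, 0, 0, 0, ⟨0, 0⟩, 0⟩ 0 0)) (.cut .v 268435456 (.cut .d 948278 (.cut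 .v 67108864 (.cut .v 33554432 (.pos 20 .pp ⟨525256250, 0, 0, 0, 0, 0, 0, 0, 0, ⟨0, 0⟩, 0⟩ 0 0) (.cut .v 50331648 (.pos 64 .pp ⟨2555672470, 0, 0, 0, 0, 0, 0, 0, 0, ⟨0, 0⟩, 0⟩ 0 0) (.cut .d 474139 (.pos 65 .pp ⟨6489330214, 0, 0, 0, 0, 0, 0, 0, 0, ⟨0, 0⟩, 0⟩ 0 0) (.pos 65 .pp ⟨0, 0, 0, 0, 0, 0, 0, 0, 0, ⟨0, 0⟩, 0⟩ 0 0)))) (.cut .v 134217728 (.cut .v 100663296 (.cut .d 474139 (.cut .v 83886080 (.pos 79 .pp ⟨10584167668, 0, 0, 0, 0, 0, 0, 0, 0, ⟨0, 0⟩, 0⟩ 0 0) (.pos 80 .pp ⟨15257466927, 0, 0, 0, 0, 0, 0, 0, 0, ⟨0, 0⟩, 0⟩ 0 0)) (.pos 75 .pp ⟨0, 3401574643, 0, 0, 0, 0, 0, 0, 0, ⟨0, 0⟩, 0⟩ 0 0)) (.pos 76 .pp ⟨67403485306, 100368674694, 0, 0, 0, 0, 0, 0, 0, ⟨0, 0⟩,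 0⟩ 0 0)) (.void 74 ⟨89527, 0, 0, 10473, 0, 0, 0, 0, 0, ⟨0, 0⟩, 0⟩ 0 0))) (.pos 69 .pp ⟨0, 0, 0, 0, 0, 0, 0, 0, 0, ⟨0, 0⟩, 0⟩ 0 0)) (.void 87 ⟨0, 0, 0, 100000, 0, 0, 0, 0, 0, ⟨0, 0⟩, 0⟩ 0 0)))),
    by decide +kernel⟩

def covers26 : cell.Covers table row26.1 :=
  ⟨(.cut .d 0 (.cut .v 16777216 (.cut .v 8388608 (.void 2 ⟨0, 0, 100000, 0, 0, 0, 0, 0, 0, ⟨0, 0⟩, 0⟩ 0 0) (.cut .d (-8388608) (.void 3 ⟨100000, 0, 0, 0, 0, 0, 0, 0, 0, ⟨0, 0⟩, 0⟩ 0 0) (.cut .d (-4194304) (.void 3 ⟨100000, 0, 0, 0, 0, 0, 0, 0, 0, ⟨0, 0⟩, 0⟩ 0 0) (.cut .d (-2097152) (.void 3 ⟨100000, 0, 0, 0, 0, 0, 0, 0, 0, ⟨0, 0⟩, 0⟩ 0 0) (.cut .v 12582912 (.cut .d (-1048576) (.void 8 ⟨100000, 0, 0,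 0, 0, 0, 0, 0, 0, ⟨0, 0⟩, 0⟩ 0 0) (.cut .v 10485760 (.cut .d (-524288) (.void 10 ⟨78421, 0, 21579, 0, 0, 0, 0, 0, 0, ⟨0, 0⟩, 0⟩ 0 0) (.cut .v 9437184 (.cut .v 8912896 (.cut .s 15400960 (.pos 130 .mm ⟨0, 0, 105747962, 0, 0, 1656411895, 0, 0, 0, ⟨0, 0⟩, 0⟩ 0 0) (.cut .d (-262144) (.void 130 ⟨0, 0, 0, 0, 0, 100000, 0, 0, 0, ⟨0, 0⟩, 0⟩ 0 0) (.pos 130 .mm ⟨0, 0, 139522109, 0, 0, 1681430294, 0, 0, 0, ⟨0, 0⟩, 0⟩ 0 0))) (.pos 131 .mm ⟨0, 0, 0, 0, 0, 2109828776, 0, 0, 0, ⟨0, 0⟩, 0⟩ 0 0)) (.pos 91 .mm ⟨0, 0, 0, 0, 0, 2336580890, 0, 0, 0, ⟨0, 0⟩, 0⟩ 0 0))) (.pos 11 .mm ⟨0, 0, 0, 0, 0, 3380507670, 0, 0, 0, ⟨0, 0⟩, 0⟩ 0 0))) (.pos 9 .mm ⟨0, 0, 0, 0, 0, 6047520904, 0, 0,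 0, ⟨0, 0⟩, 0⟩ 0 0)))))) (.cut .v 268435456 (.cut .v 67108864 (.cut .v 33554432 (.cut .d (-8388608) (.void 20 ⟨100000, 0, 0, 0, 0, 0, 0, 0, 0, ⟨0, 0⟩, 0⟩ 0 0) (.pos 20 .mp ⟨323187186, 0, 0, 0, 0, 29446492326, 0, 0, 0, ⟨0, 0⟩, 0⟩ 0 0)) (.void 61 ⟨100000, 0, 0, 0, 0, 0, 0, 0, 0, ⟨0, 0⟩, 0⟩ 0 0)) (.void 70 ⟨100000, 0, 0, 0, 0, 0, 0, 0, 0, ⟨0, 0⟩, 0⟩ 0 0)) (.void 87 ⟨148908, 0, 0, 8232, 0, 1220, 0, 0, 0, ⟨0, 0⟩, 0⟩ 0 0))) (.cut .v 16777216 (.cut .v 8388608 (.cut .v 4194304 (.cut .v 2097152 (.cut .v 1048576 (.cut .v 524288 (.cut .v 262144 (.pos 128 .pm ⟨0, 0, 23144661, 0, 0, 0, 0, 0, 0, ⟨0, 0⟩, 0⟩ 0 0) (.pos 129 .pm ⟨0, 0, 35694684, 0, 0, 0, 0, 0, 0, ⟨0, 0⟩, 0⟩ 0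 0)) (.pos 125 .pm ⟨0, 0, 53443698, 0, 0, 0, 0, 0, 0, ⟨0, 0⟩, 0⟩ 0 0)) (.pos 101 .pm ⟨0, 0, 80831491, 0, 0, 0, 0, 0, 0, ⟨0, 0⟩, 0⟩ 0 0)) (.pos 7 .pm ⟨0, 0, 125024331, 0, 0, 0, 0, 0, 0, ⟨0, 0⟩, 0⟩ 0 0)) (.pos 5 .pm ⟨0, 0, 248826389, 0, 0, 0, 0, 0, 0, ⟨0, 0⟩, 0⟩ 0 0)) (.pos 3 .pm ⟨0, 0, 81415179, 0, 0, 0, 0, 0, 0, ⟨0, 0⟩, 0⟩ 0 0)) (.cut .v 268435456 (.cut .d 828061 (.cut .v 67108864 (.cut .v 33554432 (.pos 20 .pp ⟨323187186, 0, 0, 0, 0, 0, 0, 0, 0, ⟨0, 0⟩, 0⟩ 0 0) (.cut .v 50331648 (.pos 64 .pp ⟨2870554937, 0, 0, 0, 0, 0, 0, 0, 0, ⟨0, 0⟩, 0⟩ 0 0) (.pos 65 .pp ⟨5598051205, 0, 0, 0, 0, 0, 0, 0, 0, ⟨0, 0⟩, 0⟩ 0 0))) (.cut .v 134217728 (.cut .d 414030 (.cut .v 100663296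 (.cut .v 83886080 (.pos 79 .pp ⟨12003088920, 0, 0, 0, 0, 0, 0, 0, 0, ⟨0, 0⟩, 0⟩ 0 0) (.pos 80 .pp ⟨17390781033, 0, 0, 0, 0, 0, 0, 0, 0, ⟨0, 0⟩, 0⟩ 0 0)) (.pos 76 .pp ⟨69940364356, 97831795644, 0, 0, 0, 0, 0, 0, 0, ⟨0, 0⟩, 0⟩ 0 0)) (.pos 73 .pp ⟨0, 7517090077, 0, 0, 0, 0, 0, 0, 0, ⟨0, 0⟩, 0⟩ 0 0)) (.void 74 ⟨89399, 0, 0, 10601, 0, 0, 0, 0, 0, ⟨0, 0⟩, 0⟩ 0 0))) (.pos 69 .pp ⟨0, 0, 0, 0, 0, 0, 0, 0, 0, ⟨0, 0⟩, 0⟩ 0 0)) (.void 87 ⟨0, 0, 0, 100000, 0, 0, 0, 0, 0, ⟨0, 0⟩, 0⟩ 0 0)))),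
    by decide +kernel⟩

def covers27 : cell.Covers table row27.1 :=
  ⟨(.cut .d 0 (.cut .v 16777216 (.cut .v 8388608 (.void 2 ⟨0, 0, 100000, 0, 0, 0, 0, 0, 0, ⟨0, 0⟩, 0⟩ 0 0) (.cut .d (-8388608) (.pos 3 .mm ⟨167772160000, 0, 0, 0, 0, 0, 0, 0, 0, ⟨0, 0⟩, 0⟩ 0 0) (.cut .d (-4194304) (.void 3 ⟨100000, 0, 0, 0, 0, 0, 0, 0, 0, ⟨0, 0⟩, 0⟩ 0 0) (.cut .d (-2097152) (.void 3 ⟨100000, 0, 0, 0, 0, 0, 0, 0, 0, ⟨0, 0⟩, 0⟩ 0 0) (.cut .v 12582912 (.cut .d (-1048576) (.void 8 ⟨100000, 0, 0, 0, 0, 0, 0, 0, 0, ⟨0, 0⟩, 0⟩ 0 0) (.cut .v 10485760 (.cut .d (-524288) (.void 10 ⟨100000, 0, 0, 0, 0, 0, 0, 0, 0, ⟨0, 0⟩, 0⟩ 0 0) (.cut .v 9437184 (.cut .v 8912896 (.cut .v 8650752 (.void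 134 ⟨0, 0, 100000, 0, 0, 0, 0, 0, 0, ⟨0, 0⟩, 0⟩ 0 0) (.cut .d (-262144) (.void 135 ⟨0, 0, 0, 0, 0, 100000, 0, 0, 0, ⟨0, 0⟩, 0⟩ 0 0) (.cut .s 15654912 (.pos 135 .mm ⟨0, 0, 154968954, 0, 0, 1922652279, 0, 0, 0, ⟨0, 0⟩, 0⟩ 0 0) (.pos 135 .mm ⟨0, 0, 200201494, 0, 0, 2214149247, 0, 0, 0, ⟨0, 0⟩, 0⟩ 0 0)))) (.pos 131 .mm ⟨0, 0, 0, 0, 0, 2808943790, 0, 0, 0, ⟨0, 0⟩, 0⟩ 0 0)) (.pos 91 .mm ⟨0, 0, 0, 0, 0, 3109102611, 0, 0, 0, ⟨0, 0⟩, 0⟩ 0 0))) (.pos 11 .mm ⟨0, 0, 0, 0, 0, 4512133641, 0, 0, 0, ⟨0, 0⟩, 0⟩ 0 0))) (.pos 9 .mm ⟨0, 0, 0, 0, 0, 8102623888, 0, 0, 0, ⟨0, 0⟩, 0⟩ 0 0)))))) (.cut .d (-8388608) (.void 86 ⟨100000, 0, 0, 0, 0, 0, 0, 0, 0, ⟨0, 0⟩, 0⟩ 0 0) (.cut .v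 268435456 (.cut .v 67108864 (.cut .v 33554432 (.pos 20 .mp ⟨0, 0, 0, 0, 0, 40514002798, 0, 0, 0, ⟨0, 0⟩, 0⟩ 0 0) (.pos 61 .mp ⟨167772160000, 0, 0, 0, 0, 0, 0, 0, 0, ⟨0, 0⟩, 0⟩ 0 0)) (.void 70 ⟨100000, 0, 0, 0, 0, 0, 0, 0, 0, ⟨0, 0⟩, 0⟩ 0 0)) (.void 87 ⟨91898, 0, 0, 8102, 0, 0, 0, 0, 0, ⟨0, 0⟩, 0⟩ 0 0)))) (.cut .v 16777216 (.cut .v 8388608 (.cut .v 4194304 (.cut .v 2097152 (.cut .v 1048576 (.cut .v 524288 (.cut .v 262144 (.cut .v 131072 (.pos 138 .pm ⟨0, 0, 23362016, 0, 0, 0, 0, 0, 0, ⟨0, 0⟩, 0⟩ 0 0) (.pos 139 .pm ⟨0, 0, 36630138, 0, 0, 0, 0, 0, 0, ⟨0, 0⟩, 0⟩ 0 0)) (.pos 129 .pm ⟨0, 0, 54691319, 0, 0, 0, 0, 0, 0, ⟨0, 0⟩, 0⟩ 0 0)) (.pos 125 .pm ⟨0, 0, 84443931,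 0, 0, 0, 0, 0, 0, ⟨0, 0⟩, 0⟩ 0 0)) (.pos 101 .pm ⟨0, 0, 133937658, 0, 0, 0, 0, 0, 0, ⟨0, 0⟩, 0⟩ 0 0)) (.pos 7 .pm ⟨0, 0, 229147456, 0, 0, 0, 0, 0, 0, ⟨0, 0⟩, 0⟩ 0 0)) (.pos 5 .pm ⟨0, 0, 461084072, 0, 0, 0, 0, 0, 0, ⟨0, 0⟩, 0⟩ 0 0)) (.pos 3 .pm ⟨0, 0, 127862941, 0, 0, 0, 0, 0, 0, ⟨0, 0⟩, 0⟩ 0 0)) (.cut .v 268435456 (.cut .d 672505 (.cut .v 67108864 (.cut .v 33554432 (.pos 20 .pp ⟨0, 0, 0, 0, 0, 0, 0, 0, 0, ⟨0, 0⟩, 0⟩ 0 0) (.cut .v 50331648 (.pos 64 .pp ⟨3457229725, 0, 0, 0, 0, 0, 0, 0, 0, ⟨0, 0⟩, 0⟩ 0 0) (.pos 65 .pp ⟨6743984660, 0, 0, 0, 0, 0, 0, 0, 0, ⟨0, 0⟩, 0⟩ 0 0))) (.cut .v 134217728 (.cut .d 336252 (.cut .v 100663296 (.pos 75 .pp ⟨19394118637, 0, 0, 0,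 0, 0, 0, 0, 0, ⟨0, 0⟩, 0⟩ 0 0) (.pos 76 .pp ⟨38768981845, 33875358613, 0, 0, 0, 0, 0, 0, 0, ⟨0, 0⟩, 0⟩ 0 0)) (.pos 73 .pp ⟨0, 9876097888, 0, 0, 0, 0, 0, 0, 0, ⟨0, 0⟩, 0⟩ 0 0)) (.void 74 ⟨89293, 0, 0, 10707, 0, 0, 0, 0, 0, ⟨0, 0⟩, 0⟩ 0 0))) (.pos 69 .pp ⟨0, 1951201095, 0, 0, 0, 0, 0, 0, 0, ⟨0, 0⟩, 0⟩ 0 0)) (.void 87 ⟨0, 0, 0, 100000, 0, 0, 0, 0, 0, ⟨0, 0⟩, 0⟩ 0 0)))),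
    by decide +kernel⟩

def covers28 : cell.Covers table row28.1 :=
  ⟨(.cut .d 0 (.cut .v 16777216 (.cut .v 8388608 (.pos 2 .mm ⟨0, 0, 167772160000, 0, 0, 0, 0, 0, 0, ⟨0, 0⟩, 0⟩ 0 0) (.cut .d (-8388608) (.pos 3 .mm ⟨167772160000, 0, 0, 0, 0, 0, 0, 0, 0, ⟨0, 0⟩, 0⟩ 0 0) (.cut .d (-4194304) (.void 3 ⟨100000, 0, 0, 0, 0, 0, 0, 0, 0, ⟨0, 0⟩, 0⟩ 0 0) (.cut .d (-2097152) (.void 3 ⟨100000, 0, 0, 0, 0, 0, 0, 0, 0, ⟨0, 0⟩, 0⟩ 0 0) (.cut .v 12582912 (.cut .d (-1048576) (.void 8 ⟨100000, 0, 0, 0, 0, 0, 0, 0, 0, ⟨0, 0⟩, 0⟩ 0 0) (.cut .v 10485760 (.cut .d (-524288) (.void 10 ⟨100000, 0, 0, 0, 0, 0, 0, 0, 0, ⟨0, 0⟩, 0⟩ 0 0) (.cut .v 9437184 (.cut .v 8912896 (.cut .v 8650752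 (.void 134 ⟨0, 0, 100000, 0, 0, 0, 0, 0, 0, ⟨0, 0⟩, 0⟩ 0 0) (.cut .d (-262144) (.void 135 ⟨76577, 0, 23423, 0, 0, 0, 0, 0, 0, ⟨0, 0⟩, 0⟩ 0 0) (.cut .d (-131072) (.void 135 ⟨0, 0, 0, 0, 0, 100000, 0, 0, 0, ⟨0, 0⟩, 0⟩ 0 0) (.cut .s 15876096 (.pos 135 .mm ⟨0, 0, 239297650, 0, 0, 2372391635, 0, 0, 0, ⟨0, 0⟩, 0⟩ 0 0) (.cut .s 15925248 (.pos 135 .mm ⟨0, 0, 295111812, 0, 0, 2527907575, 0, 0, 0, ⟨0, 0⟩, 0⟩ 0 0) (.pos 135 .mm ⟨0, 0, 330913586, 0, 0, 2723537308, 0, 0, 0, ⟨0, 0⟩, 0⟩ 0 0)))))) (.pos 131 .mm ⟨0, 0, 0, 0, 0, 3759477299, 0, 0, 0, ⟨0, 0⟩, 0⟩ 0 0)) (.pos 91 .mm ⟨0, 0, 0, 0, 0, 4161637003, 0, 0, 0, ⟨0, 0⟩, 0⟩ 0 0))) (.pos 11 .mm ⟨0, 0, 0, 0, 0, 6033447632, 0,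 0, 0, ⟨0, 0⟩, 0⟩ 0 0))) (.pos 9 .mm ⟨0, 0, 0, 0, 0, 10819331862, 0, 0, 0, ⟨0, 0⟩, 0⟩ 0 0)))))) (.cut .v 268435456 (.cut .v 67108864 (.cut .v 33554432 (.pos 20 .mp ⟨0, 0, 0, 0, 0, 95691096498, 0, 0, 0, ⟨0, 0⟩, 0⟩ 0 0) (.void 61 ⟨100000, 0, 0, 0, 0, 0, 0, 0, 0, ⟨0, 0⟩, 0⟩ 0 0)) (.void 70 ⟨100000, 0, 0, 0, 0, 0, 0, 0, 0, ⟨0, 0⟩, 0⟩ 0 0)) (.void 87 ⟨86818, 0, 0, 4718, 0, 0, 0, 0, 0, ⟨0, 0⟩, 0⟩ 0 0))) (.cut .v 16777216 (.cut .v 8388608 (.cut .v 4194304 (.cut .v 2097152 (.cut .v 1048576 (.cut .v 524288 (.cut .v 262144 (.cut .v 131072 (.pos 138 .pm ⟨0, 0, 29131351, 0, 0, 0, 0, 0, 0, ⟨0, 0⟩, 0⟩ 0 0) (.pos 139 .pm ⟨0, 0, 52351500, 0, 0, 0, 0, 0, 0, ⟨0, 0⟩, 0⟩ 0 0))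 (.pos 129 .pm ⟨0, 0, 81370005, 0, 0, 0, 0, 0, 0, ⟨0, 0⟩, 0⟩ 0 0)) (.pos 125 .pm ⟨0, 0, 132066655, 0, 0, 0, 0, 0, 0, ⟨0, 0⟩, 0⟩ 0 0)) (.pos 101 .pm ⟨0, 0, 224013449, 0, 0, 0, 0, 0, 0, ⟨0, 0⟩, 0⟩ 0 0)) (.pos 7 .pm ⟨0, 0, 390005079, 0, 0, 0, 0, 0, 0, ⟨0, 0⟩, 0⟩ 0 0)) (.pos 5 .pm ⟨0, 0, 807111538, 0, 0, 0, 0, 0, 0, ⟨0, 0⟩, 0⟩ 0 0)) (.cut .v 12582912 (.pos 8 .pm ⟨0, 0, 241243782, 0, 0, 0, 0, 0, 0, ⟨0, 0⟩, 0⟩ 0 0) (.pos 9 .pm ⟨0, 0, 0, 0, 0, 0, 0, 0, 0, ⟨0, 0⟩, 0⟩ 0 0))) (.cut .v 268435456 (.cut .v 67108864 (.cut .v 33554432 (.pos 20 .pp ⟨0, 0, 0, 0, 0, 0, 0, 0, 0, ⟨0, 0⟩, 0⟩ 0 0) (.cut .v 50331648 (.pos 64 .pp ⟨3232156084, 0, 0, 0, 0, 0, 0, 0, 0, ⟨0, 0⟩, 0⟩ 0 0)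 (.pos 65 .pp ⟨6199088215, 0, 0, 0, 0, 0, 0, 0, 0, ⟨0, 0⟩, 0⟩ 0 0))) (.cut .v 134217728 (.cut .d 531367 (.cut .d 265683 (.cut .v 100663296 (.pos 75 .pp ⟨24206844094, 0, 0, 0, 0, 0, 0, 0, 0, ⟨0, 0⟩, 0⟩ 0 0) (.pos 76 .pp ⟨48305100676, 44026911771, 0, 0, 0, 0, 0, 0, 0, ⟨0, 0⟩, 0⟩ 0 0)) (.pos 73 .pp ⟨0, 13880403990, 0, 0, 0, 0, 0, 0, 0, ⟨0, 0⟩, 0⟩ 0 0)) (.void 73 ⟨0, 100000, 0, 0, 0, 0, 0, 0, 0, ⟨0, 0⟩, 0⟩ 0 0)) (.void 74 ⟨89064, 0, 0, 10936, 0, 0, 0, 0, 0, ⟨0, 0⟩, 0⟩ 0 0))) (.void 87 ⟨0, 0, 0, 100000, 0, 0, 0, 0, 0, ⟨0, 0⟩, 0⟩ 0 0)))),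
    by decide +kernel⟩

def covers29 : cell.Covers table row29.1 :=
  ⟨(.cut .d 0 (.cut .v 16777216 (.cut .v 8388608 (.pos 2 .mm ⟨0, 0, 167772160000, 0, 0, 0, 0, 0, 0, ⟨0, 0⟩, 0⟩ 0 0) (.cut .d (-8388608) (.void 3 ⟨53031, 0, 0, 0, 0, 0, 0, 0, 0, ⟨0, 0⟩, 0⟩ 0 0) (.cut .d (-4194304) (.void 3 ⟨100000, 0, 0, 0, 0, 0, 0, 0, 0, ⟨0, 0⟩, 0⟩ 0 0) (.cut .d (-2097152) (.void 3 ⟨100000, 0, 0, 0, 0, 0, 0, 0, 0, ⟨0, 0⟩, 0⟩ 0 0) (.cut .v 12582912 (.cut .d (-1048576) (.void 8 ⟨100000, 0, 0, 0, 0, 0, 0, 0, 0, ⟨0, 0⟩, 0⟩ 0 0) (.cut .v 10485760 (.cut .d (-524288) (.void 10 ⟨100000, 0, 0, 0, 0, 0, 0, 0, 0, ⟨0, 0⟩, 0⟩ 0 0) (.cut .v 9437184 (.cut .v 8912896 (.cut .v 8650752 (.void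 134 ⟨0, 0, 100000, 0, 0, 0, 0, 0, 0, ⟨0, 0⟩, 0⟩ 0 0) (.cut .d (-262144) (.void 135 ⟨100000, 0, 0, 0, 0, 0, 0, 0, 0, ⟨0, 0⟩, 0⟩ 0 0) (.cut .d (-131072) (.void 135 ⟨0, 0, 0, 0, 0, 100000, 0, 0, 0, ⟨0, 0⟩, 0⟩ 0 0) (.cut .d (-65536) (.void 135 ⟨0, 0, 0, 0, 0, 100000, 0, 0, 0, ⟨0, 0⟩, 0⟩ 0 0) (.cut .d (-32768) (.void 135 ⟨0, 0, 0, 0, 0, 100000, 0, 0, 0, ⟨0, 0⟩, 0⟩ 0 0) (.cut .d (-16384) (.void 135 ⟨0, 0, 0, 0, 0, 100000, 0, 0, 0, ⟨0, 0⟩, 0⟩ 0 0) (.cut .v 8781824 (.pos 136 .mm ⟨0, 0, 3369581715, 0, 0, 0, 0, 0, 0, ⟨0, 0⟩, 0⟩ 0 0) (.cut .s 16056320 (.cut .s 16015360 (.pos 137 .mm ⟨0, 0, 320532106, 0, 0, 2722047208, 0, 0, 0, ⟨0, 0⟩, 0⟩ 0 0) (.pos 137 .mm ⟨0, 0, 352405016,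 0, 0, 2943008628, 0, 0, 0, ⟨0, 0⟩, 0⟩ 0 0)) (.pos 137 .mm ⟨0, 0, 424920549, 0, 0, 3472984710, 0, 0, 0, ⟨0, 0⟩, 0⟩ 0 0))))))))) (.pos 131 .mm ⟨0, 0, 0, 0, 0, 5145969490, 0, 0, 0, ⟨0, 0⟩, 0⟩ 0 0)) (.pos 91 .mm ⟨0, 0, 0, 0, 0, 5698043126, 0, 0, 0, ⟨0, 0⟩, 0⟩ 0 0))) (.pos 11 .mm ⟨0, 0, 0, 0, 0, 8218859628, 0, 0, 0, ⟨0, 0⟩, 0⟩ 0 0))) (.pos 9 .mm ⟨0, 0, 0, 0, 0, 14641512637, 0, 0, 0, ⟨0, 0⟩, 0⟩ 0 0)))))) (.cut .v 268435456 (.cut .v 67108864 (.cut .v 33554432 (.pos 20 .mp ⟨0, 0, 0, 0, 0, 128527405866, 0, 0, 0, ⟨0, 0⟩, 0⟩ 0 0) (.void 61 ⟨100000, 0, 0, 0, 0, 0, 0, 0, 0, ⟨0, 0⟩, 0⟩ 0 0)) (.void 70 ⟨100000, 0, 0, 0, 0, 0, 0, 0, 0, ⟨0, 0⟩, 0⟩ 0 0)) (.void 87 ⟨90477, 0,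 0, 5606, 0, 0, 0, 0, 0, ⟨0, 0⟩, 0⟩ 0 0))) (.cut .v 16777216 (.cut .v 8388608 (.cut .v 4194304 (.cut .v 2097152 (.cut .v 1048576 (.cut .v 524288 (.cut .v 262144 (.cut .v 131072 (.cut .v 65536 (.pos 142 .pm ⟨0, 0, 27319301, 0, 0, 0, 0, 0, 0, ⟨0, 0⟩, 0⟩ 0 0) (.pos 143 .pm ⟨0, 0, 47478620, 0, 0, 0, 0, 0, 0, ⟨0, 0⟩, 0⟩ 0 0)) (.pos 139 .pm ⟨0, 0, 73463824, 0, 0, 0, 0, 0, 0, ⟨0, 0⟩, 0⟩ 0 0)) (.pos 129 .pm ⟨0, 0, 120310512, 0, 0, 0, 0, 0, 0, ⟨0, 0⟩, 0⟩ 0 0)) (.pos 125 .pm ⟨0, 0, 205052547, 0, 0, 0, 0, 0, 0, ⟨0, 0⟩, 0⟩ 0 0)) (.pos 101 .pm ⟨0, 0, 351013000, 0, 0, 0, 0, 0, 0, ⟨0, 0⟩, 0⟩ 0 0)) (.pos 7 .pm ⟨0, 0, 632032630, 0, 0, 0, 0, 0, 0, ⟨0, 0⟩, 0⟩ 0 0)) (.pos 5 .pm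 ⟨0, 0, 1311102882, 0, 0, 0, 0, 0, 0, ⟨0, 0⟩, 0⟩ 0 0)) (.cut .v 12582912 (.pos 8 .pm ⟨0, 0, 353017042, 0, 0, 0, 0, 0, 0, ⟨0, 0⟩, 0⟩ 0 0) (.pos 9 .pm ⟨0, 0, 0, 0, 0, 0, 0, 0, 0, ⟨0, 0⟩, 0⟩ 0 0))) (.cut .v 268435456 (.cut .v 67108864 (.cut .v 33554432 (.pos 20 .pp ⟨0, 0, 0, 0, 0, 0, 0, 0, 0, ⟨0, 0⟩, 0⟩ 0 0) (.cut .v 50331648 (.pos 64 .pp ⟨4476098054, 0, 0, 0, 0, 0, 0, 0, 0, ⟨0, 0⟩, 0⟩ 0 0) (.pos 65 .pp ⟨8390573054, 0, 0, 0, 0, 0, 0, 0, 0, ⟨0, 0⟩, 0⟩ 0 0))) (.cut .v 134217728 (.cut .d 421582 (.cut .d 210791 (.cut .v 100663296 (.pos 75 .pp ⟨31321274879, 0, 0, 0, 0, 0, 0, 0, 0, ⟨0, 0⟩, 0⟩ 0 0) (.pos 76 .pp ⟨62522141118, 59680680056, 0, 0, 0, 0, 0, 0, 0, ⟨0, 0⟩, 0⟩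 0 0)) (.pos 73 .pp ⟨0, 20086403186, 0, 0, 0, 0, 0, 0, 0, ⟨0, 0⟩, 0⟩ 0 0)) (.void 73 ⟨0, 100000, 0, 0, 0, 0, 0, 0, 0, ⟨0, 0⟩, 0⟩ 0 0)) (.void 74 ⟨89027, 0, 0, 10973, 0, 0, 0, 0, 0, ⟨0, 0⟩, 0⟩ 0 0))) (.void 87 ⟨0, 0, 0, 100000, 0, 0, 0, 0, 0, ⟨0, 0⟩, 0⟩ 0 0)))),
    by decide +kernel⟩

def covers30 : cell.Covers table row30.1 :=
  ⟨(.cut .d 0 (.cut .v 16777216 (.cut .v 8388608 (.pos 2 .mm ⟨0, 0, 167772160000, 0, 0, 0, 0, 0, 0, ⟨0, 0⟩, 0⟩ 0 0) (.cut .d (-8388608) (.void 3 ⟨0, 0, 0, 4684, 0, 82891, 0, 12690, 0, ⟨(-1), 10500071⟩, 0⟩ 0 125) (.cut .d (-4194304) (.void 3 ⟨100000, 0, 0, 0, 0, 0, 0, 0, 0, ⟨0, 0⟩, 0⟩ 0 0) (.cut .d (-2097152) (.void 3 ⟨100000, 0, 0, 0,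 0, 0, 0, 0, 0, ⟨0, 0⟩, 0⟩ 0 0) (.cut .v 12582912 (.cut .v 10485760 (.cut .d (-1048576) (.void 10 ⟨100000, 0, 0, 0, 0, 0, 0, 0, 0, ⟨0, 0⟩, 0⟩ 0 0) (.cut .d (-524288) (.void 10 ⟨100000, 0, 0, 0, 0, 0, 0, 0, 0, ⟨0, 0⟩, 0⟩ 0 0) (.cut .v 9437184 (.cut .v 8912896 (.cut .d (-262144) (.void 130 ⟨100000, 0, 0, 0, 0, 0, 0, 0, 0, ⟨0, 0⟩, 0⟩ 0 0) (.cut .v 8650752 (.void 134 ⟨0, 0, 100000, 0, 0, 0, 0, 0, 0, ⟨0, 0⟩, 0⟩ 0 0) (.cut .d (-131072) (.void 135 ⟨0, 0, 0, 0, 0, 100000, 0, 0, 0, ⟨0, 0⟩, 0⟩ 0 0) (.cut .v 8781824 (.void 136 ⟨0, 0, 100000, 0, 0, 0, 0, 0, 0, ⟨0, 0⟩, 0⟩ 0 0) (.cut .d (-65536) (.void 137 ⟨0, 0, 0, 0, 0, 100000, 0, 0, 0, ⟨0, 0⟩, 0⟩ 0 0) (.cut .d (-32768)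 (.void 137 ⟨0, 0, 0, 0, 0, 100000, 0, 0, 0, ⟨0, 0⟩, 0⟩ 0 0) (.cut .d (-16384) (.void 137 ⟨0, 0, 0, 0, 0, 100000, 0, 0, 0, ⟨0, 0⟩, 0⟩ 0 0) (.cut .s 16203776 (.pos 137 .mm ⟨0, 0, 518691824, 0, 0, 4072627493, 0, 0, 0, ⟨0, 0⟩, 0⟩ 0 0) (.cut .s 16236544 (.pos 137 .mm ⟨0, 0, 619937589, 0, 0, 4439407043, 0, 0, 0, ⟨0, 0⟩, 0⟩ 0 0) (.pos 137 .mm ⟨0, 0, 680416156, 0, 0, 4867718189, 0, 0, 0, ⟨0, 0⟩, 0⟩ 0 0)))))))))) (.pos 131 .mm ⟨0, 0, 0, 0, 0, 7141741774, 0, 0, 0, ⟨0, 0⟩, 0⟩ 0 0)) (.pos 91 .mm ⟨0, 0, 0, 0, 0, 7911346875, 0, 0, 0, ⟨0, 0⟩, 0⟩ 0 0)))) (.pos 11 .mm ⟨0, 0, 0, 0, 0, 14838370088, 0, 0, 0, ⟨0, 0⟩, 0⟩ 0 0)) (.pos 9 .mm ⟨0, 0, 0, 0, 0, 19915313259, 0, 0, 0, ⟨0,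 0⟩, 0⟩ 0 0)))))) (.cut .v 4294967296 (.cut .v 268435456 (.cut .v 67108864 (.cut .d (-8388608) (.void 60 ⟨100000, 0, 0, 0, 0, 0, 0, 0, 0, ⟨0, 0⟩, 0⟩ 0 0) (.pos 60 .mp ⟨67188114007, 0, 0, 0, 0, 100584045993, 0, 0, 0, ⟨0, 0⟩, 0⟩ 0 0)) (.void 70 ⟨100000, 0, 0, 0, 0, 0, 0, 0, 0, ⟨0, 0⟩, 0⟩ 0 0)) (.void 87 ⟨94286, 0, 0, 5714, 0, 0, 0, 0, 0, ⟨0, 0⟩, 0⟩ 0 0)) (.void 146 ⟨94286, 0, 0, 5714, 0, 0, 0, 0, 0, ⟨0, 0⟩, 0⟩ 0 0))) (.cut .v 16777216 (.cut .v 8388608 (.cut .v 4194304 (.cut .v 2097152 (.cut .v 1048576 (.cut .v 524288 (.cut .v 262144 (.cut .v 131072 (.cut .v 65536 (.pos 142 .pm ⟨0, 0, 34453797, 0, 0, 0, 0, 0, 0, ⟨0, 0⟩, 0⟩ 0 0) (.pos 143 .pm ⟨0, 0, 64257214, 0,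 0, 0, 0, 0, 0, ⟨0, 0⟩, 0⟩ 0 0)) (.pos 139 .pm ⟨0, 0, 105110969, 0, 0, 0, 0, 0, 0, ⟨0, 0⟩, 0⟩ 0 0)) (.pos 129 .pm ⟨0, 0, 179720095, 0, 0, 0, 0, 0, 0, ⟨0, 0⟩, 0⟩ 0 0)) (.pos 125 .pm ⟨0, 0, 311295381, 0, 0, 0, 0, 0, 0, ⟨0, 0⟩, 0⟩ 0 0)) (.pos 101 .pm ⟨0, 0, 545115610, 0, 0, 0, 0, 0, 0, ⟨0, 0⟩, 0⟩ 0 0)) (.pos 7 .pm ⟨0, 0, 1010701044, 0, 0, 0, 0, 0, 0, ⟨0, 0⟩, 0⟩ 0 0)) (.pos 5 .pm ⟨0, 0, 2114723841, 0, 0, 0, 0, 0, 0, ⟨0, 0⟩, 0⟩ 0 0)) (.cut .v 12582912 (.cut .s 16203776 (.pos 8 .pm ⟨0, 0, 495367235, 0, 0, 0, 0, 0, 0, ⟨0, 0⟩, 0⟩ 0 0) (.pos 8 .pm ⟨0, 0, 595453030, 0, 0, 0, 0, 0, 0, ⟨0, 0⟩, 0⟩ 0 0)) (.pos 9 .pm ⟨0, 0, 0, 0, 0, 0, 0, 0, 0, ⟨0, 0⟩, 0⟩ 0 0))) (.cut .v 4294967296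 (.cut .v 268435456 (.cut .v 67108864 (.cut .v 33554432 (.pos 20 .pp ⟨0, 0, 0, 0, 0, 0, 0, 0, 0, ⟨0, 0⟩, 0⟩ 0 0) (.cut .v 50331648 (.pos 64 .pp ⟨6481839088, 0, 0, 0, 0, 0, 0, 0, 0, ⟨0, 0⟩, 0⟩ 0 0) (.pos 65 .pp ⟨11771958459, 0, 0, 0, 0, 0, 0, 0, 0, ⟨0, 0⟩, 0⟩ 0 0))) (.cut .v 134217728 (.cut .d 332139 (.cut .v 100663296 (.cut .d 166069 (.pos 75 .pp ⟨40896051574, 0, 0, 0, 0, 0, 0, 0, 0, ⟨0, 0⟩, 0⟩ 0 0) (.pos 75 .pp ⟨0, 16766967563, 0, 0, 0, 0, 0, 0, 0, ⟨0, 0⟩, 0⟩ 0 0)) (.cut .d 166069 (.cut .d 83034 (.void 76 ⟨100000, 0, 0, 0, 0, 0, 0, 0, 0, ⟨0, 0⟩, 0⟩ 0 0) (.cut .d 124551 (.cut .v 117440512 (.cut .v 109051904 (.pos 149 .pp ⟨63243675118, 35336549046, 0, 0, 0, 0,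 0, 0, 0, ⟨0, 0⟩, 0⟩ 0 0) (.void 150 ⟨89129, 0, 0, 10871, 0, 0, 0, 0, 0, ⟨0, 0⟩, 0⟩ 0 0)) (.void 148 ⟨85815, 0, 0, 14413, 0, 0, 0, 0, 0, ⟨0, 0⟩, 0⟩ 0 0)) (.pos 76 .pp ⟨58189252984, 53888397407, 0, 0, 0, 0, 0, 0, 0, ⟨0, 0⟩, 0⟩ 0 0))) (.void 76 ⟨0, 100000, 0, 0, 0, 0, 0, 0, 0, ⟨0, 0⟩, 0⟩ 0 0))) (.void 73 ⟨0, 100000, 0, 0, 0, 0, 0, 0, 0, ⟨0, 0⟩, 0⟩ 0 0)) (.void 74 ⟨88998, 0, 0, 11002, 0, 0, 0, 0, 0, ⟨0, 0⟩, 0⟩ 0 0))) (.void 87 ⟨0, 0, 0, 100000, 0, 0, 0, 0, 0, ⟨0, 0⟩, 0⟩ 0 0)) (.void 146 ⟨0, 0, 0, 100000, 0, 0, 0, 0, 0, ⟨0, 0⟩, 0⟩ 0 0)))),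
    by decide +kernel⟩

def covers31 : cell.Covers table row31.1 :=
  ⟨(.cut .d 0 (.cut .v 16777216 (.cut .v 8388608 (.pos 2 .mm ⟨0, 0, 167772160000, 0, 0, 0, 0, 0, 0, ⟨0, 0⟩, 0⟩ 0 0) (.cut .d (-8388608) (.void 3 ⟨0, 0, 0, 4609, 0, 82215, 0, 12311, 0, ⟨(-1), 10500071⟩, 0⟩ 0 125) (.cut .d (-4194304) (.void 3 ⟨100000, 0, 0, 0, 0, 0, 0, 0, 0, ⟨0, 0⟩, 0⟩ 0 0) (.cut .d (-2097152) (.void 3 ⟨100000, 0, 0, 0, 0, 0, 0, 0, 0, ⟨0, 0⟩, 0⟩ 0 0) (.cut .v 12582912 (.cut .d (-1048576) (.void 8 ⟨100000, 0, 0, 0, 0, 0, 0, 0, 0, ⟨0, 0⟩, 0⟩ 0 0) (.cut .v 10485760 (.cut .d (-524288) (.void 10 ⟨100000, 0, 0, 0, 0, 0, 0, 0, 0, ⟨0, 0⟩, 0⟩ 0 0) (.cut .d (-262144) (.void 10 ⟨100000,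 0, 0, 0, 0, 0, 0, 0, 0, ⟨0, 0⟩, 0⟩ 0 0) (.cut .v 9437184 (.cut .v 8912896 (.cut .d (-131072) (.void 130 ⟨75772, 0, 24228, 0, 0, 0, 0, 0, 0, ⟨0, 0⟩, 0⟩ 0 0) (.pos 130 .mm ⟨0, 0, 752855976, 0, 0, 5104582485, 0, 0, 0, ⟨0, 0⟩, 0⟩ 0 0)) (.pos 131 .mm ⟨0, 0, 0, 0, 0, 6655985617, 0, 0, 0, ⟨0, 0⟩, 0⟩ 0 0)) (.pos 91 .mm ⟨0, 0, 0, 0, 0, 7314319137, 0, 0, 0, ⟨0, 0⟩, 0⟩ 0 0)))) (.pos 11 .mm ⟨0, 0, 0, 0, 0, 14604116453, 0, 0, 0, ⟨0, 0⟩, 0⟩ 0 0))) (.pos 9 .mm ⟨0, 0, 0, 0, 0, 26167302652, 0, 0, 0, ⟨0, 0⟩, 0⟩ 0 0)))))) (.cut .v 4294967296 (.cut .v 268435456 (.cut .v 67108864 (.cut .d (-8388608) (.void 60 ⟨100000, 0, 0, 0, 0, 0, 0, 0, 0, ⟨0, 0⟩, 0⟩ 0 0) (.cut .v 33554432 (.pos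 20 .mp ⟨0, 0, 0, 0, 0, 126483981655, 0, 0, 0, ⟨0, 0⟩, 0⟩ 0 0) (.void 61 ⟨100000, 0, 0, 0, 0, 0, 0, 0, 0, ⟨0, 0⟩, 0⟩ 0 0))) (.void 70 ⟨100000, 0, 0, 0, 0, 0, 0, 0, 0, ⟨0, 0⟩, 0⟩ 0 0)) (.void 87 ⟨97212, 0, 0, 5916, 0, 0, 0, 0, 0, ⟨0, 0⟩, 0⟩ 0 0)) (.void 146 ⟨94253, 0, 0, 5747, 0, 0, 0, 0, 0, ⟨0, 0⟩, 0⟩ 0 0))) (.cut .v 16777216 (.cut .v 8388608 (.cut .v 4194304 (.cut .v 2097152 (.cut .v 1048576 (.cut .v 524288 (.cut .v 262144 (.cut .v 131072 (.cut .v 65536 (.pos 142 .pm ⟨0, 0, 40528861, 0, 0, 0, 0, 0, 0, ⟨0, 0⟩, 0⟩ 0 0) (.pos 143 .pm ⟨0, 0, 79979174, 0, 0, 0, 0, 0, 0, ⟨0, 0⟩, 0⟩ 0 0)) (.pos 139 .pm ⟨0, 0, 127821600, 0, 0, 0, 0, 0, 0, ⟨0, 0⟩, 0⟩ 0 0)) (.pos 129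 .pm ⟨0, 0, 204039467, 0, 0, 0, 0, 0, 0, ⟨0, 0⟩, 0⟩ 0 0)) (.pos 125 .pm ⟨0, 0, 359617562, 0, 0, 0, 0, 0, 0, ⟨0, 0⟩, 0⟩ 0 0)) (.pos 101 .pm ⟨0, 0, 655835724, 0, 0, 0, 0, 0, 0, ⟨0, 0⟩, 0⟩ 0 0)) (.pos 7 .pm ⟨0, 0, 1294853331, 0, 0, 0, 0, 0, 0, ⟨0, 0⟩, 0⟩ 0 0)) (.pos 5 .pm ⟨0, 0, 3281046058, 0, 0, 0, 0, 0, 0, ⟨0, 0⟩, 0⟩ 0 0)) (.pos 3 .pm ⟨0, 0, 599404641, 0, 0, 0, 0, 0, 0, ⟨0, 0⟩, 0⟩ 0 0)) (.cut .v 4294967296 (.cut .v 268435456 (.cut .v 67108864 (.cut .v 33554432 (.pos 20 .pp ⟨0, 0, 0, 0, 0, 0, 0, 0, 0, ⟨0, 0⟩, 0⟩ 0 0) (.pos 61 .pp ⟨10595858305, 0, 0, 0, 0, 0, 0, 0, 0, ⟨0, 0⟩, 0⟩ 0 0)) (.cut .v 134217728 (.cut .d 261881 (.cut .v 100663296 (.cut .d 130940 (.pos 75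 .pp ⟨41741795903, 0, 0, 0, 0, 0, 0, 0, 0, ⟨0, 0⟩, 0⟩ 0 0) (.pos 75 .pp ⟨0, 26676914153, 0, 0, 0, 0, 0, 0, 0, ⟨0, 0⟩, 0⟩ 0 0)) (.cut .d 130940 (.cut .d 65470 (.void 76 ⟨100000, 0, 0, 0, 0, 0, 0, 0, 0, ⟨0, 0⟩, 0⟩ 0 0) (.cut .v 117440512 (.cut .d 98205 (.pos 147 .pp ⟨166418383650, 0, 0, 1353776350, 0, 0, 0, 0, 0, ⟨0, 0⟩, 0⟩ 0 0) (.cut .v 109051904 (.pos 149 .pp ⟨62124969225, 42645473120, 0, 0, 0, 0, 0, 0, 0, ⟨0, 0⟩, 0⟩ 0 0) (.void 150 ⟨88216, 0, 0, 11784, 0, 0, 0, 0, 0, ⟨0, 0⟩, 0⟩ 0 0))) (.void 148 ⟨83908, 0, 0, 16092, 0, 0, 0, 0, 0, ⟨0, 0⟩, 0⟩ 0 0))) (.void 76 ⟨0, 100000, 0, 0, 0, 0, 0, 0, 0, ⟨0, 0⟩, 0⟩ 0 0))) (.void 73 ⟨0, 100000, 0, 0, 0, 0, 0, 0, 0, ⟨0, 0⟩,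 0⟩ 0 0)) (.void 74 ⟨88980, 0, 0, 11020, 0, 0, 0, 0, 0, ⟨0, 0⟩, 0⟩ 0 0))) (.void 87 ⟨0, 0, 0, 100000, 0, 0, 0, 0, 0, ⟨0, 0⟩, 0⟩ 0 0)) (.void 146 ⟨0, 0, 0, 100000, 0, 0, 0, 0, 0, ⟨0, 0⟩, 0⟩ 0 0)))),
    by decide +kernel⟩

def covers32 : cell.Covers table row32.1 :=
  ⟨(.cut .d 0 (.cut .v 16777216 (.cut .v 8388608 (.pos 2 .mm ⟨0, 0, 167772160000, 0, 0, 0, 0, 0, 0, ⟨0, 0⟩, 0⟩ 0 0) (.pos 3 .mm ⟨0, 0, 2872314305, 0, 0, 141793223871, 0, 0, 0, ⟨0, 0⟩, 0⟩ 0 0)) (.cut .v 4294967296 (.cut .d (-8388608) (.void 86 ⟨100000, 0, 0, 0, 0, 0, 0, 0, 0, ⟨0, 0⟩, 0⟩ 0 0) (.cut .v 268435456 (.cut .v 67108864 (.cut .d (-4194304) (.void 60 ⟨100000, 0, 0, 0, 0, 0, 0, 0, 0, ⟨0, 0⟩,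 0⟩ 0 0) (.pos 60 .mp ⟨64452179020, 0, 0, 0, 0, 103319980980, 0, 0, 0, ⟨0, 0⟩, 0⟩ 0 0)) (.void 70 ⟨100000, 0, 0, 0, 0, 0, 0, 0, 0, ⟨0, 0⟩, 0⟩ 0 0)) (.void 87 ⟨91582, 0, 0, 8418, 0, 0, 0, 0, 0, ⟨0, 0⟩, 0⟩ 0 0))) (.void 146 ⟨94226, 0, 0, 5774, 0, 0, 0, 0, 0, ⟨0, 0⟩, 0⟩ 0 0))) (.cut .v 16777216 (.cut .v 8388608 (.cut .v 4194304 (.cut .v 2097152 (.cut .v 1048576 (.cut .v 524288 (.cut .v 262144 (.cut .v 131072 (.cut .v 65536 (.cut .v 32768 (.pos 151 .pm ⟨0, 0, 34988603, 0, 0, 0, 0, 0, 0, ⟨0, 0⟩, 0⟩ 0 0) (.pos 152 .pm ⟨0, 0, 66862167, 0, 0, 0, 0, 0, 0, ⟨0, 0⟩, 0⟩ 0 0)) (.pos 143 .pm ⟨0, 0, 110909018, 0, 0, 0, 0, 0, 0, ⟨0, 0⟩, 0⟩ 0 0)) (.pos 139 .pm ⟨0, 0, 190537370,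 0, 0, 0, 0, 0, 0, ⟨0, 0⟩, 0⟩ 0 0)) (.pos 129 .pm ⟨0, 0, 325940252, 0, 0, 0, 0, 0, 0, ⟨0, 0⟩, 0⟩ 0 0)) (.pos 125 .pm ⟨0, 0, 566021362, 0, 0, 0, 0, 0, 0, ⟨0, 0⟩, 0⟩ 0 0)) (.pos 101 .pm ⟨0, 0, 985412161, 0, 0, 0, 0, 0, 0, ⟨0, 0⟩, 0⟩ 0 0)) (.pos 7 .pm ⟨0, 0, 1827747120, 0, 0, 0, 0, 0, 0, ⟨0, 0⟩, 0⟩ 0 0)) (.pos 5 .pm ⟨0, 0, 3771792049, 0, 0, 0, 0, 0, 0, ⟨0, 0⟩, 0⟩ 0 0)) (.pos 3 .pm ⟨0, 0, 2151455784, 0, 0, 0, 0, 0, 0, ⟨0, 0⟩, 0⟩ 0 0)) (.cut .v 4294967296 (.cut .v 268435456 (.cut .v 67108864 (.pos 60 .pp ⟨0, 0, 0, 0, 0, 0, 0, 0, 0, ⟨0, 0⟩, 0⟩ 0 0) (.cut .v 134217728 (.cut .v 100663296 (.pos 75 .pp ⟨38228748301, 0, 0, 0, 0, 0, 0, 0, 0, ⟨0, 0⟩, 0⟩ 0 0) (.pos 76 .pp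 ⟨126797620312, 33717234029, 0, 7257305659, 0, 0, 0, 0, 0, ⟨0, 0⟩, 0⟩ 0 0)) (.void 74 ⟨88961, 0, 0, 11039, 0, 0, 0, 0, 0, ⟨0, 0⟩, 0⟩ 0 0))) (.void 87 ⟨0, 0, 0, 100000, 0, 0, 0, 0, 0, ⟨0, 0⟩, 0⟩ 0 0)) (.void 146 ⟨0, 0, 0, 100000, 0, 0, 0, 0, 0, ⟨0, 0⟩, 0⟩ 0 0)))),
    by decide +kernel⟩

def covers33 : cell.Covers table row33.1 :=
  ⟨(.cut .d 0 (.cut .v 16777216 (.cut .v 8388608 (.void 2 ⟨0, 0, 100000, 0, 0, 0, 0, 0, 0, ⟨0, 0⟩, 0⟩ 0 0) (.cut .s 16482304 (.pos 3 .mm ⟨0, 0, 3512612947, 0, 0, 160550868523, 0, 0, 0, ⟨0, 0⟩, 0⟩ 0 0) (.cut .d (-8388608) (.void 3 ⟨99970, 0, 0, 0, 0, 0, 0, 0, 0, ⟨0, 0⟩, 0⟩ 0 0) (.pos 3 .mm ⟨0, 0, 3571292406, 0, 0, 105606910678, 0, 0,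 0, ⟨0, 0⟩, 0⟩ 0 0)))) (.cut .v 4294967296 (.cut .d (-8388608) (.void 86 ⟨100000, 0, 0, 0, 0, 0, 0, 0, 0, ⟨0, 0⟩, 0⟩ 0 0) (.cut .v 268435456 (.cut .v 67108864 (.cut .d (-4194304) (.void 60 ⟨100000, 0, 0, 0, 0, 0, 0, 0, 0, ⟨0, 0⟩, 0⟩ 0 0) (.pos 60 .mp ⟨159262008259, 0, 0, 0, 0, 8510151741, 0, 0, 0, ⟨0, 0⟩, 0⟩ 0 0)) (.void 70 ⟨100000, 0, 0, 0, 0, 0, 0, 0, 0, ⟨0, 0⟩, 0⟩ 0 0)) (.void 87 ⟨91551, 0, 0, 8449, 0, 0, 0, 0, 0, ⟨0, 0⟩, 0⟩ 0 0))) (.void 146 ⟨94204, 0, 0, 5796, 0, 0, 0, 0, 0, ⟨0, 0⟩, 0⟩ 0 0))) (.cut .v 16777216 (.cut .v 8388608 (.cut .v 4194304 (.cut .v 2097152 (.cut .v 1048576 (.cut .v 524288 (.cut .v 262144 (.cut .v 131072 (.cut .v 65536 (.cut .v 32768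 (.pos 151 .pm ⟨0, 0, 43747297, 0, 0, 0, 0, 0, 0, ⟨0, 0⟩, 0⟩ 0 0) (.pos 152 .pm ⟨0, 0, 90724792, 0, 0, 0, 0, 0, 0, ⟨0, 0⟩, 0⟩ 0 0)) (.pos 143 .pm ⟨0, 0, 155949002, 0, 0, 0, 0, 0, 0, ⟨0, 0⟩, 0⟩ 0 0)) (.pos 139 .pm ⟨0, 0, 270580605, 0, 0, 0, 0, 0, 0, ⟨0, 0⟩, 0⟩ 0 0)) (.pos 129 .pm ⟨0, 0, 472899295, 0, 0, 0, 0, 0, 0, ⟨0, 0⟩, 0⟩ 0 0)) (.pos 125 .pm ⟨0, 0, 835541416, 0, 0, 0, 0, 0, 0, ⟨0, 0⟩, 0⟩ 0 0)) (.pos 101 .pm ⟨0, 0, 1467078323, 0, 0, 0, 0, 0, 0, ⟨0, 0⟩, 0⟩ 0 0)) (.pos 7 .pm ⟨0, 0, 2745723329, 0, 0, 0, 0, 0, 0, ⟨0, 0⟩, 0⟩ 0 0)) (.pos 5 .pm ⟨0, 0, 5844495538, 0, 0, 0, 0, 0, 0, ⟨0, 0⟩, 0⟩ 0 0)) (.pos 3 .pm ⟨0, 0, 3028898056, 0, 0, 0, 0, 0, 0, ⟨0, 0⟩, 0⟩ 0 0))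 (.cut .v 4294967296 (.cut .v 268435456 (.cut .v 67108864 (.pos 60 .pp ⟨0, 0, 0, 0, 0, 0, 0, 0, 0, ⟨0, 0⟩, 0⟩ 0 0) (.cut .v 134217728 (.cut .v 100663296 (.pos 75 .pp ⟨54751022415, 0, 0, 0, 0, 0, 0, 0, 0, ⟨0, 0⟩, 0⟩ 0 0) (.cut .v 117440512 (.pos 147 .pp ⟨157215809712, 0, 0, 10556350288, 0, 0, 0, 0, 0, ⟨0, 0⟩, 0⟩ 0 0) (.void 148 ⟨88946, 0, 0, 11054, 0, 0, 0, 0, 0, ⟨0, 0⟩, 0⟩ 0 0))) (.void 74 ⟨88946, 0, 0, 11054, 0, 0, 0, 0, 0, ⟨0, 0⟩, 0⟩ 0 0))) (.void 87 ⟨0, 0, 0, 100000, 0, 0, 0, 0, 0, ⟨0, 0⟩, 0⟩ 0 0)) (.void 146 ⟨0, 0, 0, 100000, 0, 0, 0, 0, 0, ⟨0, 0⟩, 0⟩ 0 0)))),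
    by decide +kernel⟩

def covers34 : cell.Covers table row34.1 :=
  ⟨(.cut .d 0 (.cut .v 16777216 (.cut .d (-8388608) (.void 1 ⟨0, 0, 0, 0, 0, 100009, 0, 0, 0, ⟨0, 0⟩, 0⟩ 0 0) (.cut .v 8388608 (.void 2 ⟨0, 0, 100000, 0, 0, 0, 0, 0, 0, ⟨0, 0⟩, 0⟩ 0 0) (.pos 3 .mm ⟨0, 0, 4260219501, 0, 0, 136941318622, 0, 0, 0, ⟨0, 0⟩, 0⟩ 0 0))) (.cut .v 4294967296 (.cut .v 268435456 (.cut .v 67108864 (.cut .d (-8388608) (.void 60 ⟨100000, 0, 0, 0, 0, 0, 0, 0, 0, ⟨0, 0⟩, 0⟩ 0 0) (.cut .v 33554432 (.cut .d (-4194304) (.void 20 ⟨100000, 0, 0, 0, 0, 0, 0, 0, 0, ⟨0, 0⟩, 0⟩ 0 0) (.pos 20 .mp ⟨21689495981, 0, 0, 0, 0, 146082664019, 0, 0, 0, ⟨0, 0⟩, 0⟩ 0 0)) (.void 61 ⟨100000, 0,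 0, 0, 0, 0, 0, 0, 0, ⟨0, 0⟩, 0⟩ 0 0))) (.void 70 ⟨100000, 0, 0, 0, 0, 0, 0, 0, 0, ⟨0, 0⟩, 0⟩ 0 0)) (.void 87 ⟨94188, 0, 0, 5812, 0, 0, 0, 0, 0, ⟨0, 0⟩, 0⟩ 0 0)) (.void 146 ⟨94188, 0, 0, 5812, 0, 0, 0, 0, 0, ⟨0, 0⟩, 0⟩ 0 0))) (.cut .v 16777216 (.cut .v 8388608 (.cut .v 4194304 (.cut .v 2097152 (.cut .v 1048576 (.cut .v 524288 (.cut .v 262144 (.cut .v 131072 (.cut .v 65536 (.cut .v 32768 (.cut .v 16384 (.pos 153 .pm ⟨0, 0, 36598566, 0, 0, 0, 0, 0, 0, ⟨0, 0⟩, 0⟩ 0 0) (.pos 154 .pm ⟨0, 0, 72520286, 0, 0, 0, 0, 0, 0, ⟨0, 0⟩, 0⟩ 0 0)) (.pos 152 .pm ⟨0, 0, 122835345, 0, 0, 0, 0, 0, 0, ⟨0, 0⟩, 0⟩ 0 0)) (.pos 143 .pm ⟨0, 0, 216385001, 0, 0, 0, 0, 0, 0, ⟨0, 0⟩, 0⟩ 0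 0)) (.pos 139 .pm ⟨0, 0, 379725398, 0, 0, 0, 0, 0, 0, ⟨0, 0⟩, 0⟩ 0 0)) (.pos 129 .pm ⟨0, 0, 674633219, 0, 0, 0, 0, 0, 0, ⟨0, 0⟩, 0⟩ 0 0)) (.pos 125 .pm ⟨0, 0, 1200962022, 0, 0, 0, 0, 0, 0, ⟨0, 0⟩, 0⟩ 0 0)) (.pos 101 .pm ⟨0, 0, 2140531330, 0, 0, 0, 0, 0, 0, ⟨0, 0⟩, 0⟩ 0 0)) (.pos 7 .pm ⟨0, 0, 4046277490, 0, 0, 0, 0, 0, 0, ⟨0, 0⟩, 0⟩ 0 0)) (.pos 5 .pm ⟨0, 0, 8916562284, 0, 0, 0, 0, 0, 0, ⟨0, 0⟩, 0⟩ 0 0)) (.pos 3 .pm ⟨0, 0, 4260219501, 0, 0, 0, 0, 0, 0, ⟨0, 0⟩, 0⟩ 0 0)) (.cut .v 4294967296 (.cut .v 268435456 (.cut .v 67108864 (.pos 60 .pp ⟨0, 0, 0, 0, 0, 0, 0, 0, 0, ⟨0, 0⟩, 0⟩ 0 0) (.cut .v 134217728 (.cut .d 133154 (.cut .d 66577 (.cut .d 33288 (.void 73 ⟨100000,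 0, 0, 0, 0, 0, 0, 0, 0, ⟨0, 0⟩, 0⟩ 0 0) (.cut .v 100663296 (.pos 75 .pp ⟨125215086727, 0, 0, 0, 0, 0, 0, 0, 0, ⟨0, 0⟩, 0⟩ 0 0) (.cut .v 117440512 (.pos 147 .pp ⟨154205085814, 0, 0, 13567074186, 0, 0, 0, 0, 0, ⟨0, 0⟩, 0⟩ 0 0) (.void 148 ⟨82662, 0, 0, 17338, 0, 0, 0, 0, 0, ⟨0, 0⟩, 0⟩ 0 0)))) (.pos 73 .pp ⟨0, 122567446919, 0, 0, 0, 0, 0, 0, 0, ⟨0, 0⟩, 0⟩ 0 0)) (.void 73 ⟨0, 100000, 0, 0, 0, 0, 0, 0, 0, ⟨0, 0⟩, 0⟩ 0 0)) (.void 74 ⟨88937, 0, 0, 11063, 0, 0, 0, 0, 0, ⟨0, 0⟩, 0⟩ 0 0))) (.void 87 ⟨0, 0, 0, 100000, 0, 0, 0, 0, 0, ⟨0, 0⟩, 0⟩ 0 0)) (.void 146 ⟨0, 0, 0, 100000, 0, 0, 0, 0, 0, ⟨0, 0⟩, 0⟩ 0 0)))),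
    by decide +kernel⟩

def covers35 : cell.Covers table row35.1 :=
  ⟨(.cut .d 0 (.cut .v 16777216 (.cut .d (-8388608) (.void 1 ⟨0, 0, 0, 0, 0, 100000, 0, 0, 0, ⟨0, 0⟩, 0⟩ 0 0) (.cut .v 8388608 (.pos 2 .mm ⟨0, 0, 167772160000, 0, 0, 0, 0, 0, 0, ⟨0, 0⟩, 0⟩ 0 0) (.cut .d (-4194304) (.void 3 ⟨100000, 0, 0, 0, 0, 0, 0, 0, 0, ⟨0, 0⟩, 0⟩ 0 0) (.pos 3 .mm ⟨0, 0, 5846244553, 0, 0, 122610132488, 0, 0, 0, ⟨0, 0⟩, 0⟩ 0 0)))) (.cut .v 4294967296 (.cut .d (-8388608) (.void 86 ⟨100000, 0, 0, 0, 0, 0, 0, 0, 0, ⟨0, 0⟩, 0⟩ 0 0) (.cut .v 268435456 (.cut .v 67108864 (.cut .d (-4194304) (.void 60 ⟨100000, 0, 0, 0, 0, 0, 0, 0, 0, ⟨0, 0⟩, 0⟩ 0 0) (.cut .v 33554432 (.pos 20 .mp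 ⟨122080183248, 0, 0, 0, 0, 45691976752, 0, 0, 0, ⟨0, 0⟩, 0⟩ 0 0) (.void 61 ⟨100000, 0, 0, 0, 0, 0, 0, 0, 0, ⟨0, 0⟩, 0⟩ 0 0))) (.void 70 ⟨100000, 0, 0, 0, 0, 0, 0, 0, 0, ⟨0, 0⟩, 0⟩ 0 0)) (.void 87 ⟨91505, 0, 0, 8495, 0, 0, 0, 0, 0, ⟨0, 0⟩, 0⟩ 0 0))) (.void 146 ⟨94172, 0, 0, 5828, 0, 0, 0, 0, 0, ⟨0, 0⟩, 0⟩ 0 0))) (.cut .v 16777216 (.cut .v 8388608 (.cut .v 4194304 (.cut .v 2097152 (.cut .v 1048576 (.cut .v 524288 (.cut .v 262144 (.cut .v 131072 (.cut .v 65536 (.cut .v 32768 (.cut .v 16384 (.pos 153 .pm ⟨0, 0, 40072579, 0, 0, 0, 0, 0, 0, ⟨0, 0⟩, 0⟩ 0 0) (.pos 154 .pm ⟨0, 0, 77685991, 0, 0, 0, 0, 0, 0, ⟨0, 0⟩, 0⟩ 0 0)) (.pos 152 .pm ⟨0, 0, 131720905, 0, 0, 0, 0,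 0, 0, ⟨0, 0⟩, 0⟩ 0 0)) (.pos 143 .pm ⟨0, 0, 231183474, 0, 0, 0, 0, 0, 0, ⟨0, 0⟩, 0⟩ 0 0)) (.pos 139 .pm ⟨0, 0, 413067961, 0, 0, 0, 0, 0, 0, ⟨0, 0⟩, 0⟩ 0 0)) (.pos 129 .pm ⟨0, 0, 744920935, 0, 0, 0, 0, 0, 0, ⟨0, 0⟩, 0⟩ 0 0)) (.pos 125 .pm ⟨0, 0, 1356449272, 0, 0, 0, 0, 0, 0, ⟨0, 0⟩, 0⟩ 0 0)) (.pos 101 .pm ⟨0, 0, 2531313272, 0, 0, 0, 0, 0, 0, ⟨0, 0⟩, 0⟩ 0 0)) (.pos 7 .pm ⟨0, 0, 5084857727, 0, 0, 0, 0, 0, 0, ⟨0, 0⟩, 0⟩ 0 0)) (.pos 5 .pm ⟨0, 0, 13008865853, 0, 0, 0, 0, 0, 0, ⟨0, 0⟩, 0⟩ 0 0)) (.pos 3 .pm ⟨0, 0, 5846244553, 0, 0, 0, 0, 0, 0, ⟨0, 0⟩, 0⟩ 0 0)) (.cut .v 4294967296 (.cut .v 268435456 (.cut .v 67108864 (.pos 60 .pp ⟨0, 0, 0, 0, 0, 0, 0, 0, 0, ⟨0, 0⟩,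 0⟩ 0 0) (.cut .v 134217728 (.cut .d 107866 (.cut .s 16588800 (.cut .d 53933 (.cut .d 26966 (.void 73 ⟨100000, 0, 0, 0, 0, 0, 0, 0, 0, ⟨0, 0⟩, 0⟩ 0 0) (.cut .v 100663296 (.pos 75 .pp ⟨133624565652, 0, 0, 0, 0, 0, 0, 0, 0, ⟨0, 0⟩, 0⟩ 0 0) (.cut .d 40449 (.void 76 ⟨100000, 0, 0, 0, 0, 0, 0, 0, 0, ⟨0, 0⟩, 0⟩ 0 0) (.pos 76 .pp ⟨151524391648, 0, 0, 16247768352, 0, 0, 0, 0, 0, ⟨0, 0⟩, 0⟩ 0 0)))) (.pos 73 .pp ⟨0, 166709000006, 0, 1063159994, 0, 0, 0, 0, 0, ⟨0, 0⟩, 0⟩ 0 0)) (.pos 73 .pp ⟨167772160000, 0, 0, 0, 0, 0, 0, 0, 0, ⟨0, 0⟩, 0⟩ 0 0)) (.void 73 ⟨0, 100000, 0, 0, 0, 0, 0, 0, 0, ⟨0, 0⟩, 0⟩ 0 0)) (.void 74 ⟨88922, 0, 0, 11078, 0, 0, 0, 0, 0, ⟨0, 0⟩, 0⟩ 0 0))) (.void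 87 ⟨0, 0, 0, 100000, 0, 0, 0, 0, 0, ⟨0, 0⟩, 0⟩ 0 0)) (.void 146 ⟨0, 0, 0, 100000, 0, 0, 0, 0, 0, ⟨0, 0⟩, 0⟩ 0 0)))),
    by decide +kernel⟩

def covers36 : cell.Covers table row36.1 :=
  ⟨(.cut .d 0 (.cut .v 16777216 (.cut .d (-8388608) (.void 1 ⟨0, 0, 0, 0, 0, 100000, 0, 0, 0, ⟨0, 0⟩, 0⟩ 0 0) (.cut .d (-4194304) (.void 1 ⟨0, 0, 0, 0, 0, 100000, 0, 0, 0, ⟨0, 0⟩, 0⟩ 0 0) (.cut .v 8388608 (.void 2 ⟨0, 0, 100000, 0, 0, 0, 0, 0, 0, ⟨0, 0⟩, 0⟩ 0 0) (.pos 3 .mm ⟨9356915483, 0, 25571879386, 0, 0, 132843365131, 0, 0, 0, ⟨0, 0⟩, 0⟩ 0 0)))) (.cut .v 4294967296 (.cut .v 268435456 (.cut .d (-8388608) (.void 69 ⟨100000, 0, 0, 0, 0, 0, 0, 0, 0, ⟨0, 0⟩, 0⟩ 0 0) (.cut .v 67108864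 (.cut .d (-4194304) (.void 60 ⟨100000, 0, 0, 0, 0, 0, 0, 0, 0, ⟨0, 0⟩, 0⟩ 0 0) (.cut .v 33554432 (.cut .d (-2097152) (.void 20 ⟨100000, 0, 0, 0, 0, 0, 0, 0, 0, ⟨0, 0⟩, 0⟩ 0 0) (.pos 20 .mp ⟨110568520569, 0, 0, 0, 0, 57203639431, 0, 0, 0, ⟨0, 0⟩, 0⟩ 0 0)) (.void 61 ⟨100000, 0, 0, 0, 0, 0, 0, 0, 0, ⟨0, 0⟩, 0⟩ 0 0))) (.void 70 ⟨100000, 0, 0, 0, 0, 0, 0, 0, 0, ⟨0, 0⟩, 0⟩ 0 0))) (.void 87 ⟨98347, 0, 0, 6154, 0, 0, 0, 0, 0, ⟨0, 0⟩, 0⟩ 0 0)) (.void 146 ⟨94161, 0, 0, 5839, 0, 0, 0, 0, 0, ⟨0, 0⟩, 0⟩ 0 0))) (.cut .v 16777216 (.cut .v 8388608 (.cut .v 4194304 (.cut .v 2097152 (.cut .v 1048576 (.cut .v 524288 (.cut .v 262144 (.cut .v 131072 (.cut .v 65536 (.cut .v 32768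 (.cut .v 16384 (.pos 153 .pm ⟨0, 0, 52388576, 0, 0, 0, 0, 0, 0, ⟨0, 0⟩, 0⟩ 0 0) (.pos 154 .pm ⟨0, 0, 113745219, 0, 0, 0, 0, 0, 0, ⟨0, 0⟩, 0⟩ 0 0)) (.pos 152 .pm ⟨0, 0, 192515682, 0, 0, 0, 0, 0, 0, ⟨0, 0⟩, 0⟩ 0 0)) (.pos 143 .pm ⟨0, 0, 339619796, 0, 0, 0, 0, 0, 0, ⟨0, 0⟩, 0⟩ 0 0)) (.pos 139 .pm ⟨0, 0, 640010314, 0, 0, 0, 0, 0, 0, ⟨0, 0⟩, 0⟩ 0 0)) (.pos 129 .pm ⟨0, 0, 1237433097, 0, 0, 0, 0, 0, 0, ⟨0, 0⟩, 0⟩ 0 0)) (.pos 125 .pm ⟨0, 0, 2399061954, 0, 0, 0, 0, 0, 0, ⟨0, 0⟩, 0⟩ 0 0)) (.pos 101 .pm ⟨0, 0, 4641656923, 0, 0, 0, 0, 0, 0, ⟨0, 0⟩, 0⟩ 0 0)) (.pos 7 .pm ⟨0, 0, 8883839140, 0, 0, 0, 0, 0, 0, ⟨0, 0⟩, 0⟩ 0 0)) (.pos 5 .pm ⟨0, 0, 16613227134, 0, 0, 0, 0, 0,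 0, ⟨0, 0⟩, 0⟩ 0 0)) (.pos 3 .pm ⟨0, 0, 23460687168, 0, 0, 0, 0, 0, 0, ⟨0, 0⟩, 0⟩ 0 0)) (.cut .v 4294967296 (.cut .v 268435456 (.cut .v 67108864 (.pos 60 .pp ⟨0, 0, 0, 0, 0, 0, 0, 0, 0, ⟨0, 0⟩, 0⟩ 0 0) (.cut .v 134217728 (.pos 73 .pp ⟨167772160000, 0, 0, 0, 0, 0, 0, 0, 0, ⟨0, 0⟩, 0⟩ 0 0) (.void 74 ⟨88918, 0, 0, 11082, 0, 0, 0, 0, 0, ⟨0, 0⟩, 0⟩ 0 0))) (.void 87 ⟨0, 0, 0, 100000, 0, 0, 0, 0, 0, ⟨0, 0⟩, 0⟩ 0 0)) (.void 146 ⟨0, 0, 0, 100000, 0, 0, 0, 0, 0, ⟨0, 0⟩, 0⟩ 0 0)))),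
    by decide +kernel⟩

def covers37 : cell.Covers table row37.1 :=
  ⟨(.cut .d 0 (.cut .v 16777216 (.cut .d (-8388608) (.void 1 ⟨0, 0, 138010, 0, 0, 0, 0, 0, 0, ⟨0, 0⟩, 0⟩ 0 0) (.cut .d (-4194304) (.void 1 ⟨0, 0, 0, 0, 0, 1000000000, 0, 0, 0, ⟨0, 0⟩, 0⟩ 0 0) (.cut .v 8388608 (.void 2 ⟨0, 0, 100000, 0, 0, 0, 0, 0, 0, ⟨0, 0⟩, 0⟩ 0 0) (.pos 3 .mm ⟨55747400291, 0, 43265659979, 0, 0, 68759099730, 0, 0, 0, ⟨0, 0⟩, 0⟩ 0 0)))) (.cut .v 4294967296 (.cut .d (-8388608) (.void 86 ⟨1000000000, 0, 0, 0, 0, 0, 0, 0, 0, ⟨0, 0⟩, 0⟩ 0 0) (.cut .v 268435456 (.cut .v 67108864 (.cut .d (-4194304) (.void 60 ⟨1000000000, 0, 0, 0, 0, 0, 0, 0, 0, ⟨0, 0⟩, 0⟩ 0 0) (.cut .v 33554432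 (.cut .d (-2097152) (.void 20 ⟨1000000000, 0, 0, 0, 0, 0, 0, 0, 0, ⟨0, 0⟩, 0⟩ 0 0) (.cut .d (-1048576) (.void 20 ⟨1000000000, 0, 0, 0, 0, 0, 0, 0, 0, ⟨0, 0⟩, 0⟩ 0 0) (.pos 20 .mp ⟨105069286816, 0, 0, 0, 0, 62702873184, 0, 0, 0, ⟨0, 0⟩, 0⟩ 0 0))) (.void 61 ⟨626261752, 0, 0, 0, 0, 373738248, 0, 0, 0, ⟨0, 0⟩, 0⟩ 0 0))) (.void 70 ⟨626261752, 0, 0, 0, 0, 373738248, 0, 0, 0, ⟨0, 0⟩, 0⟩ 0 0)) (.void 87 ⟨626261752, 0, 0, 0, 0, 373738248, 0, 0, 0, ⟨0, 0⟩, 0⟩ 0 0))) (.void 146 ⟨94071, 0, 0, 5929, 0, 0, 0, 0, 0, ⟨0, 0⟩, 0⟩ 0 0))) (.cut .v 16777216 (.cut .v 8388608 (.cut .v 4194304 (.cut .v 2097152 (.cut .v 1048576 (.cut .v 524288 (.cut .v 262144 (.cut .v 131072 (.cut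 .v 65536 (.cut .v 32768 (.cut .v 16384 (.pos 153 .pm ⟨0, 0, 60763132, 0, 0, 0, 0, 0, 0, ⟨0, 0⟩, 0⟩ 0 0) (.pos 154 .pm ⟨0, 0, 131142142, 0, 0, 0, 0, 0, 0, ⟨0, 0⟩, 0⟩ 0 0)) (.pos 152 .pm ⟨0, 0, 218280424, 0, 0, 0, 0, 0, 0, ⟨0, 0⟩, 0⟩ 0 0)) (.pos 143 .pm ⟨0, 0, 395602694, 0, 0, 0, 0, 0, 0, ⟨0, 0⟩, 0⟩ 0 0)) (.pos 139 .pm ⟨0, 0, 759498420, 0, 0, 0, 0, 0, 0, ⟨0, 0⟩, 0⟩ 0 0)) (.pos 129 .pm ⟨0, 0, 1482331830, 0, 0, 0, 0, 0, 0, ⟨0, 0⟩, 0⟩ 0 0)) (.pos 125 .pm ⟨0, 0, 2907180389, 0, 0, 0, 0, 0, 0, ⟨0, 0⟩, 0⟩ 0 0)) (.pos 101 .pm ⟨0, 0, 5698489760, 0, 0, 0, 0, 0, 0, ⟨0, 0⟩, 0⟩ 0 0)) (.pos 7 .pm ⟨0, 0, 11103169882, 0, 0, 0, 0, 0, 0, ⟨0, 0⟩, 0⟩ 0 0)) (.pos 5 .pm ⟨0, 0, 21968430057,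 0, 0, 0, 0, 0, 0, ⟨0, 0⟩, 0⟩ 0 0)) (.pos 3 .pm ⟨0, 0, 30667744280, 0, 0, 0, 0, 0, 0, ⟨0, 0⟩, 0⟩ 0 0)) (.cut .v 4294967296 (.cut .v 268435456 (.cut .v 67108864 (.pos 60 .pp ⟨0, 0, 0, 0, 0, 0, 0, 0, 0, ⟨0, 0⟩, 0⟩ 0 0) (.cut .v 134217728 (.pos 73 .pp ⟨167772160000, 0, 0, 0, 0, 0, 0, 0, 0, ⟨0, 0⟩, 0⟩ 0 0) (.void 74 ⟨88918, 0, 0, 11082, 0, 0, 0, 0, 0, ⟨0, 0⟩, 0⟩ 0 0))) (.void 87 ⟨0, 0, 0, 100000, 0, 0, 0, 0, 0, ⟨0, 0⟩, 0⟩ 0 0)) (.void 146 ⟨0, 0, 0, 100000, 0, 0, 0, 0, 0, ⟨0, 0⟩, 0⟩ 0 0)))),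
    by decide +kernel⟩

def covers38 : cell.Covers table row38.1 :=
  ⟨(.cut .d 0 (.cut .v 16777216 (.cut .d (-8388608) (.void 1 ⟨0, 0, 0, 0, 0, 1000000000, 0, 0, 0, ⟨0, 0⟩, 0⟩ 0 0) (.cut .d (-4194304) (.void 1 ⟨0, 0, 0, 0, 0, 100000, 0, 0, 0, ⟨0, 0⟩, 0⟩ 0 0) (.cut .v 8388608 (.pos 2 .mm ⟨0, 0, 167772160000, 0, 0, 0, 0, 0, 0, ⟨0, 0⟩, 0⟩ 0 0) (.cut .d (-2097152) (.void 3 ⟨1000000000, 0, 0, 0, 0, 0, 0, 0, 0, ⟨0, 0⟩, 0⟩ 0 0) (.pos 3 .mm ⟨108819226707, 0, 58952933293, 0, 0, 0, 0, 0, 0, ⟨0, 0⟩, 0⟩ 0 0))))) (.cut .v 4294967296 (.cut .v 268435456 (.cut .v 67108864 (.cut .d (-8388608) (.void 60 ⟨0, 0, 0, 0, 0, 1000000000, 0, 0, 0, ⟨0, 0⟩, 0⟩ 0 0) (.cut .d (-4194304)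 (.void 60 ⟨1000000000, 0, 0, 0, 0, 0, 0, 0, 0, ⟨0, 0⟩, 0⟩ 0 0) (.cut .d (-2097152) (.void 60 ⟨1000000000, 0, 0, 0, 0, 0, 0, 0, 0, ⟨0, 0⟩, 0⟩ 0 0) (.cut .d (-1048576) (.void 60 ⟨1000000000, 0, 0, 0, 0, 0, 0, 0, 0, ⟨0, 0⟩, 0⟩ 0 0) (.cut .v 33554432 (.cut .v 25165824 (.cut .d (-524288) (.void 21 ⟨1000000000, 0, 0, 0, 0, 0, 0, 0, 0, ⟨0, 0⟩, 0⟩ 0 0) (.pos 21 .mp ⟨143056500609, 0, 0, 0, 0, 24715659391, 0, 0, 0, ⟨0, 0⟩, 0⟩ 0 0)) (.void 22 ⟨852683190, 0, 0, 0, 0, 147316810, 0, 0, 0, ⟨0, 0⟩, 0⟩ 0 0)) (.void 61 ⟨852683190, 0, 0, 0, 0, 147316810, 0, 0, 0, ⟨0, 0⟩, 0⟩ 0 0)))))) (.void 70 ⟨100000, 0, 0, 0, 0, 0, 0, 0, 0, ⟨0, 0⟩, 0⟩ 0 0)) (.void 87 ⟨1, 0, 0, 5886, 0, 94177,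 0, 0, 0, ⟨0, 0⟩, 0⟩ 0 0)) (.void 146 ⟨1, 0, 0, 5886, 0, 94177, 0, 0, 0, ⟨0, 0⟩, 0⟩ 0 0))) (.cut .v 16777216 (.cut .v 8388608 (.cut .v 4194304 (.cut .v 2097152 (.cut .v 1048576 (.cut .v 524288 (.cut .v 262144 (.cut .v 131072 (.cut .v 65536 (.cut .v 32768 (.cut .v 16384 (.cut .v 8192 (.pos 155 .pm ⟨0, 0, 54789466, 0, 0, 0, 0, 0, 0, ⟨0, 0⟩, 0⟩ 0 0) (.pos 156 .pm ⟨0, 0, 119974856, 0, 0, 0, 0, 0, 0, ⟨0, 0⟩, 0⟩ 0 0)) (.pos 154 .pm ⟨0, 0, 201386432, 0, 0, 0, 0, 0, 0, ⟨0, 0⟩, 0⟩ 0 0)) (.pos 152 .pm ⟨0, 0, 347890905, 0, 0, 0, 0, 0, 0, ⟨0, 0⟩, 0⟩ 0 0)) (.pos 143 .pm ⟨0, 0, 642422549, 0, 0, 0, 0, 0, 0, ⟨0, 0⟩, 0⟩ 0 0)) (.pos 139 .pm ⟨0, 0, 1235751737, 0, 0, 0, 0, 0, 0,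 ⟨0, 0⟩, 0⟩ 0 0)) (.pos 129 .pm ⟨0, 0, 2378170250, 0, 0, 0, 0, 0, 0, ⟨0, 0⟩, 0⟩ 0 0)) (.pos 125 .pm ⟨0, 0, 4576704033, 0, 0, 0, 0, 0, 0, ⟨0, 0⟩, 0⟩ 0 0)) (.pos 101 .pm ⟨0, 0, 8733509044, 0, 0, 0, 0, 0, 0, ⟨0, 0⟩, 0⟩ 0 0)) (.pos 7 .pm ⟨0, 0, 16342236291, 0, 0, 0, 0, 0, 0, ⟨0, 0⟩, 0⟩ 0 0)) (.pos 5 .pm ⟨0, 0, 29487056005, 0, 0, 0, 0, 0, 0, ⟨0, 0⟩, 0⟩ 0 0)) (.pos 3 .pm ⟨0, 0, 40621574526, 0, 0, 0, 0, 0, 0, ⟨0, 0⟩, 0⟩ 0 0)) (.cut .v 4294967296 (.cut .v 268435456 (.cut .v 67108864 (.pos 60 .pp ⟨0, 0, 0, 0, 0, 0, 0, 0, 0, ⟨0, 0⟩, 0⟩ 0 0) (.cut .d 57740 (.cut .v 134217728 (.cut .s 16678912 (.pos 73 .pp ⟨167772160000, 0, 0, 0, 0, 0, 0, 0, 0, ⟨0, 0⟩, 0⟩ 0 0) (.cut .s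 16687104 (.pos 73 .pp ⟨167772160000, 0, 0, 0, 0, 0, 0, 0, 0, ⟨0, 0⟩, 0⟩ 0 0) (.cut .s 16691200 (.pos 73 .pp ⟨167772160000, 0, 0, 0, 0, 0, 0, 0, 0, ⟨0, 0⟩, 0⟩ 0 0) (.cut .s 16693248 (.pos 73 .pp ⟨167772160000, 0, 0, 0, 0, 0, 0, 0, 0, ⟨0, 0⟩, 0⟩ 0 0) (.cut .d 28870 (.cut .d 14435 (.cut .d 7217 (.void 73 ⟨1000000000, 0, 0, 0, 0, 0, 0, 0, 0, ⟨0, 0⟩, 0⟩ 0 0) (.pos 73 .pp ⟨128380914643, 0, 0, 39391245357, 0, 0, 0, 0, 0, ⟨0, 0⟩, 0⟩ 0 0)) (.pos 73 .pp ⟨137478005612, 0, 0, 30294154388, 0, 0, 0, 0, 0, ⟨0, 0⟩, 0⟩ 0 0)) (.pos 73 .pp ⟨0, 161513580293, 0, 6258579707, 0, 0, 0, 0, 0, ⟨0, 0⟩, 0⟩ 0 0)))))) (.cut .v 201326592 (.void 157 ⟨88911, 0, 0, 11079, 0, 0, 0, 0, 0, ⟨0,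 0⟩, 0⟩ 0 0) (.void 158 ⟨88911, 0, 0, 11079, 0, 0, 0, 0, 0, ⟨0, 0⟩, 0⟩ 0 0))) (.void 70 ⟨0, 100000, 0, 0, 0, 0, 0, 0, 0, ⟨0, 0⟩, 0⟩ 0 0))) (.void 87 ⟨0, 100000, 0, 0, 0, 0, 0, 0, 0, ⟨0, 0⟩, 0⟩ 0 0)) (.void 146 ⟨0, 100000, 0, 0, 0, 0, 0, 0, 0, ⟨0, 0⟩, 0⟩ 0 0)))),
    by decide +kernel⟩

def covers39 : cell.Covers table row39.1 :=
  ⟨(.cut .d 0 (.cut .v 16777216 (.cut .d (-8388608) (.void 1 ⟨0, 0, 100000, 0, 0, 0, 0, 0, 0, ⟨0, 0⟩, 0⟩ 0 0) (.cut .d (-4194304) (.void 1 ⟨0, 0, 100000, 0, 0, 0, 0, 0, 0, ⟨0, 0⟩, 0⟩ 0 0) (.cut .d (-2097152) (.void 1 ⟨0, 0, 100000, 0, 0, 0, 0, 0, 0, ⟨0, 0⟩, 0⟩ 0 0) (.cut .v 8388608 (.void 2 ⟨0, 0, 100000, 0, 0, 0, 0, 0, 0, ⟨0, 0⟩, 0⟩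 0 0) (.cut .d (-1048576) (.void 3 ⟨1000000000, 0, 0, 0, 0, 0, 0, 0, 0, ⟨0, 0⟩, 0⟩ 0 0) (.pos 3 .mm ⟨135112693028, 0, 32659466972, 0, 0, 0, 0, 0, 0, ⟨0, 0⟩, 0⟩ 0 0)))))) (.cut .v 4294967296 (.cut .d (-8388608) (.void 86 ⟨1000000000, 0, 0, 0, 0, 0, 0, 0, 0, ⟨0, 0⟩, 0⟩ 0 0) (.cut .v 268435456 (.cut .v 67108864 (.cut .d (-4194304) (.void 60 ⟨1000000000, 0, 0, 0, 0, 0, 0, 0, 0, ⟨0, 0⟩, 0⟩ 0 0) (.cut .d (-2097152) (.void 60 ⟨1000000000, 0, 0, 0, 0, 0, 0, 0, 0, ⟨0, 0⟩, 0⟩ 0 0) (.cut .v 33554432 (.cut .d (-1048576) (.void 20 ⟨1000000000, 0, 0, 0, 0, 0, 0, 0, 0, ⟨0, 0⟩, 0⟩ 0 0) (.cut .d (-524288) (.void 20 ⟨1000000000, 0, 0, 0, 0, 0, 0, 0, 0, ⟨0, 0⟩, 0⟩ 0 0) (.cut .d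 (-262144) (.void 20 ⟨1000000000, 0, 0, 0, 0, 0, 0, 0, 0, ⟨0, 0⟩, 0⟩ 0 0) (.pos 20 .mp ⟨167772160000, 0, 0, 0, 0, 0, 0, 0, 0, ⟨0, 0⟩, 0⟩ 0 0)))) (.void 61 ⟨1000000000, 0, 0, 0, 0, 0, 0, 0, 0, ⟨0, 0⟩, 0⟩ 0 0)))) (.void 70 ⟨1000000000, 0, 0, 0, 0, 0, 0, 0, 0, ⟨0, 0⟩, 0⟩ 0 0)) (.void 87 ⟨1000000000, 0, 0, 0, 0, 0, 0, 0, 0, ⟨0, 0⟩, 0⟩ 0 0))) (.void 146 ⟨94139, 0, 0, 5861, 0, 0, 0, 0, 0, ⟨0, 0⟩, 0⟩ 0 0))) (.cut .v 16777216 (.cut .v 8388608 (.cut .v 4194304 (.cut .v 2097152 (.cut .v 1048576 (.cut .v 524288 (.cut .v 262144 (.cut .v 131072 (.cut .v 65536 (.cut .v 32768 (.cut .v 16384 (.cut .v 8192 (.pos 155 .pm ⟨0, 0, 58449628, 0, 0, 0, 0, 0, 0, ⟨0, 0⟩, 0⟩ 0 0) (.pos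 156 .pm ⟨0, 0, 129533786, 0, 0, 0, 0, 0, 0, ⟨0, 0⟩, 0⟩ 0 0)) (.pos 154 .pm ⟨0, 0, 227206846, 0, 0, 0, 0, 0, 0, ⟨0, 0⟩, 0⟩ 0 0)) (.pos 152 .pm ⟨0, 0, 404728104, 0, 0, 0, 0, 0, 0, ⟨0, 0⟩, 0⟩ 0 0)) (.pos 143 .pm ⟨0, 0, 765193146, 0, 0, 0, 0, 0, 0, ⟨0, 0⟩, 0⟩ 0 0)) (.pos 139 .pm ⟨0, 0, 1505034012, 0, 0, 0, 0, 0, 0, ⟨0, 0⟩, 0⟩ 0 0)) (.pos 129 .pm ⟨0, 0, 2994809312, 0, 0, 0, 0, 0, 0, ⟨0, 0⟩, 0⟩ 0 0)) (.pos 125 .pm ⟨0, 0, 5974641855, 0, 0, 0, 0, 0, 0, ⟨0, 0⟩, 0⟩ 0 0)) (.pos 101 .pm ⟨0, 0, 11935434716, 0, 0, 0, 0, 0, 0, ⟨0, 0⟩, 0⟩ 0 0)) (.pos 7 .pm ⟨0, 0, 23861531535, 0, 0, 0, 0, 0, 0, ⟨0, 0⟩, 0⟩ 0 0)) (.pos 5 .pm ⟨0, 0, 47731769565, 0, 0, 0, 0, 0, 0, ⟨0, 0⟩, 0⟩ 0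 0)) (.pos 3 .pm ⟨0, 0, 65858341098, 0, 0, 0, 0, 0, 0, ⟨0, 0⟩, 0⟩ 0 0)) (.cut .v 4294967296 (.cut .v 268435456 (.cut .v 67108864 (.pos 60 .pp ⟨0, 0, 0, 0, 0, 0, 0, 0, 0, ⟨0, 0⟩, 0⟩ 0 0) (.cut .v 134217728 (.cut .v 100663296 (.pos 75 .pp ⟨167772160000, 0, 0, 0, 0, 0, 0, 0, 0, ⟨0, 0⟩, 0⟩ 0 0) (.cut .v 117440512 (.pos 147 .pp ⟨167772160000, 0, 0, 0, 0, 0, 0, 0, 0, ⟨0, 0⟩, 0⟩ 0 0) (.void 148 ⟨88903, 0, 0, 11097, 0, 0, 0, 0, 0, ⟨0, 0⟩, 0⟩ 0 0))) (.void 74 ⟨88903, 0, 0, 11097, 0, 0, 0, 0, 0, ⟨0, 0⟩, 0⟩ 0 0))) (.void 87 ⟨0, 0, 0, 100000, 0, 0, 0, 0, 0, ⟨0, 0⟩, 0⟩ 0 0)) (.void 146 ⟨0, 0, 0, 100000, 0, 0, 0, 0, 0, ⟨0, 0⟩, 0⟩ 0 0)))),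
    by decide +kernel⟩

def covers40 : cell.Covers table row40.1 :=
  ⟨(.cut .d 0 (.cut .v 16777216 (.cut .d (-8388608) (.void 1 ⟨0, 0, 100000, 0, 0, 0, 0, 0, 0, ⟨0, 0⟩, 0⟩ 0 0) (.cut .d (-4194304) (.void 1 ⟨0, 0, 100000, 0, 0, 0, 0, 0, 0, ⟨0, 0⟩, 0⟩ 0 0) (.cut .d (-2097152) (.void 1 ⟨0, 0, 100000, 0, 0, 0, 0, 0, 0, ⟨0, 0⟩, 0⟩ 0 0) (.cut .d (-1048576) (.void 1 ⟨0, 0, 100000, 0, 0, 0, 0, 0, 0, ⟨0, 0⟩, 0⟩ 0 0) (.cut .d (-524288) (.void 1 ⟨0, 0, 100000, 0, 0, 0, 0, 0, 0, ⟨0, 0⟩, 0⟩ 0 0) (.cut .v 8388608 (.void 2 ⟨0, 0, 100000, 0, 0, 0, 0, 0, 0, ⟨0, 0⟩, 0⟩ 0 0) (.cut .d (-262144) (.void 3 ⟨1000000000, 0, 0, 0, 0, 0, 0, 0, 0, ⟨0, 0⟩, 0⟩ 0 0) (.pos 3 .mm ⟨167772160000,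 0, 0, 0, 0, 0, 0, 0, 0, ⟨0, 0⟩, 0⟩ 0 0)))))))) (.cut .v 4294967296 (.cut .v 268435456 (.cut .v 67108864 (.cut .d (-8388608) (.void 60 ⟨99449, 0, 0, 0, 0, 0, 0, 0, 0, ⟨0, 0⟩, 0⟩ 0 0) (.cut .d (-4194304) (.void 60 ⟨1000000000, 0, 0, 0, 0, 0, 0, 0, 0, ⟨0, 0⟩, 0⟩ 0 0) (.cut .d (-2097152) (.void 60 ⟨1000000000, 0, 0, 0, 0, 0, 0, 0, 0, ⟨0, 0⟩, 0⟩ 0 0) (.cut .v 33554432 (.cut .d (-1048576) (.void 20 ⟨1000000000, 0, 0, 0, 0, 0, 0, 0, 0, ⟨0, 0⟩, 0⟩ 0 0) (.cut .d (-524288) (.void 20 ⟨1000000000, 0, 0, 0, 0, 0, 0, 0, 0, ⟨0, 0⟩, 0⟩ 0 0) (.cut .d (-262144) (.void 20 ⟨1000000000, 0, 0, 0, 0, 0, 0, 0, 0, ⟨0, 0⟩, 0⟩ 0 0) (.cut .d (-131072) (.void 20 ⟨1000000000, 0, 0, 0, 0,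 0, 0, 0, 0, ⟨0, 0⟩, 0⟩ 0 0) (.cut .d (-65536) (.void 20 ⟨1000000000, 0, 0, 0, 0, 0, 0, 0, 0, ⟨0, 0⟩, 0⟩ 0 0) (.pos 20 .mp ⟨167772160000, 0, 0, 0, 0, 0, 0, 0, 0, ⟨0, 0⟩, 0⟩ 0 0)))))) (.void 61 ⟨1000000000, 0, 0, 0, 0, 0, 0, 0, 0, ⟨0, 0⟩, 0⟩ 0 0))))) (.void 70 ⟨100000, 0, 0, 0, 0, 0, 0, 0, 0, ⟨0, 0⟩, 0⟩ 0 0)) (.void 87 ⟨94141, 0, 0, 5859, 0, 0, 0, 0, 0, ⟨0, 0⟩, 0⟩ 0 0)) (.cut .d (-8388608) (.cut .s 16719872 (.void 146 ⟨99998, 0, 0, 1, 0, 0, 0, 0, 0, ⟨0, 0⟩, 0⟩ 0 0) (.void 146 ⟨100000, 0, 0, 0, 0, 0, 0, 0, 0, ⟨0, 0⟩, 0⟩ 0 0)) (.void 146 ⟨99528, 0, 0, 472, 0, 0, 0, 0, 0, ⟨0, 0⟩, 0⟩ 0 0)))) (.cut .v 16777216 (.cut .v 8388608 (.cut .v 4194304 (.cut .d 32898 (.pos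 4 .pm ⟨0, 0, 167772160000, 0, 0, 0, 0, 0, 0, ⟨0, 0⟩, 0⟩ 0 0) (.cut .d 49347 (.pos 4 .pm ⟨0, 0, 25541211221, 0, 0, 0, 0, 0, 0, ⟨0, 0⟩, 0⟩ 0 0) (.pos 4 .pm ⟨0, 0, 0, 2087296, 0, 0, 0, 0, 0, ⟨0, 0⟩, 0⟩ 0 0))) (.pos 5 .pm ⟨0, 0, 71884002363, 0, 0, 0, 0, 0, 0, ⟨0, 0⟩, 0⟩ 0 0)) (.pos 3 .pm ⟨0, 0, 136945679467, 0, 0, 0, 0, 0, 0, ⟨0, 0⟩, 0⟩ 0 0)) (.cut .v 4294967296 (.cut .v 268435456 (.cut .v 67108864 (.pos 60 .pp ⟨0, 0, 0, 0, 0, 0, 0, 0, 0, ⟨0, 0⟩, 0⟩ 0 0) (.pos 70 .pp ⟨40279391524, 0, 0, 127492768476, 0, 0, 0, 0, 0, ⟨0, 0⟩, 0⟩ 0 0)) (.void 87 ⟨0, 0, 0, 100000, 0, 0, 0, 0, 0, ⟨0, 0⟩, 0⟩ 0 0)) (.void 146 ⟨0, 0, 0, 100000, 0, 0, 0, 0, 0, ⟨0, 0⟩, 0⟩ 0 0)))),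
    by decide +kernel⟩

def covers41 : cell.Covers table row41.1 :=
  ⟨(.cut .d 0 (.cut .v 16777216 (.cut .d (-8388608) (.void 1 ⟨0, 0, 3241, 0, 0, 96759, 0, 0, 0, ⟨0, 0⟩, 0⟩ 0 0) (.cut .d (-4194304) (.void 1 ⟨0, 0, 0, 0, 0, 100000, 0, 0, 0, ⟨0, 0⟩, 0⟩ 0 0) (.cut .d (-2097152) (.void 1 ⟨0, 0, 390, 0, 0, 99610, 0, 0, 0, ⟨0, 0⟩, 0⟩ 0 0) (.cut .d (-1048576) (.void 1 ⟨0, 0, 0, 0, 0, 100000, 0, 0, 0, ⟨0, 0⟩, 0⟩ 0 0) (.cut .d (-524288) (.void 1 ⟨0, 0, 0, 0, 0, 100000, 0, 0, 0, ⟨0, 0⟩, 0⟩ 0 0) (.cut .d (-262144) (.void 1 ⟨0, 0, 204, 0, 0, 99796, 0, 0, 0, ⟨0, 0⟩, 0⟩ 0 0) (.cut .d (-131072) (.void 1 ⟨0, 0, 145, 0, 0, 99855, 0, 0, 0, ⟨0, 0⟩, 0⟩ 0 0) (.cut .d (-65536)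 (.void 1 ⟨0, 0, 0, 0, 0, 100000, 0, 0, 0, ⟨0, 0⟩, 0⟩ 0 0) (.cut .v 8388608 (.void 2 ⟨0, 0, 100001, 0, 0, 0, 0, 0, 0, ⟨0, 0⟩, 0⟩ 0 0) (.cut .d (-32768) (.void 3 ⟨100000, 0, 0, 0, 0, 0, 0, 0, 0, ⟨0, 0⟩, 0⟩ 0 0) (.cut .d (-16384) (.void 3 ⟨100000, 0, 0, 0, 0, 0, 0, 0, 0, ⟨0, 0⟩, 0⟩ 0 0) (.pos 3 .mm ⟨167772160000, 0, 0, 0, 0, 0, 0, 0, 0, ⟨0, 0⟩, 0⟩ 0 0)))))))))))) (.cut .v 4294967296 (.cut .v 268435456 (.cut .d (-8388608) (.void 69 ⟨12986, 0, 0, 267, 0, 31781, 0, 55442, 0, ⟨(-1), 10309400⟩, 0⟩ 0 128) (.cut .v 67108864 (.cut .d (-4194304) (.void 60 ⟨100000, 0, 0, 0, 0, 0, 0, 0, 0, ⟨0, 0⟩, 0⟩ 0 0) (.cut .d (-2097152) (.void 60 ⟨100000, 0, 0, 0, 0, 0, 0, 0, 0, ⟨0,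 0⟩, 0⟩ 0 0) (.cut .d (-1048576) (.void 60 ⟨100000, 0, 0, 0, 0, 0, 0, 0, 0, ⟨0, 0⟩, 0⟩ 0 0) (.cut .v 33554432 (.cut .d (-524288) (.void 20 ⟨100000, 0, 0, 0, 0, 0, 0, 0, 0, ⟨0, 0⟩, 0⟩ 0 0) (.cut .d (-262144) (.void 20 ⟨100000, 0, 0, 0, 0, 0, 0, 0, 0, ⟨0, 0⟩, 0⟩ 0 0) (.cut .d (-131072) (.void 20 ⟨100000, 0, 0, 0, 0, 0, 0, 0, 0, ⟨0, 0⟩, 0⟩ 0 0) (.cut .d (-65536) (.void 20 ⟨100000, 0, 0, 0, 0, 0, 0, 0, 0, ⟨0, 0⟩, 0⟩ 0 0) (.cut .d (-32768) (.void 20 ⟨100000, 0, 0, 0, 0, 0, 0, 0, 0, ⟨0, 0⟩, 0⟩ 0 0) (.cut .d (-16384) (.void 20 ⟨100000, 0, 0, 0, 0, 0, 0, 0, 0, ⟨0, 0⟩, 0⟩ 0 0) (.pos 20 .mp ⟨167772160000, 0, 0, 0, 0, 0, 0, 0, 0, ⟨0, 0⟩, 0⟩ 0 0))))))) (.void 61 ⟨100000,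 0, 0, 0, 0, 0, 0, 0, 0, ⟨0, 0⟩, 0⟩ 0 0))))) (.void 70 ⟨100000, 0, 0, 0, 0, 0, 0, 0, 0, ⟨0, 0⟩, 0⟩ 0 0))) (.void 87 ⟨94131, 0, 0, 5869, 0, 0, 0, 0, 0, ⟨0, 0⟩, 0⟩ 0 0)) (.void 146 ⟨93591, 0, 0, 5892, 0, 0, 0, 0, 0, ⟨0, 0⟩, 0⟩ 0 0))) (.cut .v 16777216 (.cut .v 8388608 (.cut .v 4194304 (.cut .v 2097152 (.cut .v 1048576 (.cut .v 524288 (.cut .v 262144 (.cut .v 131072 (.cut .v 65536 (.cut .v 32768 (.cut .v 16384 (.cut .v 8192 (.cut .v 4096 (.cut .v 2048 (.pos 163 .pm ⟨0, 0, 59191861, 0, 0, 0, 0, 0, 0, ⟨0, 0⟩, 0⟩ 0 0) (.pos 164 .pm ⟨0, 0, 137864923, 0, 0, 0, 0, 0, 0, ⟨0, 0⟩, 0⟩ 0 0)) (.pos 162 .pm ⟨0, 0, 250462392, 0, 0, 0, 0, 0, 0, ⟨0, 0⟩, 0⟩ 0 0)) (.pos 156 .pm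 ⟨0, 0, 464789961, 0, 0, 0, 0, 0, 0, ⟨0, 0⟩, 0⟩ 0 0)) (.pos 154 .pm ⟨0, 0, 870814221, 0, 0, 0, 0, 0, 0, ⟨0, 0⟩, 0⟩ 0 0)) (.pos 152 .pm ⟨0, 0, 1650449269, 0, 0, 0, 0, 0, 0, ⟨0, 0⟩, 0⟩ 0 0)) (.pos 143 .pm ⟨0, 0, 3234931979, 0, 0, 0, 0, 0, 0, ⟨0, 0⟩, 0⟩ 0 0)) (.pos 139 .pm ⟨0, 0, 6454552982, 0, 0, 0, 0, 0, 0, ⟨0, 0⟩, 0⟩ 0 0)) (.pos 129 .pm ⟨0, 0, 12893866422, 0, 0, 0, 0, 0, 0, ⟨0, 0⟩, 0⟩ 0 0)) (.pos 125 .pm ⟨0, 0, 25772779047, 0, 0, 0, 0, 0, 0, ⟨0, 0⟩, 0⟩ 0 0)) (.pos 101 .pm ⟨0, 0, 51531747271, 0, 0, 0, 0, 0, 0, ⟨0, 0⟩, 0⟩ 0 0)) (.pos 7 .pm ⟨0, 0, 103054255622, 0, 0, 0, 0, 0, 0, ⟨0, 0⟩, 0⟩ 0 0)) (.pos 5 .pm ⟨0, 0, 167772160000, 0, 0, 0, 0, 0, 0, ⟨0, 0⟩, 0⟩ 0 0))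 (.pos 3 .pm ⟨0, 0, 167772160000, 0, 0, 0, 0, 0, 0, ⟨0, 0⟩, 0⟩ 0 0)) (.cut .v 4294967296 (.cut .v 268435456 (.cut .v 67108864 (.pos 60 .pp ⟨0, 0, 0, 0, 0, 0, 0, 0, 0, ⟨0, 0⟩, 0⟩ 0 0) (.cut .v 134217728 (.cut .s 16736256 (.pos 73 .pp ⟨167772160000, 0, 0, 0, 0, 0, 0, 0, 0, ⟨0, 0⟩, 0⟩ 0 0) (.cut .s 16740352 (.pos 73 .pp ⟨167772160000, 0, 0, 0, 0, 0, 0, 0, 0, ⟨0, 0⟩, 0⟩ 0 0) (.cut .s 16742400 (.pos 73 .pp ⟨167772160000, 0, 0, 0, 0, 0, 0, 0, 0, ⟨0, 0⟩, 0⟩ 0 0) (.cut .d 24649 (.cut .d 12324 (.cut .d 6162 (.cut .d 3081 (.void 73 ⟨1000000000, 0, 0, 0, 0, 0, 0, 0, 0, ⟨0, 0⟩, 0⟩ 0 0) (.pos 73 .pp ⟨0, 0, 0, 167772160000, 0, 0, 0, 0, 0, ⟨0, 0⟩, 0⟩ 0 0)) (.pos 73 .pp ⟨0,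 0, 0, 167772160000, 0, 0, 0, 0, 0, ⟨0, 0⟩, 0⟩ 0 0)) (.pos 73 .pp ⟨0, 0, 0, 93575942621, 0, 0, 0, 0, 0, ⟨0, 0⟩, 0⟩ 0 0)) (.void 73 ⟨0, 0, 0, 100000, 0, 0, 0, 0, 0, ⟨0, 0⟩, 0⟩ 0 0))))) (.void 74 ⟨88894, 0, 0, 11106, 0, 0, 0, 0, 0, ⟨0, 0⟩, 0⟩ 0 0))) (.void 87 ⟨0, 0, 0, 100000, 0, 0, 0, 0, 0, ⟨0, 0⟩, 0⟩ 0 0)) (.void 146 ⟨0, 0, 49262, 50738, 0, 0, 0, 0, 0, ⟨0, 0⟩, 0⟩ 0 0)))),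
    by decide +kernel⟩

def covers42 : cell.Covers table row42.1 :=
  ⟨(.cut .d 0 (.cut .v 16777216 (.cut .d (-8388608) (.void 1 ⟨0, 0, 2983, 0, 0, 97017, 0, 0, 0, ⟨0, 0⟩, 0⟩ 0 0) (.cut .d (-4194304) (.void 1 ⟨0, 0, 1525, 0, 0, 98475, 0, 0, 0, ⟨0, 0⟩, 0⟩ 0 0) (.cut .d (-2097152) (.void 1 ⟨0, 0, 795, 0, 0, 99205, 0, 0, 0, ⟨0, 0⟩, 0⟩ 0 0) (.cut .d (-1048576) (.void 1 ⟨0, 0, 0, 0, 0, 100000, 0, 0, 0, ⟨0, 0⟩, 0⟩ 0 0) (.cut .d (-524288) (.void 1 ⟨0, 0, 0, 0, 0, 100000, 0, 0, 0, ⟨0, 0⟩, 0⟩ 0 0) (.cut .d (-262144) (.void 1 ⟨0, 0, 157, 0, 0, 99843, 0, 0, 0, ⟨0, 0⟩, 0⟩ 0 0) (.cut .d (-131072) (.void 1 ⟨0, 0, 0, 0, 0, 100000, 0, 0, 0, ⟨0, 0⟩, 0⟩ 0 0) (.cut .d (-65536)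 (.void 1 ⟨0, 0, 89, 0, 0, 99911, 0, 0, 0, ⟨0, 0⟩, 0⟩ 0 0) (.cut .d (-32768) (.void 1 ⟨0, 0, 0, 0, 0, 100000, 0, 0, 0, ⟨0, 0⟩, 0⟩ 0 0) (.cut .v 8388608 (.void 2 ⟨0, 0, 100000, 0, 0, 0, 0, 0, 0, ⟨0, 0⟩, 0⟩ 0 0) (.cut .d (-16384) (.void 3 ⟨100000, 0, 0, 0, 0, 0, 0, 0, 0, ⟨0, 0⟩, 0⟩ 0 0) (.pos 3 .mm ⟨167772160000, 0, 0, 0, 0, 0, 0, 0, 0, ⟨0, 0⟩, 0⟩ 0 0)))))))))))) (.cut .v 4294967296 (.cut .v 268435456 (.cut .v 67108864 (.cut .d (-8388608) (.void 60 ⟨100000, 0, 0, 0, 0, 0, 0, 0, 0, ⟨0, 0⟩, 0⟩ 0 0) (.cut .d (-4194304) (.void 60 ⟨100000, 0, 0, 0, 0, 0, 0, 0, 0, ⟨0, 0⟩, 0⟩ 0 0) (.cut .d (-2097152) (.void 60 ⟨100000, 0, 0, 0, 0, 0, 0, 0, 0, ⟨0, 0⟩, 0⟩ 0 0) (.cut .d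 (-1048576) (.void 60 ⟨100000, 0, 0, 0, 0, 0, 0, 0, 0, ⟨0, 0⟩, 0⟩ 0 0) (.cut .d (-524288) (.void 60 ⟨100000, 0, 0, 0, 0, 0, 0, 0, 0, ⟨0, 0⟩, 0⟩ 0 0) (.cut .d (-262144) (.void 60 ⟨100000, 0, 0, 0, 0, 0, 0, 0, 0, ⟨0, 0⟩, 0⟩ 0 0) (.cut .d (-131072) (.void 60 ⟨100000, 0, 0, 0, 0, 0, 0, 0, 0, ⟨0, 0⟩, 0⟩ 0 0) (.cut .d (-65536) (.void 60 ⟨100000, 0, 0, 0, 0, 0, 0, 0, 0, ⟨0, 0⟩, 0⟩ 0 0) (.cut .d (-32768) (.void 60 ⟨100000, 0, 0, 0, 0, 0, 0, 0, 0, ⟨0, 0⟩, 0⟩ 0 0) (.cut .d (-16384) (.void 60 ⟨100000, 0, 0, 0, 0, 0, 0, 0, 0, ⟨0, 0⟩, 0⟩ 0 0) (.cut .d (-8192) (.void 60 ⟨100000, 0, 0, 0, 0, 0, 0, 0, 0, ⟨0, 0⟩, 0⟩ 0 0) (.pos 60 .mp ⟨167772160000, 0, 0, 0, 0, 0, 0, 0, 0, ⟨0,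 0⟩, 0⟩ 0 0)))))))))))) (.void 70 ⟨100006, 0, 0, 0, 0, 0, 0, 0, 0, ⟨0, 0⟩, 0⟩ 0 0)) (.void 87 ⟨94129, 0, 0, 5874, 0, 0, 0, 0, 0, ⟨0, 0⟩, 0⟩ 0 0)) (.void 146 ⟨94446, 0, 0, 5901, 0, 0, 0, 0, 0, ⟨0, 0⟩, 0⟩ 0 0))) (.cut .v 16777216 (.cut .v 8388608 (.cut .v 4194304 (.cut .v 2097152 (.cut .v 1048576 (.cut .v 524288 (.cut .v 262144 (.cut .v 131072 (.cut .v 65536 (.cut .v 32768 (.cut .v 16384 (.cut .v 8192 (.cut .v 4096 (.cut .v 2048 (.pos 163 .pm ⟨0, 0, 57029458, 0, 0, 0, 0, 0, 0, ⟨0, 0⟩, 0⟩ 0 0) (.pos 164 .pm ⟨0, 0, 147515972, 0, 0, 0, 0, 0, 0, ⟨0, 0⟩, 0⟩ 0 0)) (.pos 162 .pm ⟨0, 0, 264803062, 0, 0, 0, 0, 0, 0, ⟨0, 0⟩, 0⟩ 0 0)) (.pos 156 .pm ⟨0, 0, 483046129, 0, 0,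 0, 0, 0, 0, ⟨0, 0⟩, 0⟩ 0 0)) (.pos 154 .pm ⟨0, 0, 885509941, 0, 0, 0, 0, 0, 0, ⟨0, 0⟩, 0⟩ 0 0)) (.pos 152 .pm ⟨0, 0, 1641037739, 0, 0, 0, 0, 0, 0, ⟨0, 0⟩, 0⟩ 0 0)) (.pos 143 .pm ⟨0, 0, 3190073664, 0, 0, 0, 0, 0, 0, ⟨0, 0⟩, 0⟩ 0 0)) (.pos 139 .pm ⟨0, 0, 6364867809, 0, 0, 0, 0, 0, 0, ⟨0, 0⟩, 0⟩ 0 0)) (.pos 129 .pm ⟨0, 0, 12714527537, 0, 0, 0, 0, 0, 0, ⟨0, 0⟩, 0⟩ 0 0)) (.pos 125 .pm ⟨0, 0, 25414132736, 0, 0, 0, 0, 0, 0, ⟨0, 0⟩, 0⟩ 0 0)) (.pos 101 .pm ⟨0, 0, 50814486109, 0, 0, 0, 0, 0, 0, ⟨0, 0⟩, 0⟩ 0 0)) (.pos 7 .pm ⟨0, 0, 101619764756, 0, 0, 0, 0, 0, 0, ⟨0, 0⟩, 0⟩ 0 0)) (.pos 5 .pm ⟨0, 0, 167772160000, 0, 0, 0, 0, 0, 0, ⟨0, 0⟩, 0⟩ 0 0)) (.pos 3 .pm ⟨0, 0, 167772160000,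 0, 0, 0, 0, 0, 0, ⟨0, 0⟩, 0⟩ 0 0)) (.cut .v 4294967296 (.cut .v 268435456 (.cut .v 67108864 (.pos 60 .pp ⟨0, 0, 0, 0, 0, 0, 0, 0, 0, ⟨0, 0⟩, 0⟩ 0 0) (.cut .v 134217728 (.cut .v 100663296 (.pos 75 .pp ⟨167772160000, 0, 0, 0, 0, 0, 0, 0, 0, ⟨0, 0⟩, 0⟩ 0 0) (.cut .v 117440512 (.pos 147 .pp ⟨167772160000, 0, 0, 0, 0, 0, 0, 0, 0, ⟨0, 0⟩, 0⟩ 0 0) (.void 148 ⟨88895, 0, 0, 11105, 0, 0, 0, 0, 0, ⟨0, 0⟩, 0⟩ 0 0))) (.void 74 ⟨88891, 0, 0, 11109, 0, 0, 0, 0, 0, ⟨0, 0⟩, 0⟩ 0 0))) (.void 87 ⟨0, 0, 35377, 64623, 0, 0, 0, 0, 0, ⟨0, 0⟩, 0⟩ 0 0)) (.void 146 ⟨0, 0, 0, 100000, 0, 0, 0, 0, 0, ⟨0, 0⟩, 0⟩ 0 0)))),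
    by decide +kernel⟩

def covers43 : cell.Covers table row43.1 :=
  ⟨(.cut .d 0 (.cut .v 16777216 (.cut .d (-8388608) (.void 1 ⟨0, 0, 0, 0, 0, 100000, 0, 0, 0, ⟨0, 0⟩, 0⟩ 0 0) (.cut .d (-4194304) (.void 1 ⟨0, 0, 0, 0, 0, 1000000000, 0, 0, 0, ⟨0, 0⟩, 0⟩ 0 0) (.cut .d (-2097152) (.void 1 ⟨0, 0, 0, 0, 0, 100000, 0, 0, 0, ⟨0, 0⟩, 0⟩ 0 0) (.cut .d (-1048576) (.void 1 ⟨0, 0, 0, 0, 0, 100000, 0, 0, 0, ⟨0, 0⟩, 0⟩ 0 0) (.cut .d (-524288) (.void 1 ⟨0, 0, 0, 0, 0, 100000, 0, 0, 0, ⟨0, 0⟩, 0⟩ 0 0) (.cut .d (-262144) (.void 1 ⟨0, 0, 0, 0, 0, 100000, 0, 0, 0, ⟨0, 0⟩, 0⟩ 0 0) (.cut .d (-131072) (.void 1 ⟨0, 0, 0, 0, 0, 100000, 0, 0, 0, ⟨0, 0⟩, 0⟩ 0 0) (.cut .d (-65536)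 (.void 1 ⟨0, 0, 0, 0, 0, 100000, 0, 0, 0, ⟨0, 0⟩, 0⟩ 0 0) (.cut .d (-32768) (.void 1 ⟨0, 0, 0, 0, 0, 100000, 0, 0, 0, ⟨0, 0⟩, 0⟩ 0 0) (.cut .v 8388608 (.void 2 ⟨0, 0, 100000, 0, 0, 0, 0, 0, 0, ⟨0, 0⟩, 0⟩ 0 0) (.cut .d (-16384) (.void 3 ⟨1000000000, 0, 0, 0, 0, 0, 0, 0, 0, ⟨0, 0⟩, 0⟩ 0 0) (.pos 3 .mm ⟨167772160000, 0, 0, 0, 0, 0, 0, 0, 0, ⟨0, 0⟩, 0⟩ 0 0)))))))))))) (.cut .v 4294967296 (.cut .d (-8388608) (.void 86 ⟨100000, 0, 0, 3035, 0, 0, 0, 0, 0, ⟨0, 0⟩, 0⟩ 0 0) (.cut .v 268435456 (.cut .v 67108864 (.cut .d (-4194304) (.void 60 ⟨1000000000, 0, 0, 0, 0, 0, 0, 0, 0, ⟨0, 0⟩, 0⟩ 0 0) (.cut .d (-2097152) (.void 60 ⟨1000000000, 0, 0, 0, 0, 0, 0, 0, 0, ⟨0, 0⟩, 0⟩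 0 0) (.cut .d (-1048576) (.void 60 ⟨1000000000, 0, 0, 0, 0, 0, 0, 0, 0, ⟨0, 0⟩, 0⟩ 0 0) (.cut .d (-524288) (.void 60 ⟨1000000000, 0, 0, 0, 0, 0, 0, 0, 0, ⟨0, 0⟩, 0⟩ 0 0) (.cut .d (-262144) (.void 60 ⟨1000000000, 0, 0, 0, 0, 0, 0, 0, 0, ⟨0, 0⟩, 0⟩ 0 0) (.cut .d (-131072) (.void 60 ⟨1000000000, 0, 0, 0, 0, 0, 0, 0, 0, ⟨0, 0⟩, 0⟩ 0 0) (.cut .d (-65536) (.void 60 ⟨1000000000, 0, 0, 0, 0, 0, 0, 0, 0, ⟨0, 0⟩, 0⟩ 0 0) (.cut .d (-32768) (.void 60 ⟨1000000000, 0, 0, 0, 0, 0, 0, 0, 0, ⟨0, 0⟩, 0⟩ 0 0) (.cut .d (-16384) (.void 60 ⟨1000000000, 0, 0, 0, 0, 0, 0, 0, 0, ⟨0, 0⟩, 0⟩ 0 0) (.pos 60 .mp ⟨167772160000, 0, 0, 0, 0, 0, 0, 0, 0, ⟨0, 0⟩, 0⟩ 0 0)))))))))) (.void 70 ⟨1000000000,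 0, 0, 0, 0, 0, 0, 0, 0, ⟨0, 0⟩, 0⟩ 0 0)) (.void 87 ⟨1000000000, 0, 0, 0, 0, 0, 0, 0, 0, ⟨0, 0⟩, 0⟩ 0 0))) (.void 146 ⟨100000, 0, 0, 0, 0, 0, 0, 0, 0, ⟨0, 0⟩, 0⟩ 0 0))) (.cut .v 16777216 (.cut .v 8388608 (.cut .v 4194304 (.cut .v 2097152 (.cut .d 10254 (.pos 6 .pm ⟨0, 0, 167772160000, 0, 0, 0, 0, 0, 0, ⟨0, 0⟩, 0⟩ 0 0) (.cut .v 1048576 (.cut .v 524288 (.cut .v 262144 (.cut .v 131072 (.pos 138 .pm ⟨0, 0, 64920445, 0, 0, 0, 0, 0, 0, ⟨0, 0⟩, 0⟩ 0 0) (.pos 139 .pm ⟨0, 0, 13193674956, 0, 0, 0, 0, 0, 0, ⟨0, 0⟩, 0⟩ 0 0)) (.pos 129 .pm ⟨0, 0, 26372134882, 0, 0, 0, 0, 0, 0, ⟨0, 0⟩, 0⟩ 0 0)) (.pos 125 .pm ⟨0, 0, 52729341434, 0, 0, 0, 0, 0, 0, ⟨0, 0⟩, 0⟩ 0 0)) (.pos 101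 .pm ⟨0, 0, 105444901338, 0, 0, 0, 0, 0, 0, ⟨0, 0⟩, 0⟩ 0 0))) (.pos 7 .pm ⟨0, 0, 167772160000, 0, 0, 0, 0, 0, 0, ⟨0, 0⟩, 0⟩ 0 0)) (.pos 5 .pm ⟨0, 0, 167772160000, 0, 0, 0, 0, 0, 0, ⟨0, 0⟩, 0⟩ 0 0)) (.pos 3 .pm ⟨0, 0, 167772160000, 0, 0, 0, 0, 0, 0, ⟨0, 0⟩, 0⟩ 0 0)) (.cut .v 4294967296 (.cut .v 268435456 (.cut .v 67108864 (.pos 60 .pp ⟨0, 0, 0, 0, 0, 0, 0, 0, 0, ⟨0, 0⟩, 0⟩ 0 0) (.cut .s 16760832 (.pos 70 .pp ⟨0, 0, 0, 167772160000, 0, 0, 0, 0, 0, ⟨0, 0⟩, 0⟩ 0 0) (.cut .d 10254 (.cut .v 134217728 (.pos 73 .pp ⟨167772160000, 0, 0, 0, 0, 0, 0, 0, 0, ⟨0, 0⟩, 0⟩ 0 0) (.void 74 ⟨88938, 0, 0, 11062, 0, 0, 0, 0, 0, ⟨0, 0⟩, 0⟩ 0 0)) (.void 70 ⟨0, 0, 0, 100000, 0, 0, 0,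 0, 0, ⟨0, 0⟩, 0⟩ 0 0)))) (.void 87 ⟨0, 0, 0, 100000, 0, 0, 0, 0, 0, ⟨0, 0⟩, 0⟩ 0 0)) (.void 146 ⟨0, 0, 0, 100000, 0, 0, 0, 0, 0, ⟨0, 0⟩, 0⟩ 0 0)))),
    by decide +kernel⟩

def covers44 : cell.Covers table row44.1 :=
  ⟨(.cut .d 0 (.cut .v 16777216 (.cut .d (-8388608) (.void 1 ⟨0, 0, 100000, 0, 0, 0, 0, 0, 0, ⟨0, 0⟩, 0⟩ 0 0) (.cut .d (-4194304) (.void 1 ⟨0, 0, 100000, 0, 0, 0, 0, 0, 0, ⟨0, 0⟩, 0⟩ 0 0) (.cut .d (-2097152) (.void 1 ⟨0, 0, 100000, 0, 0, 0, 0, 0, 0, ⟨0, 0⟩, 0⟩ 0 0) (.cut .d (-1048576) (.void 1 ⟨0, 0, 100000, 0, 0, 0, 0, 0, 0, ⟨0, 0⟩, 0⟩ 0 0) (.cut .d (-524288) (.void 1 ⟨0, 0, 100000, 0, 0, 0, 0, 0, 0, ⟨0, 0⟩, 0⟩ 0 0) (.cut .d (-262144) (.void 1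 ⟨0, 0, 100000, 0, 0, 0, 0, 0, 0, ⟨0, 0⟩, 0⟩ 0 0) (.cut .d (-131072) (.void 1 ⟨0, 0, 100000, 0, 0, 0, 0, 0, 0, ⟨0, 0⟩, 0⟩ 0 0) (.cut .d (-65536) (.void 1 ⟨0, 0, 100000, 0, 0, 0, 0, 0, 0, ⟨0, 0⟩, 0⟩ 0 0) (.cut .d (-32768) (.void 1 ⟨0, 0, 100000, 0, 0, 0, 0, 0, 0, ⟨0, 0⟩, 0⟩ 0 0) (.cut .d (-16384) (.void 1 ⟨0, 0, 100000, 0, 0, 0, 0, 0, 0, ⟨0, 0⟩, 0⟩ 0 0) (.cut .v 8388608 (.cut .s 16766976 (.void 2 ⟨0, 0, 100000, 0, 0, 0, 0, 0, 0, ⟨0, 0⟩, 0⟩ 0 0) (.void 2 ⟨0, 0, 100000, 0, 0, 0, 0, 0, 0, ⟨0, 0⟩, 0⟩ 0 0)) (.cut .d (-8192) (.void 3 ⟨1000000000, 0, 0, 0, 0, 0, 0, 0, 0, ⟨0, 0⟩, 0⟩ 0 0) (.pos 3 .mm ⟨167772160000, 0, 0, 0, 0, 0, 0, 0, 0, ⟨0, 0⟩, 0⟩ 0 0))))))))))))) (.cut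 .v 4294967296 (.cut .d (-8388608) (.void 86 ⟨1000000000, 0, 0, 0, 0, 0, 0, 0, 0, ⟨0, 0⟩, 0⟩ 0 0) (.cut .v 268435456 (.cut .v 67108864 (.cut .d (-4194304) (.void 60 ⟨1000000000, 0, 0, 0, 0, 0, 0, 0, 0, ⟨0, 0⟩, 0⟩ 0 0) (.cut .d (-2097152) (.void 60 ⟨1000000000, 0, 0, 0, 0, 0, 0, 0, 0, ⟨0, 0⟩, 0⟩ 0 0) (.cut .d (-1048576) (.void 60 ⟨1000000000, 0, 0, 0, 0, 0, 0, 0, 0, ⟨0, 0⟩, 0⟩ 0 0) (.cut .d (-524288) (.void 60 ⟨1000000000, 0, 0, 0, 0, 0, 0, 0, 0, ⟨0, 0⟩, 0⟩ 0 0) (.cut .d (-262144) (.void 60 ⟨1000000000, 0, 0, 0, 0, 0, 0, 0, 0, ⟨0, 0⟩, 0⟩ 0 0) (.cut .d (-131072) (.void 60 ⟨1000000000, 0, 0, 0, 0, 0, 0, 0, 0, ⟨0, 0⟩, 0⟩ 0 0) (.cut .d (-65536) (.void 60 ⟨1000000000,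 0, 0, 0, 0, 0, 0, 0, 0, ⟨0, 0⟩, 0⟩ 0 0) (.cut .d (-32768) (.void 60 ⟨1000000000, 0, 0, 0, 0, 0, 0, 0, 0, ⟨0, 0⟩, 0⟩ 0 0) (.cut .d (-16384) (.void 60 ⟨1000000000, 0, 0, 0, 0, 0, 0, 0, 0, ⟨0, 0⟩, 0⟩ 0 0) (.cut .d (-8192) (.void 60 ⟨1000000000, 0, 0, 0, 0, 0, 0, 0, 0, ⟨0, 0⟩, 0⟩ 0 0) (.pos 60 .mp ⟨167772160000, 0, 0, 0, 0, 0, 0, 0, 0, ⟨0, 0⟩, 0⟩ 0 0))))))))))) (.void 70 ⟨1000000000, 0, 0, 0, 0, 0, 0, 0, 0, ⟨0, 0⟩, 0⟩ 0 0)) (.void 87 ⟨91509, 0, 0, 8491, 0, 0, 0, 0, 0, ⟨0, 0⟩, 0⟩ 0 0))) (.cut .l 850045 (.void 146 ⟨1000000000, 0, 0, 0, 0, 0, 0, 0, 0, ⟨0, 0⟩, 0⟩ 0 0) (.void 146 ⟨1000000000, 0, 0, 0, 0, 0, 0, 0, 0, ⟨0, 0⟩, 0⟩ 0 0)))) (.cut .v 16777216 (.cut .v 8388608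 (.cut .v 4194304 (.cut .v 2097152 (.cut .d 6150 (.void 6 ⟨0, 0, 100000, 0, 0, 0, 0, 0, 0, ⟨0, 0⟩, 0⟩ 0 0) (.cut .d 9225 (.cut .s 16766976 (.pos 6 .pm ⟨0, 0, 167772160000, 0, 0, 0, 0, 0, 0, ⟨0, 0⟩, 0⟩ 0 0) (.pos 6 .pm ⟨0, 0, 15298264, 0, 0, 0, 0, 0, 0, ⟨0, 0⟩, 0⟩ 0 0)) (.pos 6 .pm ⟨0, 0, 0, 2102772, 0, 0, 0, 0, 0, ⟨0, 0⟩, 0⟩ 0 0))) (.pos 7 .pm ⟨0, 0, 167772160000, 0, 0, 0, 0, 0, 0, ⟨0, 0⟩, 0⟩ 0 0)) (.pos 5 .pm ⟨0, 0, 167772160000, 0, 0, 0, 0, 0, 0, ⟨0, 0⟩, 0⟩ 0 0)) (.pos 3 .pm ⟨0, 0, 167772160000, 0, 0, 0, 0, 0, 0, ⟨0, 0⟩, 0⟩ 0 0)) (.cut .v 4294967296 (.cut .v 268435456 (.cut .v 67108864 (.pos 60 .pp ⟨0, 0, 0, 0, 0, 0, 0, 0, 0, ⟨0, 0⟩, 0⟩ 0 0) (.cut .d 6150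 (.cut .d 3075 (.cut .v 134217728 (.pos 73 .pp ⟨167772160000, 0, 0, 0, 0, 0, 0, 0, 0, ⟨0, 0⟩, 0⟩ 0 0) (.void 74 ⟨90161, 0, 0, 9839, 0, 0, 0, 0, 0, ⟨0, 0⟩, 0⟩ 0 0)) (.pos 70 .pp ⟨0, 0, 0, 167772160000, 0, 0, 0, 0, 0, ⟨0, 0⟩, 0⟩ 0 0)) (.pos 70 .pp ⟨0, 0, 0, 167772160000, 0, 0, 0, 0, 0, ⟨0, 0⟩, 0⟩ 0 0))) (.void 87 ⟨0, 0, 0, 100000, 0, 0, 0, 0, 0, ⟨0, 0⟩, 0⟩ 0 0)) (.void 146 ⟨0, 0, 0, 100000, 0, 0, 0, 0, 0, ⟨0, 0⟩, 0⟩ 0 0)))),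
    by decide +kernel⟩

def covers45 : cell.Covers table row45.1 :=
  ⟨(.cut .d 0 (.cut .v 16777216 (.cut .d (-8388608) (.void 1 ⟨0, 0, 6774, 0, 0, 93226, 0, 0, 0, ⟨0, 0⟩, 0⟩ 0 0) (.cut .d (-4194304) (.void 1 ⟨0, 0, 0, 0, 0, 1000000000, 0, 0, 0, ⟨0, 0⟩, 0⟩ 0 0) (.cut .d (-2097152) (.void 1 ⟨0, 0, 100000, 0, 0, 0, 0, 0, 0, ⟨0, 0⟩, 0⟩ 0 0) (.cut .d (-1048576) (.void 1 ⟨0, 0, 9, 0, 0, 99991, 0, 0, 0, ⟨0, 0⟩, 0⟩ 0 0) (.cut .v 8388608 (.void 2 ⟨0, 0, 100000, 0, 0, 0, 0, 0, 0, ⟨0, 0⟩, 0⟩ 0 0) (.cut .d (-524288) (.void 3 ⟨1000000000, 0, 0, 0, 0, 0, 0, 0, 0, ⟨0, 0⟩, 0⟩ 0 0) (.cut .d (-262144) (.void 3 ⟨1000000000, 0, 0, 0, 0, 0, 0, 0, 0, ⟨0, 0⟩, 0⟩ 0 0) (.cut .d (-131072)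 (.void 3 ⟨1000000000, 0, 0, 0, 0, 0, 0, 0, 0, ⟨0, 0⟩, 0⟩ 0 0) (.cut .d (-65536) (.void 3 ⟨1000000000, 0, 0, 0, 0, 0, 0, 0, 0, ⟨0, 0⟩, 0⟩ 0 0) (.cut .d (-32768) (.void 3 ⟨1000000000, 0, 0, 0, 0, 0, 0, 0, 0, ⟨0, 0⟩, 0⟩ 0 0) (.cut .d (-16384) (.void 3 ⟨1000000000, 0, 0, 0, 0, 0, 0, 0, 0, ⟨0, 0⟩, 0⟩ 0 0) (.cut .d (-8192) (.void 3 ⟨1000000000, 0, 0, 0, 0, 0, 0, 0, 0, ⟨0, 0⟩, 0⟩ 0 0) (.cut .d (-4096) (.void 3 ⟨1000000000, 0, 0, 0, 0, 0, 0, 0, 0, ⟨0, 0⟩, 0⟩ 0 0) (.pos 3 .mm ⟨167772160000, 0, 0, 0, 0, 0, 0, 0, 0, ⟨0, 0⟩, 0⟩ 0 0)))))))))))))) (.cut .v 4294967296 (.cut .d (-8388608) (.void 86 ⟨96975, 0, 0, 3025, 0, 0, 0, 0, 0, ⟨0, 0⟩, 0⟩ 0 0) (.cut .v 268435456 (.cut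 .d (-4194304) (.void 69 ⟨1000000000, 0, 0, 0, 0, 0, 0, 0, 0, ⟨0, 0⟩, 0⟩ 0 0) (.cut .v 67108864 (.cut .d (-2097152) (.void 60 ⟨1000000000, 0, 0, 0, 0, 0, 0, 0, 0, ⟨0, 0⟩, 0⟩ 0 0) (.cut .d (-1048576) (.void 60 ⟨1000000000, 0, 0, 0, 0, 0, 0, 0, 0, ⟨0, 0⟩, 0⟩ 0 0) (.cut .d (-524288) (.void 60 ⟨1000000000, 0, 0, 0, 0, 0, 0, 0, 0, ⟨0, 0⟩, 0⟩ 0 0) (.cut .d (-262144) (.void 60 ⟨1000000000, 0, 0, 0, 0, 0, 0, 0, 0, ⟨0, 0⟩, 0⟩ 0 0) (.cut .d (-131072) (.void 60 ⟨1000000000, 0, 0, 0, 0, 0, 0, 0, 0, ⟨0, 0⟩, 0⟩ 0 0) (.cut .d (-65536) (.void 60 ⟨1000000000, 0, 0, 0, 0, 0, 0, 0, 0, ⟨0, 0⟩, 0⟩ 0 0) (.cut .d (-32768) (.void 60 ⟨1000000000, 0, 0, 0, 0, 0, 0, 0, 0, ⟨0, 0⟩, 0⟩ 0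 0) (.cut .d (-16384) (.void 60 ⟨1000000000, 0, 0, 0, 0, 0, 0, 0, 0, ⟨0, 0⟩, 0⟩ 0 0) (.cut .d (-8192) (.void 60 ⟨1000000000, 0, 0, 0, 0, 0, 0, 0, 0, ⟨0, 0⟩, 0⟩ 0 0) (.cut .d (-4096) (.void 60 ⟨1000000000, 0, 0, 0, 0, 0, 0, 0, 0, ⟨0, 0⟩, 0⟩ 0 0) (.cut .d (-2048) (.void 60 ⟨1000000000, 0, 0, 0, 0, 0, 0, 0, 0, ⟨0, 0⟩, 0⟩ 0 0) (.pos 60 .mp ⟨167772160000, 0, 0, 0, 0, 0, 0, 0, 0, ⟨0, 0⟩, 0⟩ 0 0)))))))))))) (.void 70 ⟨1000000000, 0, 0, 0, 0, 0, 0, 0, 0, ⟨0, 0⟩, 0⟩ 0 0))) (.void 87 ⟨91432, 0, 0, 8568, 0, 0, 0, 0, 0, ⟨0, 0⟩, 0⟩ 0 0))) (.cut .v 68719476736 (.cut .v 17179869184 (.void 165 ⟨94407, 0, 0, 5593, 0, 0, 0, 0, 0, ⟨0, 0⟩, 0⟩ 0 0) (.void 166 ⟨94407, 0, 0, 5593,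 0, 0, 0, 0, 0, ⟨0, 0⟩, 0⟩ 0 0)) (.void 160 ⟨94407, 0, 0, 5593, 0, 0, 0, 0, 0, ⟨0, 0⟩, 0⟩ 0 0)))) (.cut .v 16777216 (.cut .v 8388608 (.cut .v 4194304 (.cut .v 2097152 (.cut .v 1048576 (.cut .v 524288 (.cut .v 262144 (.cut .d 4099 (.pos 128 .pm ⟨0, 0, 99928179185, 0, 0, 0, 0, 0, 0, ⟨0, 0⟩, 0⟩ 0 0) (.cut .v 131072 (.cut .v 65536 (.cut .v 32768 (.cut .v 16384 (.cut .v 8192 (.cut .v 4096 (.cut .s 16771072 (.pos 161 .pm ⟨0, 0, 98220961, 0, 0, 0, 0, 0, 0, ⟨0, 0⟩, 0⟩ 0 0) (.pos 161 .pm ⟨0, 0, 51791322, 0, 0, 0, 0, 0, 0, ⟨0, 0⟩, 0⟩ 0 0)) (.pos 162 .pm ⟨0, 0, 1906001909, 0, 0, 0, 0, 0, 0, ⟨0, 0⟩, 0⟩ 0 0)) (.pos 156 .pm ⟨0, 0, 3796715553, 0, 0, 0, 0, 0, 0, ⟨0, 0⟩, 0⟩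 0 0)) (.pos 154 .pm ⟨0, 0, 7578143123, 0, 0, 0, 0, 0, 0, ⟨0, 0⟩, 0⟩ 0 0)) (.pos 152 .pm ⟨0, 0, 15140999387, 0, 0, 0, 0, 0, 0, ⟨0, 0⟩, 0⟩ 0 0)) (.pos 143 .pm ⟨0, 0, 30266716413, 0, 0, 0, 0, 0, 0, ⟨0, 0⟩, 0⟩ 0 0)) (.pos 139 .pm ⟨0, 0, 60518168453, 0, 0, 0, 0, 0, 0, ⟨0, 0⟩, 0⟩ 0 0))) (.pos 129 .pm ⟨0, 0, 167772160000, 0, 0, 0, 0, 0, 0, ⟨0, 0⟩, 0⟩ 0 0)) (.pos 125 .pm ⟨0, 0, 167772160000, 0, 0, 0, 0, 0, 0, ⟨0, 0⟩, 0⟩ 0 0)) (.pos 101 .pm ⟨0, 0, 167772160000, 0, 0, 0, 0, 0, 0, ⟨0, 0⟩, 0⟩ 0 0)) (.pos 7 .pm ⟨0, 0, 167772160000, 0, 0, 0, 0, 0, 0, ⟨0, 0⟩, 0⟩ 0 0)) (.pos 5 .pm ⟨0, 0, 167772160000, 0, 0, 0, 0, 0, 0, ⟨0, 0⟩, 0⟩ 0 0)) (.pos 3 .pm ⟨0, 0, 167772160000, 0, 0,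 0, 0, 0, 0, ⟨0, 0⟩, 0⟩ 0 0)) (.cut .v 4294967296 (.cut .v 268435456 (.cut .v 67108864 (.pos 60 .pp ⟨0, 0, 0, 0, 0, 0, 0, 0, 0, ⟨0, 0⟩, 0⟩ 0 0) (.cut .d 4099 (.cut .v 134217728 (.pos 73 .pp ⟨167772160000, 0, 0, 0, 0, 0, 0, 0, 0, ⟨0, 0⟩, 0⟩ 0 0) (.cut .s 16771072 (.void 74 ⟨88878, 0, 0, 11122, 0, 0, 0, 0, 0, ⟨0, 0⟩, 0⟩ 0 0) (.void 74 ⟨88895, 0, 0, 11111, 0, 0, 0, 0, 0, ⟨0, 0⟩, 0⟩ 0 0))) (.pos 70 .pp ⟨0, 0, 0, 167772160000, 0, 0, 0, 0, 0, ⟨0, 0⟩, 0⟩ 0 0))) (.void 87 ⟨0, 0, 0, 1000000000, 0, 0, 0, 0, 0, ⟨0, 0⟩, 0⟩ 0 0)) (.void 146 ⟨0, 0, 0, 1000000000, 0, 0, 0, 0, 0, ⟨0, 0⟩, 0⟩ 0 0)))),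
    by decide +kernel⟩

end Vale.Agent.P237.Petty.Cor.Grid.N15.Low
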